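import Vale.Agent.P022F.Fm.CycA
import Vale.Agent.P022D.Loc2.Dec
import Vale.Agent.P022.H297.L3.Inert
import Vale.Agent.P022F.Ns

/-!
# P022D, forms side: the group of diamond operators at the auxiliary primes
-/

set_option linter.all false

noncomputable section

namespace Vale.Agent.P022F.Fm

open NumberField
open Vale.Agent.P022 Vale.Agent.P022D.V Vale.Agent.P022F.V Vale.Agent.P022D.As Vale.Agent.P022F.As
  Vale.Agent.P022.H853

/-- groups of exponent `2 ^ n` with a basis -/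
abbrev Dg (ι : Type) (n : ℕ) : Type := Multiplicative (ι → ZMod (2 ^ n))

section del

variable {T W ι : Type} [CommRing T] [AddCommGroup W] [Module T W] [Fintype ι] {n : ℕ}

theorem pow_mod_smul {x : T} {m : ℕ} (h : ∀ w : W, x ^ m • w = w) (k : ℕ) (w : W) :
    x ^ (k % m) • w = x ^ k • w := by
  conv_rhs => rw [← Nat.mod_add_div k m, pow_add, mul_smul, pow_mul]
  congr 1
  induction k / m with
  | zero => rw [pow_zero, one_smul]
  | succ j ih => rw [pow_succ, mul_smul, h, ← ih]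

theorem prod_smul_congr (s : Finset ι) {x y : ι → T} (h : ∀ i (w : W), x i • w = y i • w) (w : W) :
    (∏ i ∈ s, x i) • w = (∏ i ∈ s, y i) • w := by
  classical
  induction s using Finset.induction_on with
  | empty => rfl
  | insert a s ha ih => rw [Finset.prod_insert ha, Finset.prod_insert ha, mul_smul, mul_smul, ih, h]

/-- the action of the group -/
def del (x : ι → T) (h : ∀ s (w : W), x s ^ 2 ^ n • w = w) : Dg ι n →* Module.End T W where
  toFun k := LinearMap.lsmul T W (∏ s, x s ^ (k.toAdd s).val)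
  map_one' := LinearMap.ext fun w => by simp
  map_mul' k k' := LinearMap.ext fun w => by
    rw [Module.End.mul_apply, LinearMap.lsmul_apply, LinearMap.lsmul_apply, LinearMap.lsmul_apply,
      ← mul_smul, ← Finset.prod_mul_distrib]
    refine prod_smul_congr _ (fun s w => ?_) w
    rw [toAdd_mul, Pi.add_apply, ZMod.val_add, pow_mod_smul (h s), pow_add]

variable {x : ι → T} (h : ∀ s (w : W), x s ^ 2 ^ n • w = w)

theorem del_apply (k : Dg ι n) (w : W) : del x h k w = (∏ s, x s ^ (k.toAdd s).val) • w := rfl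

theorem del_single [DecidableEq ι] (s : ι) (c : ZMod (2 ^ n)) (w : W) :
    del x h (Multiplicative.ofAdd (Pi.single s c)) w = x s ^ c.val • w := by
  rw [del_apply, Finset.prod_eq_single s]
  · simp
  · intro b _ e
    simp [Pi.single_eq_of_ne e]
  · simp

theorem del_gen [DecidableEq ι] (s : ι) (w : W) :
    del x h (Multiplicative.ofAdd (Pi.single s 1)) w = x s • w := by
  rw [del_single, ← Nat.cast_one, ZMod.val_natCast, pow_mod_smul (h s), pow_one]

theorem del_fix [DecidableEq ι] {w : W} : (∀ k, del x h k w = w) ↔ ∀ s, x s • w = w := by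
  refine ⟨fun e s => (del_gen h s w).symm.trans (e _), fun e k => ?_⟩
  rw [del_apply]
  refine Finset.prod_induction _ (fun y : T => y • w = w)
    (fun a b ha hb => by rw [mul_smul, hb, ha]) (one_smul _ _) fun s _ => ?_
  induction (k.toAdd s).val with
  | zero => rw [pow_zero, one_smul]
  | succ j ih => rw [pow_succ, mul_smul, e, ih]

theorem sum_del [DecidableEq ι] (w : W) : ∑ k, del x h k w =
    (∑ k : ι → ZMod (2 ^ n), ∏ s, x s ^ (k s).val) • w := by
  rw [Finset.sum_smul]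
  exact (Fintype.sum_equiv Multiplicative.ofAdd _ _ fun c => rfl).symm

end del

section lam

variable {M N n r : ℕ} {q : Fin r → ℕ} {b : Fin r → (ZMod M)ˣ}

theorem cg_cast [NeZero M] {N : ℕ} (h : N ∣ M) {x y : ZMod M} :
    Cg M N x y ↔ ZMod.castHom h (ZMod N) x = ZMod.castHom h (ZMod N) y := by
  constructor
  · rintro ⟨t, rfl⟩
    rw [map_add, map_mul, map_natCast, ZMod.natCast_self, zero_mul, add_zero]
  · intro e
    rw [← sub_eq_zero, ← map_sub, ZMod.castHom_apply, ← ZMod.natCast_val,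
      ZMod.natCast_eq_zero_iff] at e
    obtain ⟨t, ht⟩ := e
    exact ⟨t, by rw [← Nat.cast_mul, ← ht, ZMod.natCast_zmod_val]; ring⟩

/-- logarithms -/
structure Lam (q : Fin r → ℕ) (b : Fin r → (ZMod M)ˣ)
    (lam : Fin r → (ZMod M)ˣ →* Multiplicative (ZMod (2 ^ n))) : Prop where
  self : ∀ j, lam j (b j) = Multiplicative.ofAdd 1
  other : ∀ (j) (c : (ZMod M)ˣ), Cg M (q j) c 1 → lam j c = 1

theorem exists_gen {p : ℕ} (h : Sp M (M / p) p) (h1 : 2 ^ n ∣ p - 1) : ∃ (u : (ZMod M)ˣ)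
    (l : (ZMod M)ˣ →* Multiplicative (ZMod (2 ^ n))), Cg M (M / p) u 1 ∧
      (∀ a : (ZMod M)ˣ, Cg M (M / p) a 1 → ∃ k : ℕ, a = u ^ k) ∧ l u = Multiplicative.ofAdd 1 ∧
      ∀ c : (ZMod M)ˣ, Cg M p c 1 → l c = 1 := by
  have : NeZero M := ⟨h.odd.pos.ne'⟩
  have := Fact.mk h.prime
  have hp : p ∣ M := Dvd.intro_left _ h.eq.symm
  obtain ⟨g, hg⟩ := IsCyclic.exists_generator (α := (ZMod p)ˣ)
  obtain ⟨g', hg'⟩ := ZMod.unitsMap_surjective hp g
  obtain ⟨x, y, D⟩ := GrpP.dat h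
  have xx := D.ee
  have yy := D.symm.ee
  have xy := D.mul
  have ai := g'.mul_inv
  let u : (ZMod M)ˣ := Units.mkOfMulEqOne (x * g' + y) (x * (g'⁻¹ : (ZMod M)ˣ) + y) (by
    linear_combination (x * x) * ai + xx + yy + D.add +
      ((g' : ZMod M) + (g'⁻¹ : (ZMod M)ˣ)) * xy)
  have e1 : (u : ZMod M) = x * g' + y := rfl
  have rs : ∀ a c : (ZMod M)ˣ, Cg M p a c ↔ ZMod.unitsMap hp a = ZMod.unitsMap hp c := fun a c =>
    (cg_cast hp).trans ⟨fun e => Units.ext e, fun e => congrArg Units.val e⟩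
  have u1 : Cg M (M / p) u 1 := D.cg.2 (by rw [e1]; linear_combination (g' : ZMod M) * xy + yy)
  have u2 : ZMod.unitsMap hp u = g := hg' ▸ (rs u g').1
    (D.symm.cg.2 (by rw [e1]; linear_combination (g' : ZMod M) * xx + xy))
  have ho : orderOf (Multiplicative.ofAdd (1 : ZMod (2 ^ n))) ∣ orderOf g := by
    rw [orderOf_eq_card_of_forall_mem_zpowers hg, Nat.card_eq_fintype_card, ZMod.card_units,
      orderOf_ofAdd_eq_addOrderOf, ZMod.addOrderOf_one]
    exact h1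
  refine ⟨u, (monoidHomOfForallMemZpowers hg ho).comp (ZMod.unitsMap hp), u1, fun a ha => ?_, ?_,
    fun c hc => ?_⟩
  · obtain ⟨k, hk⟩ := mem_powers_iff_mem_zpowers.2 (hg (ZMod.unitsMap hp a))
    have a1 := D.symm.cg.1 ((rs a (u ^ k)).2 (by rw [map_pow, u2]; exact hk.symm))
    have a2 := D.cg.1 ha
    have a3 := D.cg.1 (mem_U1.1 ((U1 M (M / p)).pow_mem u1 k))
    exact ⟨k, Units.ext (by
      linear_combination a1 + a2 - a3 - ((a : ZMod M) - (u ^ k : (ZMod M)ˣ)) * D.add)⟩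
  · rw [MonoidHom.comp_apply, u2, monoidHomOfForallMemZpowers_apply_gen]
  · rw [MonoidHom.comp_apply, (rs c 1).1 hc]
    exact map_one ((monoidHomOfForallMemZpowers hg ho).comp (ZMod.unitsMap hp))

/-- **the generators of inertia at the auxiliary primes** -/
theorem exists_tau [NeZero M] (hM : Odd M) (e : M = N * ∏ j, q j) (hi : Function.Injective q)
    (hp : ∀ j, (q j).Prime ∧ ¬ q j ∣ N) (h1 : ∀ j, 2 ^ n ∣ q j - 1) :
    ∃ (τ : Fin r → GQ) (lam : Fin r → (ZMod M)ˣ →* Multiplicative (ZMod (2 ^ n))),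
      (∀ j, ∃ P : Ideal (𝓞 Qb), P.IsPrime ∧ (q j : 𝓞 Qb) ∈ P ∧ P027M.S.Inert P (τ j)) ∧
      Aux M N n q (fun j => cyc M (τ j)) ∧ Lam q (fun j => cyc M (τ j)) lam := by
  have sp : ∀ j, Sp M (M / q j) (q j) := fun j => (Cyc.sp_of (N := N) hM
    (by rw [List.prod_ofFn]; exact e) (List.nodup_ofFn.2 hi) (List.forall_mem_ofFn_iff.2 hp)
    (List.mem_ofFn.2 ⟨j, rfl⟩)).1
  choose u l a1 a2 a3 a4 using fun j => exists_gen (sp j) (h1 j)
  have k : ∀ j, ∃ τ : GQ, (∃ P : Ideal (𝓞 Qb), P.IsPrime ∧ (q j : 𝓞 Qb) ∈ P ∧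
      P027M.S.Inert P τ) ∧ cyc M τ = u j := fun j => by
    have := Fact.mk (hp j).1
    obtain ⟨g, g1, g2⟩ := H297.L3.inert_cyc (m := M) (k := 1) (m' := M / q j) (hp j).1
      (by rw [pow_one, mul_comm]; exact (sp j).eq) (sp j).cop.symm (P022D.Loc2.PP_prime (q j))
      (P022D.Loc2.p_mem_PP (q j)) (u j) (by
        have := (cg_cast (sp j).dvd).1 (a1 j)
        rw [map_one, ZMod.castHom_apply, ← ZMod.natCast_val, ← Nat.cast_one,
          ZMod.natCast_eq_natCast_iff] at this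
        exact this)
    exact ⟨g, ⟨_, P022D.Loc2.PP_prime (q j), P022D.Loc2.p_mem_PP (q j), g1⟩, g2⟩
  choose τ b1 b2 using k
  refine ⟨τ, l, b1, ⟨hM, e, hi, hp, fun j => b2 j ▸ a1 j, fun j a ha => ?_⟩,
    fun j => b2 j ▸ a3 j, a4⟩
  obtain ⟨k, hk⟩ := a2 j a ha
  exact ⟨k, 1, Cyc.cg_one, by rw [b2, one_pow, mul_one, hk]⟩

theorem Aux.lam (A : Aux M N n q b) (h1 : ∀ j, 2 ^ n ∣ q j - 1) :
    ∃ lam : Fin r → (ZMod M)ˣ →* Multiplicative (ZMod (2 ^ n)), Lam q b lam := by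
  choose u l a1 a2 a3 a4 using fun j => exists_gen (A.sp j).1 (h1 j)
  choose k c c1 c2 using fun j => A.gen j (u j) (a1 j)
  refine ⟨fun j => l j ^ k j, fun j => ?_, fun j c hc => ?_⟩
  · have e : l j (c j) ^ 2 ^ n = 1 := by
      apply Multiplicative.toAdd.injective
      rw [toAdd_pow, nsmul_eq_mul, ZMod.natCast_self, zero_mul]
      rfl
    rw [MonoidHom.pow_apply, ← a3 j, c2 j, map_mul, map_pow, map_pow, e, mul_one]
  · rw [MonoidHom.pow_apply, a4 j c hc, one_pow]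

/-- the class of `diag (a, d)` in the group of diamond operators -/
def lg (lam : Fin r → (ZMod M)ˣ →* Multiplicative (ZMod (2 ^ n))) :
    (ZMod M)ˣ × (ZMod M)ˣ →* Dg (Fin r ⊕ Fin r) n :=
  MonoidHom.mk' (fun a => Multiplicative.ofAdd (Sum.elim
    (fun j => (lam j a.1).toAdd + (lam j a.2).toAdd) fun j => (lam j a.1).toAdd)) fun a c => by
      apply Multiplicative.toAdd.injective
      funext s
      rcases s with j | j
      · simp [add_add_add_comm]
      · simp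

variable {lam : Fin r → (ZMod M)ˣ →* Multiplicative (ZMod (2 ^ n))}

theorem Lam.val (A : Aux M N n q b) (L : Lam q b lam) (j j' : Fin r) :
    (lam j' (b j)).toAdd = Pi.single (M := fun _ => ZMod (2 ^ n)) j 1 j' := by
  by_cases e : j' = j
  · rw [e, L.self, Pi.single_eq_same]
    rfl
  · rw [Pi.single_eq_of_ne e, L.other j' _ (Cyc.Cg.of_dvd (A.one j) (Cyc.dvd_div (A.sp j).1
      (Dvd.intro_left _ (A.sp j').1.eq.symm)
      ((Nat.coprime_primes (A.pr j').1 (A.pr j).1).2 fun h => e (A.inj h))))]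
    rfl

theorem lg_left (A : Aux M N n q b) (L : Lam q b lam) (j : Fin r) :
    lg lam (1, b j) = Multiplicative.ofAdd (Pi.single (Sum.inl j) 1) := by
  apply Multiplicative.toAdd.injective
  funext s
  rcases s with j' | j'
  · simp [lg, L.val A, Pi.single_apply]
  · simp [lg]

theorem lg_right (A : Aux M N n q b) (L : Lam q b lam) (j : Fin r) :
    lg lam (b j, (b j)⁻¹) = Multiplicative.ofAdd (Pi.single (Sum.inr j) 1) := by
  apply Multiplicative.toAdd.injective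
  funext s
  rcases s with j' | j'
  · simp [lg]
  · simp [lg, L.val A, Pi.single_apply]

theorem lg_surj (A : Aux M N n q b) (L : Lam q b lam) (k : Dg (Fin r ⊕ Fin r) n) :
    ∃ a d : (ZMod M)ˣ, Cg M N a 1 ∧ Cg M N d 1 ∧ lg lam (a, d) = k := by
  have h1 : ∀ j, b j ∈ U1 M N := fun j => Cyc.Cg.of_dvd (A.one j) (A.sp j).2
  suffices h : k ∈ ((U1 M N).prod (U1 M N)).map (lg lam) by
    obtain ⟨⟨a, d⟩, ⟨h2, h3⟩, h4⟩ := h
    exact ⟨a, d, h2, h3, h4⟩
  have e : k = ∏ s, Multiplicative.ofAdd (Pi.single s (1 : ZMod (2 ^ n))) ^ (k.toAdd s).val := by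
    apply Multiplicative.toAdd.injective
    funext j
    rw [toAdd_prod, Finset.sum_apply, Finset.sum_eq_single j]
    · simp
    · intro i _ h
      simp [Pi.single_eq_of_ne h.symm]
    · simp
  rw [e]
  refine prod_mem fun s _ => pow_mem ?_ _
  rcases s with j | j
  · exact ⟨_, ⟨one_mem _, h1 j⟩, lg_left A L j⟩
  · exact ⟨_, ⟨h1 j, inv_mem (h1 j)⟩, lg_right A L j⟩

end lam

section act

variable {O : Type} [CommRing O] [Co O] {R : Type} [CommRing R] [Algebra O R] {M N n r : ℕ}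
  {q : Fin r → ℕ} {b : Fin r → (ZMod M)ˣ} {W : Type} [AddCommGroup W] [Module (Tg O) W]

/-- the symbols act as diamond operators -/
structure Dm (n : ℕ) (q : Fin r → ℕ) (b : Fin r → (ZMod M)ˣ) (τ : Fin r → GQ)
    (ι : W →+ FT M R) : Prop where
  inj : Function.Injective ι
  inv : ∀ (j) (c : (ZMod M)ˣ), Cg M (M / q j) c 1 → ∀ w,
    rt O _ (dg (c ^ 2 ^ n) 1) (ι w) = ι w ∧ rt O _ (dg 1 (c ^ 2 ^ n)) (ι w) = ι w
  hy : ∀ j : Fin r, Rp ι (1 + yy j : Tg O) (rL O _ (dg 1 (b j)))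
  ht : ∀ j, Rp ι (tt (τ j) : Tg O) (rL O _ (dg (b j) 1) + rL O _ (dg 1 (b j)))

variable {τ : Fin r → GQ} {ι : W →+ FT M R}

theorem Dm.d2 (D : Dm (O := O) n q b τ ι) (j : Fin r) :
    Rp ι (tt (τ j) - (1 + yy j) : Tg O) (rL O _ (dg (b j) 1)) := by
  have := (D.ht j).sub (D.hy j)
  rwa [add_sub_cancel_right] at this

theorem Dm.ee (A : Aux M N n q b) (D : Dm (O := O) n q b τ ι) (j : Fin r) :
    Rp ι (ee n τ j : Tg O) (rL O _ (dg (b j) (b j)⁻¹)) := fun w => by
  have h := (D.d2 j).mul ((D.hy j).pow (2 ^ n - 1)) w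
  rw [← map_pow, ← map_mul, dg_pw, dg_mul, one_mul, one_pow, mul_one] at h
  rw [P022D.As.ee, h, rL_apply, rL_apply]
  conv_rhs => rw [← (D.inv j _ (A.one j) w).2, Cyc.rt_rt, dg_mul, mul_one]
  congr 3
  rw [eq_inv_mul_iff_mul_eq, ← pow_succ', Nat.sub_add_cancel Nat.one_le_two_pow]

theorem Dm.grp (A : Aux M N n q b) (D : Dm (O := O) n q b τ ι) (s : Fin r ⊕ Fin r) (w : W) :
    (dl n τ s : Tg O) ^ 2 ^ n • w = w := by
  refine D.inj ?_
  rcases s with j | j
  · refine ((D.hy j).pow _ w).trans ?_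
    rw [← map_pow, dg_pw, one_pow]
    exact (D.inv j _ (A.one j) w).2
  · refine ((D.ee A j).pow _ w).trans ?_
    rw [← map_pow, dg_pw, rL_apply]
    conv_rhs => rw [← (D.inv j _ (Cyc.cg_inv (A.one j)) w).2, ← (D.inv j _ (A.one j) w).1,
      Cyc.rt_rt, dg_mul, one_mul, mul_one]

/-- **the field `dia`** -/
theorem Dm.dia (A : Aux M N n q b) (D : Dm (O := O) n q b τ ι)
    (hd : ∀ j, Rp ι (dd (τ j) : Tg O) (rL O _ (dg (b j) (b j)))) : Dia (O := O) n τ W := by
  refine ⟨fun j w => D.inj ?_, D.grp A⟩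
  rw [hd j w, (D.hy j).mul (D.d2 j) w, ← map_mul, dg_mul, one_mul, mul_one]

variable {lam : Fin r → (ZMod M)ˣ →* Multiplicative (ZMod (2 ^ n))}

/-- the diagonal matrices on which two actions agree -/
def eqH (O : Type) [CommRing O] [Algebra O R] {T : Type} [CommRing T] [Module T W]
    (ι : W →+ FT M R) (σ : (ZMod M)ˣ × (ZMod M)ˣ →* Module.End T W) :
    Subgroup ((ZMod M)ˣ × (ZMod M)ˣ) where
  carrier := {x | ∀ w, ι (σ x w) = rt O _ (dg x.1 x.2) (ι w)}
  one_mem' := fun w => by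
    rw [map_one, Prod.fst_one, Prod.snd_one, dg_one, Cyc.rt_one]
    rfl
  mul_mem' := fun {x y} hx hy w => by
    rw [map_mul, Module.End.mul_apply, hx, hy, Cyc.rt_rt, dg_mul]
    rfl
  inv_mem' := fun {x} hx w => by
    have := congrArg (rt O R (dg x.1⁻¹ x.2⁻¹)) (hx (σ x⁻¹ w))
    rw [← Module.End.mul_apply, ← map_mul, mul_inv_cancel, map_one,
      Cyc.rt_rt, dg_mul, inv_mul_cancel, inv_mul_cancel, dg_one, Cyc.rt_one] at this
    exact this.symm

theorem eqH_mem {T : Type} [CommRing T] [Module T W] (A : Aux M N n q b)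
    (D : Dm (O := O) n q b τ ι) (σ : (ZMod M)ˣ × (ZMod M)ˣ →* Module.End T W)
    (p : ∀ x w, σ (x ^ 2 ^ n) w = w) (b1 : ∀ j, (1, b j) ∈ eqH O ι σ)
    (b2 : ∀ j, (b j, (b j)⁻¹) ∈ eqH O ι σ) {a d : (ZMod M)ˣ} (ha : Cg M N a 1) (hd : Cg M N d 1) :
    (a, d) ∈ eqH O ι σ := by
  have h1 : (a, 1) ∈ eqH O ι σ := A.mem
    ((eqH O ι σ).comap (MonoidHom.inl (ZMod M)ˣ (ZMod M)ˣ))
    (fun j => by simpa using mul_mem (b1 j) (b2 j)) (fun j c hc w => by
    rw [map_pow, p, ← map_pow]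
    exact (D.inv j c hc w).1.symm) ha
  have h2 : (1, d) ∈ eqH O ι σ := A.mem
    ((eqH O ι σ).comap (MonoidHom.inr (ZMod M)ˣ (ZMod M)ˣ))
    (fun j => b1 j) (fun j c hc w => by
      rw [map_pow, p, ← map_pow]
      exact (D.inv j c hc w).2.symm) hd
  simpa using mul_mem h1 h2

theorem dg_exp {κ : Type} (k : Dg κ n) : k ^ 2 ^ n = 1 := by
  apply Multiplicative.toAdd.injective
  funext i
  rw [toAdd_pow, Pi.smul_apply, nsmul_eq_mul, ZMod.natCast_self, zero_mul]
  rfl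

/-- the diagonal matrices act through their classes -/
theorem Dm.act (A : Aux M N n q b) (L : Lam q b lam) (D : Dm (O := O) n q b τ ι)
    {a d : (ZMod M)ˣ} (ha : Cg M N a 1) (hd : Cg M N d 1) (w : W) :
    ι (del (dl n τ : _ → Tg O) (D.grp A) (lg lam (a, d)) w) = rt O _ (dg a d) (ι w) := by
  refine eqH_mem A D ((del (dl n τ : _ → Tg O) (D.grp A)).comp (lg lam)) (fun x w => ?_)
    (fun j w => ?_) (fun j w => ?_) ha hd w
  · rw [MonoidHom.comp_apply, map_pow (lg lam), dg_exp, map_one]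
    rfl
  · rw [MonoidHom.comp_apply, lg_left A L, del_gen]
    exact D.hy j w
  · rw [MonoidHom.comp_apply, lg_right A L, del_gen]
    exact D.ee A j w

/-- fixed vectors -/
theorem Dm.fix (A : Aux M N n q b) (L : Lam q b lam) (D : Dm (O := O) n q b τ ι) {w : W} :
    (∀ s, (dl n τ s : Tg O) • w = w) ↔
      ∀ a d : (ZMod M)ˣ, Cg M N a 1 → Cg M N d 1 → rt O _ (dg a d) (ι w) = ι w := by
  rw [← del_fix (D.grp A)]
  refine ⟨fun h a d ha hd => by rw [← D.act A L ha hd, h], fun h k => D.inj ?_⟩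
  obtain ⟨a, d, ha, hd, rfl⟩ := lg_surj A L k
  rw [D.act A L ha hd, h a d ha hd]

theorem Dm.nD (A : Aux M N n q b) (D : Dm (O := O) n q b τ ι) (w : W) :
    ∑ k, del (dl n τ : _ → Tg O) (D.grp A) k w = (nD n τ : Tg O) • w := sum_del _ w

end act

end Vale.Agent.P022F.Fm
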