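import Vale.Agent.P022F.Fm.Rows
import Vale.Agent.P022F.Ns

/-!
# P022D, forms side: a shortcut instance for the completed Hecke ring
-/

set_option linter.all false

noncomputable section

namespace Vale.Agent.P022F.Fm

instance (priority := high) _root_.Vale.Agent.P022D.Fm.BT.sgF {O A : Type} [CommRing O] [AddCommGroup A] [Module O A]
    {H : Subalgebra O (Module.End O A)} {G : Submodule O A} : Semigroup (P022D.Fm.BT H G) :=
  Monoid.toSemigroup

end Vale.Agent.P022F.Fm
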