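import Vale.Agent.P022F.Fm.Rows
import Vale.Agent.P022F.Rep.Hd
import Vale.Agent.P022.H20.Frob
import Vale.Agent.P022F.Ns

/-!
# P022D, forms side: the rows give the input of the patching argument
-/

set_option linter.all false

open scoped MatrixGroups

noncomputable section

namespace Vale.Agent.P022F.Fm

open Vale.Agent.P022 Vale.Agent.P022D.V Vale.Agent.P022F.V Vale.Agent.P027M.M
open Vale.Agent.P022D.As (Tg Aq Sb2 mT)
open Vale.Agent.P022F.As (HD2 Lv2)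

theorem asm_cg_mono {M K K' : ℕ} (h : K ∣ K') {x y : ZMod M} (a : P022D.V.Cg M K' x y) : P022D.V.Cg M K x y := by
  obtain ⟨c, rfl⟩ := h
  obtain ⟨t, rfl⟩ := a
  exact ⟨c * t, by push_cast; ring⟩

theorem asm_cg_one {M K : ℕ} {x : ZMod M} (a : P022D.V.Cg M K x 1) : P022D.V.Cg M K 1 x := by
  obtain ⟨t, rfl⟩ := a
  exact ⟨-t, by ring⟩

theorem asm_cg_inv {M K : ℕ} {x : (ZMod M)ˣ} (a : P022D.V.Cg M K (x : ZMod M) 1) :
    P022D.V.Cg M K (x : ZMod M) ((x⁻¹ : (ZMod M)ˣ) : ZMod M) := by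
  obtain ⟨t, ht⟩ := a
  have e : (x : ZMod M) * ((x⁻¹ : (ZMod M)ˣ) : ZMod M) = 1 := x.mul_inv
  exact ⟨t + t * ((x⁻¹ : (ZMod M)ˣ) : ZMod M), by
    linear_combination (1 + ((x⁻¹ : (ZMod M)ˣ) : ZMod M)) * ht - e⟩

variable {O F : Type} [CommRing O] [IsLocalRing O] [Co O] [Field F] [CharP F 2] {U : Su O F}

theorem Su.Lm.asm_three {M : ℕ} (h : U.Lm M) : 3 ≤ M :=
  h.le.trans (Nat.le_of_dvd h.odd.pos h.dvd)

theorem Lv.asm_dvd {r n M : ℕ} {q : Fin r → ℕ} {b : Fin r → (ZMod M)ˣ} {τ : Fin r → GQ}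
    (h : Lv U r n M q b τ) (i : Fin r) : U.N ∣ M / q i := by
  classical
  have e : M = q i * (U.N * ∏ j ∈ Finset.univ.erase i, q j) := by
    rw [h.eq, ← Finset.mul_prod_erase Finset.univ q (Finset.mem_univ i)]
    ring
  have e' : M / q i = U.N * ∏ j ∈ Finset.univ.erase i, q j :=
    Nat.div_eq_of_eq_mul_right (h.pr i).1.pos e
  exact ⟨_, e'⟩

variable [hC : ∀ l : U.L.C, Fact l.1.Prime]

/-- levels with all their operators exist -/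
theorem ex_lq (h1 : HC U) (h2 : GOP U) (h3 : LQ U) (h4 : ACT U) (r n : ℕ) (q : Fin r → ℕ)
    (hq : Function.Injective q) (ha : ∀ i, Aq U.S.rb U.S.T (n + 1) (q i)) :
    Nonempty (Lq U r n q) := by
  obtain ⟨M, b, τ, hL⟩ := h3.2 r n q hq ha
  have hm := h3.1 r n M q b τ hL
  obtain ⟨t, d, ho⟩ := (h2 M hm.odd hm.asm_three).1
  obtain ⟨E, hE⟩ := h4 M n hm t d ho
  have hc := h1 M hm.odd hm.asm_three
  choose u1 hu1 using fun i => hc.ex 1 (b i) (asm_cg_one (asm_cg_mono (hL.asm_dvd i) (hL.b1 i)))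
  choose u2 hu2 using fun i => hc.ex (b i) (b i)⁻¹ (asm_cg_inv (asm_cg_mono (hL.asm_dvd i) (hL.b1 i)))
  exact ⟨⟨M, b, τ, ⟨t, d, E⟩, Sum.elim u1 u2, hL, hE, fun i => ⟨hu1 i, hu2 i⟩⟩⟩

theorem ex_base (h1 : HC U) (h2 : GOP U) (h3 : LQ U) (h4 : ACT U) : Nonempty (L0 U) :=
  ex_lq h1 h2 h3 h4 0 0 Fin.elim0 (fun i => i.elim0) fun i => i.elim0

variable {Cc : ∀ l : U.L.C, P022D.Rep.Ch (ZMod l.1) F}

/-- one level -/
theorem lv2_of (g1 : GMR U) (g2 : DIA U) (g3 : EXF U Cc) (g4 : RED U Cc) (g5 : CYF U)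
    (g6 : URF U Cc) (g7 : NWF U Cc) (g8 : FIB U Cc) (g9 : DSC U) (P0 : L0 U) {r n : ℕ}
    {q : Fin r → ℕ} (P : Lq U r n q) (φ : Fin r → GQ) (hφ : ∀ i, IsFrob (q i) (φ i)) (b : ℕ)
    (hb : ∀ i : Ix U Cc, Sb2 (mT U.L.r) b (P.Yb i)) :
    Lv2 U.ϖ U.S U.L (fun i : Ix U Cc => P0.Yb i) P0.W0 (P022D.Rep.SesX U.bn Cc) (P022D.Rep.XG U.bn Cc)
      (P022D.Rep.XJ U.bn Cc) (fun _ => b) 5 n q P.τ φ (fun i : Ix U Cc => P.Yb i) P.Wc := by
  obtain ⟨⟨z1, z2, z3⟩, r1, r2, r3, r4⟩ := g4 r n q P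
  have z0 : P.X.Z ≤ U.sb P.M (U.Zp P.M n) := fun v hv => hv.1
  exact
    { hτ := fun i => P.lv.ine i
      hφ := hφ
      gm := fun i => g1 r n q P _ (z1 i.v)
      gmC := g1 r n q P _ (z3 (n + 1))
      dia := fun i => (g2 r n q P).2 _ ((z1 i.v).trans z0)
      diaC := (g2 r n q P).2 _ ((z3 (n + 1)).trans z0)
      ex := (g3 r n q P).1
      sb := hb
      pi := r1
      free := (g3 r n q P).2
      fib := g8 P0 r n q P φ hφ
      red := r2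
      piC := r3
      flat := r4
      cyc := g5 r n q P
      unr := g6 r n q P
      new := g7 r n q P
      desc := g9 P0 r n q P φ hφ }

/-- **row ASM** -/
theorem asmC (h1 : HC U) (h2 : GOP U) (h3 : LQ U) (h4 : ACT U) (g1 : GMR U) (g2 : DIA U)
    (g3 : EXF U Cc) (g4 : RED U Cc) (g5 : CYF U) (g6 : URF U Cc) (g7 : NWF U Cc) (g8 : FIB U Cc)
    (g9 : DSC U) (k1 : SBR U Cc) (k2 : DT0 U Cc) (k3 : BIGR U Cc) : ASM U Cc := by
  obtain ⟨P0⟩ := ex_base h1 h2 h3 h4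
  obtain ⟨⟨z1, z2, -⟩, r1, -⟩ := g4 0 0 _ P0
  have e0 : Finset.univ.image (Fin.elim0 : Fin 0 → ℕ) = ∅ := Finset.image_empty _
  refine ⟨P0,
    { comb := fun a a' a1 a2 N hN J => Rep.combL (fun l : U.L.C => l.1) Cc a a' a1 a2 N hN J
      gm0 := fun i => e0 ▸ g1 0 0 _ P0 _ (z1 i.v)
      gmW := e0 ▸ g1 0 0 _ P0 _ z2
      pi0 := r1
      sb0 := fun i => (k1 0).imp fun b hb => hb 0 _ P0 i
      det0 := fun J g => ⟨1, Nat.one_pos, k2 P0 _ g⟩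
      big := k3 P0
      lev := fun r => ?_ }⟩
  obtain ⟨b, hb⟩ := k1 r
  refine ⟨fun _ => b, 5, 1, ∅, fun n q hq ha => ?_⟩
  obtain ⟨P⟩ := ex_lq h1 h2 h3 h4 r n q hq fun i => by simpa only [Finset.empty_union] using ha i
  choose φ hφ using fun i => H20.exists_isFrob (ha i).prime
  exact ⟨P.τ, φ, fun i => P.Yb i, P.Wc, inferInstance, inferInstance, inferInstance, inferInstance,
    lv2_of g1 g2 g3 g4 g5 g6 g7 g8 g9 P0 P φ hφ b (hb n q P)⟩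

variable (U Cc) in
/-- the rows which the glue uses -/
structure Rw : Prop where
  hc : HC U
  gop : GOP U
  lq : LQ U
  act : ACT U
  gmr : GMR U
  dia : DIA U
  exf : EXF U Cc
  red : RED U Cc
  cyf : CYF U
  urf : URF U Cc
  nwf : NWF U Cc
  fib : FIB U Cc
  dsc : DSC U
  sbr : SBR U Cc
  dt0 : DT0 U Cc
  big : BIGR U Cc

theorem Rw.asm (h : Rw U Cc) : ASM U Cc :=
  asmC h.hc h.gop h.lq h.act h.gmr h.dia h.exf h.red h.cyf h.urf h.nwf h.fib h.dsc h.sbr h.dt0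
    h.big

/-- **the forms side from the rows** -/
theorem forms_of (h : ∀ (O F : Type) [CommRing O] [IsDomain O] [IsDiscreteValuationRing O]
    [P022D.Core.Coef O] [Co O] [Field F] [Finite F] [CharP F 2] (U : Su O F)
    [∀ l : U.L.C, Fact l.1.Prime], U.Ok → CH U ∧ ∀ Cc, U.IsCh Cc → Rw U Cc) : FORMS := by
  intro O F _ _ _ _ _ _ _ _ U _ hU
  obtain ⟨⟨Cc, hc⟩, h2⟩ := h O F U hU
  exact ⟨Cc, (h2 Cc hc).asm⟩

end Vale.Agent.P022F.Fm
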