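import Vale.Agent.P022F.Fm.Rows
import Vale.Agent.P022D.Pur.Prim
import Vale.Agent.P022F.Ns

/-!
# P022D, forms side: the support of a non zero module of forms has dimension at least two
-/

set_option linter.all false

noncomputable section

namespace Vale.Agent.P022F.Fm.Bg

open Vale.Agent.P022 Vale.Agent.P022D.V Vale.Agent.P022F.V Vale.Agent.P022D.G Vale.Agent.P022F.G
open Vale.Agent.P022D.W.Step (kl Cs)
open Vale.Agent.P022D.Pur (Amb Cut Lb)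

variable {O F : Type} [CommRing O] [Field F] [Co O]

theorem dv_inj {ϖ : O} (h : ϖ ≠ 0) : Function.Injective (dv ϖ) := by
  rw [injective_iff_map_eq_zero]
  intro x hx
  obtain ⟨a, rfl⟩ := Ideal.Quotient.mk_surjective x
  rw [dv_mk, eD_eq_zero] at hx
  refine Ideal.Quotient.eq_zero_iff_mem.2 (Ideal.mem_span_singleton'.2 ⟨amk _ hx, av_inj ?_⟩)
  rw [map_mul, av_amk, av_alg, div_mul_cancel₀]
  exact fun e => h (Co.inj (e.trans (map_zero _).symm))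

/-- the operators which commute with the translations -/
def CT (O : Type) [CommRing O] [Co O] (M i : ℕ) : Subalgebra O (Module.End O (P022D.Fm.AM O M)) where
  carrier := {C | C ∈ P022D.Pur.HA O (RD O) M i ∧ (∀ g v, rt O (RD O) g (C v) = C (rt O (RD O) g v)) ∧
    ∀ v ∈ XD O M i, C v ∈ XD O M i}
  mul_mem' := fun {a b} h h' => ⟨mul_mem h.1 h'.1, fun g v => by
    rw [Module.End.mul_apply, Module.End.mul_apply, h.2.1, h'.2.1],
    fun v hv => h.2.2 _ (h'.2.2 v hv)⟩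
  add_mem' := fun {a b} h h' => ⟨add_mem h.1 h'.1, fun g v => by
    rw [LinearMap.add_apply, LinearMap.add_apply, map_add, h.2.1, h'.2.1],
    fun v hv => add_mem (h.2.2 v hv) (h'.2.2 v hv)⟩
  algebraMap_mem' := fun c => ⟨Subalgebra.algebraMap_mem _ c, fun g v => map_smul _ c v,
    fun v hv => Submodule.smul_mem _ c hv⟩

variable {M i : ℕ}

theorem two_ne (ℓ : PA M) : ℓ.1 ≠ 2 := fun e => ℓ.2.2 (by
  rw [e]
  exact dvd_mul_right 2 M)

theorem uP_coe (ℓ : PA M) : (P022D.Fm.uP ℓ : ZMod M) = ℓ.1 := ZMod.coe_unitOfCoprime _ _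

theorem bw_T (ℓ : PA M) : P022D.Fm.bw O M i (wT ℓ) = T2 O (RD O) i ℓ.1 (P022D.Fm.uP ℓ) :=
  FreeAlgebra.lift_ι_apply _ _

theorem bw_S (ℓ : PA M) : P022D.Fm.bw O M i (wS ℓ) = S2 O (RD O) i ℓ.1 (P022D.Fm.uP ℓ) :=
  FreeAlgebra.lift_ι_apply _ _

theorem bw_CH (hV : HKV O) (hM : Odd M) (Q : Wd M) : P022D.Fm.bw O M i Q ∈ CT O M i := by
  induction Q using FreeAlgebra.induction with
  | grade0 r =>
    rw [eq_intCast, map_intCast]
    exact intCast_mem _ r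
  | grade1 x =>
    rcases x with ℓ | ℓ
    · exact (bw_T (O := O) (i := i) ℓ) ▸ ⟨P022D.Pur.T2_HA ℓ.2.1 (two_ne ℓ) (uP_coe ℓ),
        fun g v => rt_T2 g i _ _ v,
        fun v hv => ((hV M i _ _ hM ℓ.2.1 (two_ne ℓ) (uP_coe ℓ)).2.2 v hv).1⟩
    · exact (bw_S (O := O) (i := i) ℓ) ▸ ⟨P022D.Pur.S2_HA ℓ.2.1 (two_ne ℓ) (uP_coe ℓ),
        fun g v => rt_S2 g i _ _ v,
        fun v hv => ((hV M i _ _ hM ℓ.2.1 (two_ne ℓ) (uP_coe ℓ)).2.2 v hv).2⟩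
  | mul a b ha hb => rw [map_mul]; exact mul_mem ha hb
  | add a b ha hb => rw [map_add]; exact add_mem ha hb

theorem cm_CH (hV : HKV O) (hD : DIV O) (hM : Odd M) (h3 : 3 ≤ M) :
    P022D.Fm.cm (P022D.Fm.HA O M M i) ≤ CT O M i := by
  unfold P022D.Fm.cm
  split_ifs
  · refine Algebra.adjoin_le ?_
    rintro _ (⟨Q, rfl⟩ | ⟨a, d, ⟨t, ht⟩, rfl⟩)
    · exact bw_CH hV hM Q
    · rw [ZMod.natCast_self, zero_mul, add_zero] at ht
      rw [Units.ext ht]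
      exact ⟨P022D.Pur.rt_HA _, fun g v => rt_sc g d v,
        fun v hv => ((hD M hM h3).2.2.2.1 i v hv).2.1 _⟩
  · exact bot_le

/-- the group algebra -/
abbrev RA (O : Type) [CommRing O] [Co O] (M : ℕ) : Subalgebra O (Module.End O (P022D.Fm.AM O M)) :=
  Algebra.adjoin O (Set.range fun g : GM M => (rt O (RD O) g).toLinearMap)

theorem rD_RA (g : GM M) : P022D.Fm.rD O g ∈ RA O M := Algebra.subset_adjoin ⟨g, rfl⟩

theorem RA_CH {a C : Module.End O (P022D.Fm.AM O M)} (ha : a ∈ RA O M) (hC : C ∈ CT O M i)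
    (v : P022D.Fm.AM O M) : a (C v) = C (a v) := by
  induction ha using Algebra.adjoin_induction generalizing v with
  | mem x hx =>
    obtain ⟨g, rfl⟩ := hx
    exact hC.2.1 g v
  | algebraMap c => exact (map_smul C c v).symm
  | add x y _ _ hx hy => rw [LinearMap.add_apply, LinearMap.add_apply, hx, hy, map_add]
  | mul x y _ _ hx hy => rw [Module.End.mul_apply, Module.End.mul_apply, hy, hx]

/-- the forms killed by `ϖ` and by all the relations of `K` in the group algebra -/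
def NN (i : ℕ) (ϖ : O) (K : Submodule O (P022D.Fm.AM O M)) : Submodule O (P022D.Fm.AM O M) where
  carrier := {v | (v ∈ XD O M i ∧ ϖ • v = 0) ∧ ∀ a ∈ RA O M, (∀ w ∈ K, a w = 0) → a v = 0}
  zero_mem' := ⟨⟨zero_mem _, smul_zero _⟩, fun _ _ _ => map_zero _⟩
  add_mem' := fun {v w} h h' => ⟨⟨add_mem h.1.1 h'.1.1, by
    rw [smul_add, h.1.2, h'.1.2, add_zero]⟩, fun a ha k => by
      rw [map_add, h.2 a ha k, h'.2 a ha k, add_zero]⟩
  smul_mem' := fun c v h => ⟨⟨Submodule.smul_mem _ c h.1.1, by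
    rw [smul_comm, h.1.2, smul_zero]⟩, fun a ha k => by rw [map_smul, h.2 a ha k, smul_zero]⟩

theorem NN_CH {ϖ : O} {K : Submodule O (P022D.Fm.AM O M)} {C : Module.End O (P022D.Fm.AM O M)}
    (hC : C ∈ CT O M i) : ∀ v ∈ NN i ϖ K, C v ∈ NN i ϖ K := fun v h =>
  ⟨⟨hC.2.2 v h.1.1, by rw [← map_smul, h.1.2, map_zero]⟩, fun a ha k => by
    rw [RA_CH ha hC, h.2 a ha k, map_zero]⟩

theorem amb_NN [NeZero M] (hD : DIV O) (hM : Odd M) (h3 : 3 ≤ M) {ϖ : O} (hπ : Unif ϖ)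
    (K : Submodule O (P022D.Fm.AM O M)) : Amb ϖ (dv ϖ) (NN i ϖ K) := by
  have h := P022D.Pur.amb_X2 (M := M) hπ (dv_inj hπ.ne) i
  have e := ((hD M hM h3).2.2.1 i ϖ hπ.ne).2
  exact h.of_le (fun v hv => (e v).1 hv.1) fun v hv => ⟨(e _).2 (h.mul v ((e v).1 hv.1)),
    fun a ha k => by rw [P022D.Pur.adjoin_yy ha, hv.2 a ha k, mul_zero]⟩

theorem pr_one {l : ℕ} (hl : l ∣ M) {h : GM M} (hh : h ∈ Kq M l) : pr hl h = 1 := by
  apply Units.ext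
  ext a b
  obtain ⟨y, hy⟩ := hh a b
  change ZMod.castHom hl (ZMod l) ((h : Matrix (Fin 2) (Fin 2) (ZMod M)) a b) = _
  rw [hy, map_add, map_mul, map_natCast, ZMod.natCast_self, zero_mul, add_zero, Units.val_one,
    Matrix.one_apply, Matrix.one_apply]
  split_ifs
  · exact map_one _
  · exact map_zero _

variable [IsLocalRing O] {U : Su O F}

theorem pr_N (hU : U.Ok) {p : ℕ} (hp : p.Prime) (h : p ∣ U.N) : p ∈ U.L.W ∪ U.L.C := by
  rcases (Nat.Prime.dvd_mul hp).1 h with h | h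
  · exact Finset.mem_union_left _ ((hU.NW p hp).1 h)
  · rw [hU.NC] at h
    obtain ⟨l, hl, h⟩ := (Prime.dvd_finset_prod_iff hp.prime _).1 h
    have := Finset.mem_union_right U.L.W hl
    rwa [(Nat.prime_dvd_prime_iff_eq hp (hU.ok.pr l this).1).1 h]

theorem odd_N (hU : U.Ok) : Odd U.N := Nat.odd_iff.2 (Nat.two_dvd_ne_zero.1 fun h =>
  (hU.ok.pr 2 (pr_N hU Nat.prime_two h)).2 rfl)

theorem three_N (hU : U.Ok) : 3 ≤ U.N := by
  obtain ⟨l, hl, h⟩ : ∃ l ∈ U.L.W ∪ U.L.C, l ∣ U.N := by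
    rcases hU.W3 with ⟨l, hl⟩ | ⟨l, hl, -⟩
    · have := Finset.mem_union_left U.L.C hl
      exact ⟨l, this, ((hU.NW l (hU.ok.pr l this).1).2 hl).mul_right _⟩
    · exact ⟨l, Finset.mem_union_right _ hl,
        Dvd.dvd.mul_left (hU.NC ▸ Finset.dvd_prod_of_mem _ hl) _⟩
  have h1 := (hU.ok.pr l hl).1.two_le
  have h2 := (hU.ok.pr l hl).2
  have h3 := Nat.le_of_dvd (odd_N hU).pos h
  omega

theorem sp_N (hU : U.Ok) {l : ℕ} (hl : l ∈ U.L.C) :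
    Sp U.N (U.NW * ∏ p ∈ U.L.C.erase l, p) l := by
  have hp := (hU.ok.pr l (Finset.mem_union_right _ hl)).1
  refine ⟨by rw [Su.N, hU.NC, mul_assoc, Finset.prod_erase_mul _ _ hl], ?_, hp, odd_N hU⟩
  refine Nat.Coprime.mul_left ((Nat.Prime.coprime_iff_not_dvd hp).2 fun h => ?_).symm
    (Nat.Coprime.prod_left fun p h => (Nat.coprime_primes (hU.ok.pr p (Finset.mem_union_right _
      (Finset.mem_of_mem_erase h))).1 hp).2 (Finset.ne_of_mem_erase h))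
  exact Finset.disjoint_left.1 hU.ok.dj ((hU.NW l hp).1 h) hl

variable [hC : ∀ l : U.L.C, Fact l.1.Prime] [CharP F 2] {n : ℕ} {X : Dt U U.N n}

theorem lift (hU : U.Ok) (hX : X.Ok) (l : U.L.C) (r : MonoidAlgebra F (U.Gam l)) :
    ∃ a ∈ RA O U.N, ∀ w : U.Wb U.N n,
      (((X.E.al l r w : U.Wb U.N n) : U.GG U.N) : P022D.Fm.AM O U.N) = a (w : U.GG U.N) := by
  refine P022D.Rep.el_ind (p := fun r => ∃ a ∈ RA O U.N, ∀ w : U.Wb U.N n,
    (((X.E.al l r w : U.Wb U.N n) : U.GG U.N) : P022D.Fm.AM O U.N) = a (w : U.GG U.N)) r ?_ ?_ ?_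
  · intro g
    obtain ⟨g, rfl⟩ := QuotientGroup.mk_surjective g
    have hs := sp_N hU l.2
    have h0 : U.NC ≠ 0 := fun e => (odd_N hU).pos.ne' (by rw [Su.N, e, mul_zero])
    refine ⟨_, rD_RA (P022D.Rep.emb hs g), fun w => ?_⟩
    rw [X.E.al_el]
    refine hX.act _ (P022D.Rep.Kq_mono ?_ (P022D.Rep.emb_mem hs g)) _ (fun p hp => ?_) w
    · rw [Su.N, Nat.mul_div_cancel _ (Nat.pos_of_ne_zero h0)]
      exact dvd_mul_right _ _
    · by_cases e : p = l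
      · subst e
        rw [Pi.mulSingle_eq_same, P022D.Rep.pr_emb]
      · rw [Pi.mulSingle_eq_of_ne e, pr_one hp (P022D.Rep.Kq_mono (Dvd.dvd.mul_left
          (Finset.dvd_prod_of_mem _ (Finset.mem_erase.2 ⟨fun h => e (Subtype.ext h), p.2⟩)) _)
          (P022D.Rep.emb_mem hs g))]
        rfl
  · rintro x y ⟨a, h1, h2⟩ ⟨b, h3, h4⟩
    exact ⟨a + b, add_mem h1 h3, fun w => by
      rw [map_add, LinearMap.add_apply, Submodule.coe_add, Submodule.coe_add, h2, h4,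
        LinearMap.add_apply]⟩
  · rintro c x ⟨a, h1, h2⟩
    obtain ⟨c, rfl⟩ := U.S.surj c
    exact ⟨c • a, Subalgebra.smul_mem _ h1 c, fun w => by
      rw [X.E.al_smul, Module.End.mul_apply, hX.sc, LinearMap.smul_apply, ← h2]
      rfl⟩

/-- the inclusion in the ambient module -/
def inc (Y : Submodule (U.B U.N) (U.GG U.N)) : Y →ₗ[O] P022D.Fm.AM O U.N :=
  (U.GG U.N).subtype ∘ₗ Y.subtype.restrictScalars O

theorem inc_inj (Y : Submodule (U.B U.N) (U.GG U.N)) : Function.Injective (inc Y) :=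
  fun _ _ e => Subtype.ext (Subtype.ext e)

theorem lb (hV : HKV O) (hD : DIV O) (hU : U.Ok) (K : Submodule O (P022D.Fm.AM O U.N)) (p : U.B U.N)
    (s : Finset (U.GG U.N)) : ∃ C ∈ P022D.Pur.HA O (RD O) U.N U.i,
      (∀ v ∈ NN U.i U.ϖ K, C v ∈ NN U.i U.ϖ K) ∧
      ∀ y ∈ s, ((p • y : U.GG U.N) : P022D.Fm.AM O U.N) = C y := by
  obtain ⟨C, h1, h2⟩ := p.loc s
  have h3 := cm_CH hV hD (odd_N hU) (three_N hU) h1
  exact ⟨C, h3.1, NN_CH h3, h2⟩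

theorem cut1 [NeZero U.N] (hK : HK O) (hV : HKV O) (hD : DIV O) (hU : U.Ok) (hX : X.Ok)
    (I : P022D.Rep.Tu F U.Gam) : Cut U.i (NN U.i U.ϖ (LinearMap.range (inc (X.Y1 I))))
      (LinearMap.range (inc (X.Y1 I))) := by
  have hM := odd_N hU
  let a : Gen U.N → Module.End O (P022D.Fm.AM O U.N) := fun j =>
    P022D.Fm.bw O U.N U.i (FreeAlgebra.ι ℤ j) - algebraMap O _ (U.sys U.N j)
  have ha : ∀ j, a j ∈ CT O U.N U.i := fun j =>
    sub_mem (bw_CH hV hM _) (Subalgebra.algebraMap_mem _ _)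
  have hp : ∀ v, v ∈ P022D.Fm.Pm (P022D.Fm.bw O U.N U.i) (U.sys U.N) ∅ ↔ ∀ j, ∃ k : ℕ, (a j ^ k) v = 0 := by
    intro v
    simp only [P022D.Fm.Pm, Submodule.mem_iInf, Submodule.mem_inf, P022D.Fm.mem_Nl, Sum.forall]
    exact ⟨fun h => ⟨fun ℓ => (h ℓ (by simp)).1, fun ℓ => (h ℓ (by simp)).2⟩,
      fun h ℓ _ => ⟨h.1 ℓ, h.2 ℓ⟩⟩
  refine (amb_NN hD hM (three_N hU) hU.uni _).cut hK hM hU.uni a (fun j => (ha j).1)
    (fun j => NN_CH (ha j)) (fun j k v _ => ?_) fun v => ⟨?_, ?_⟩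
  · have : Commute (P022D.Fm.bw O U.N U.i (FreeAlgebra.ι ℤ j)) (P022D.Fm.bw O U.N U.i (FreeAlgebra.ι ℤ k)) := by
      rcases j with j | j <;> rcases k with k | k
      · exact (bw_T (O := O) j) ▸ (bw_T (O := O) k) ▸
          T2_comm _ j.2.1 k.2.1 (uP_coe j) (uP_coe k)
      · exact (bw_T (O := O) j) ▸ (bw_S (O := O) k) ▸ T2_S2_comm _ _ _ _ _ _
      · exact (bw_S (O := O) j) ▸ (bw_T (O := O) k) ▸ (T2_S2_comm _ _ _ _ _ _).symm
      · exact (bw_S (O := O) j) ▸ (bw_S (O := O) k) ▸ S2_comm _ _ _ _ _ _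
    exact LinearMap.congr_fun ((this.sub_right (Algebra.commute_algebraMap_right _ _)).sub_left
      (Algebra.commute_algebraMap_left _ _)).eq v
  · rintro ⟨⟨_, w, hw, rfl⟩, rfl⟩
    exact ⟨⟨⟨w.1.2.1, (P022D.Fm.mem_of_sub w.2).2⟩, fun b _ k => k _ ⟨⟨_, w, hw, rfl⟩, rfl⟩⟩,
      (hp _).1 w.1.2.2⟩
  · rintro ⟨h1, h2⟩
    have hz : ∀ x ∈ NN U.i U.ϖ (LinearMap.range (inc (X.Y1 I))),
        x ∈ U.Zp U.N n ⊓ P022D.Fm.Tor (P022D.Fm.AM O U.N) U.ϖ := fun x hx => by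
      have k : ∀ b ∈ RA O U.N, (∀ y ∈ U.Zp U.N n, b y = 0) → b x = 0 := fun b hb k =>
        hx.2 b hb (by
          rintro _ ⟨⟨_, w, hw, rfl⟩, rfl⟩
          exact k _ (P022D.Fm.mem_of_sub w.2).1)
      refine ⟨⟨⟨fun g hg => sub_eq_zero.1 (k (P022D.Fm.rD O g - algebraMap O _ _)
        (sub_mem (rD_RA g) (Subalgebra.algebraMap_mem _ _))
        fun y hy => sub_eq_zero.2 (hy.1.1 g hg)), (Submodule.mem_iInf _).2 fun j => k _
        (sub_mem (Subalgebra.smul_mem _ (rD_RA _) _) (one_mem _))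
        fun y hy => (Submodule.mem_iInf _).1 hy.1.2 j⟩,
        fun g hg => sub_eq_zero.1 (k (P022D.Fm.rD O g - algebraMap O _ 1)
        (sub_mem (rD_RA g) (Subalgebra.algebraMap_mem _ _))
        fun y hy => sub_eq_zero.2 (hy.2 g hg))⟩, hx.1.2⟩
    let w : U.Wb U.N n := ⟨⟨v, h1.1.1, (hp v).2 h2⟩, fun C hC =>
      hz _ (NN_CH (cm_CH hV hD hM (three_N hU) hC) v h1)⟩
    refine ⟨⟨w.1, w, fun l r hr => ?_, rfl⟩, rfl⟩
    obtain ⟨b, hb, e⟩ := lift hU hX l r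
    refine Subtype.ext (Subtype.ext ((e w).trans (h1.2 b hb ?_)))
    rintro _ ⟨⟨_, y, hy, rfl⟩, rfl⟩
    exact (e y).symm.trans (congrArg (fun x : U.Wb U.N n => (x.1 : P022D.Fm.AM O U.N)) (hy l r hr))

end Vale.Agent.P022F.Fm.Bg

namespace Vale.Agent.P022F.Fm.Bg

open Vale.Agent.P022 Vale.Agent.P022D.V Vale.Agent.P022F.V
open Vale.Agent.P022D.W.Step (kl Cs)
open Vale.Agent.P022D.Pur (Amb Cut Lb)

theorem big_abs {O : Type} [CommRing O] [Co O] [IsLocalRing O] {M : ℕ} [NeZero M] {π : O}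
    {R : Type} [CommRing R] [Algebra O R] {φ : RR π →ₗ[O] R} {N K : Submodule O (FT M R)} {i : ℕ}
    (hK : HK O) (hM : Odd M) (hπ : Unif π) (h : Amb π φ N) (hc : Cut i N K) {B G : Type}
    [CommRing B] [Algebra O B] [AddCommGroup G] [Module O G] [Module B G] [IsScalarTower O B G]
    {ι : G →ₗ[O] FT M R} (hι : Function.Injective ι) (app : Lb i N B ι) {Y : Submodule B G}
    (hY : ∀ v, v ∈ K ↔ ∃ y ∈ Y, ι y = v) {J : Set B} {τ : B} (hJ : Cs Y J τ)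
    (ha : ∀ c ∈ J, ∀ v ∈ Y, (c * τ) • v = 0) (h0 : kl Y J ≠ ⊥) (ev : P022D.As.Tg O →+* B)
    (he : ∀ c, ev (algebraMap O _ c) = algebraMap O _ c) {r : GQ →* Matrix (Fin 2) (Fin 2) O}
    {b : ℕ} (hs : P022D.As.Sb2 (P022D.As.mT r) b (P022D.Fm.Mt ev (kl Y J))) : P022D.As.Big (P022D.As.mT r) (P022D.Fm.Mt ev (kl Y J)) := by
  classical
  have a : ∀ Z : Submodule B G, Lb i N B (ι ∘ₗ Z.subtype.restrictScalars O) := fun Z p s => by
    obtain ⟨C, h1, h2, h3⟩ := app p (s.image Subtype.val)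
    exact ⟨C, h1, h2, fun y hy => h3 _ (Finset.mem_image_of_mem _ hy)⟩
  have j : ∀ Z : Submodule B G, Function.Injective (ι ∘ₗ Z.subtype.restrictScalars O) :=
    fun Z _ _ e => Subtype.ext (hι e)
  have c2 := hc.smul (j Y) (Submodule.ext fun v => ⟨by
      rintro ⟨y, rfl⟩
      exact (hY _).2 ⟨y, y.2, rfl⟩, fun hv => by
      obtain ⟨y, hy, rfl⟩ := (hY v).1 hv
      exact ⟨⟨y, hy⟩, rfl⟩⟩) (a Y) τ
    (K' := LinearMap.range (ι ∘ₗ (kl Y J).subtype.restrictScalars O)) fun v => ⟨by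
      rintro ⟨y, rfl⟩
      obtain ⟨x, hx, e⟩ := hJ y.1 y.2.1 y.2.2
      exact ⟨⟨x, hx⟩, congrArg ι e.symm⟩, by
      rintro ⟨y, rfl⟩
      exact ⟨⟨τ • y.1, Submodule.smul_mem _ τ y.2, fun c hc => by
        rw [← mul_smul, ha c hc _ y.2]⟩, rfl⟩⟩
  letI : Module O (P022D.Fm.Mt ev (kl Y J)) := (inferInstance : Module O (kl Y J))
  haveI : IsScalarTower O (P022D.As.Tg O) (P022D.Fm.Mt ev (kl Y J)) :=
    IsScalarTower.of_algebraMap_smul fun c y => Subtype.ext (by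
      change ev (algebraMap O _ c) • (show kl Y J from y).1 = c • (show kl Y J from y).1
      rw [he, algebraMap_smul])
  refine P022D.Pur.big hK hM hπ h c2 ?_ (fun p => ⟨P022D.As.ev0 r p, ?_⟩) (Y := P022D.Fm.Mt ev (kl Y J))
    (ι := ι ∘ₗ (kl Y J).subtype.restrictScalars O) (j _) le_rfl
    (fun p y _ => LinearMap.mem_range_self _ _) (fun p s _ => a _ (ev p) s) hs
  · obtain ⟨v, hv, h1⟩ := (Submodule.ne_bot_iff _).1 h0
    exact (Submodule.ne_bot_iff _).2 ⟨_, ⟨⟨v, hv⟩, rfl⟩, fun e => h1 (hι (e.trans (map_zero ι).symm))⟩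
  · have e : P022D.As.ev0 r (algebraMap O _ (P022D.As.ev0 r p)) = P022D.As.ev0 r p := MvPolynomial.eval₂Hom_C _ _ _
    rw [P022D.As.mT, Ideal.mem_comap, map_sub, e, sub_self]
    exact zero_mem _

/-- the cut survives on every part -/
theorem cs_Y {ι : Type} [Fintype ι] [DecidableEq ι] {F : Type} {Γ : ι → Type} {B W : Type}
    [Field F] [CharP F 2] [∀ i, Group (Γ i)] [∀ i, Fintype (Γ i)] [CommRing B] [AddCommGroup W]
    [Module B W] (E : P022D.Rep.Act F Γ B W) {J : Set B} {ν : B}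
    (ha : ∀ c ∈ J, ∀ w : W, (c * ν) • w = 0) (hc : Cs (⊤ : Submodule B W) J ν)
    {θ : kl (⊤ : Submodule B W) J →+ kl (⊤ : Submodule B W) J} (h : (P022D.Fm.cutA E J).Hig θ)
    (I : P022D.Rep.Tu F Γ) : Cs (E.Y I) J ν := by
  intro w hw h0
  letI : Module F W := Module.compHom W E.sc
  letI : Module F (kl (⊤ : Submodule B W) J) := Module.compHom _ (P022D.Fm.cutA E J).sc
  let p : W →ₗ[F] kl (⊤ : Submodule B W) J :=
    { toFun := fun w => ⟨ν • w, trivial, fun c hc => by rw [← mul_smul, ha c hc]⟩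
      map_add' := fun x y => Subtype.ext (smul_add ν x y)
      map_smul' := fun c x => Subtype.ext (map_smul (E.sc c) ν x).symm }
  let j : kl (⊤ : Submodule B W) J →ₗ[F] W :=
    { toFun := Subtype.val, map_add' := fun _ _ => rfl, map_smul' := fun _ _ => rfl }
  let t : kl (⊤ : Submodule B W) J →ₗ[F] kl (⊤ : Submodule B W) J :=
    { toFun := θ, map_add' := θ.map_add, map_smul' := h.sc }
  obtain ⟨s, hs⟩ := p.exists_rightInverse_of_surjective (LinearMap.range_eq_top.2 fun z => by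
    obtain ⟨u, -, e⟩ := hc z.1 trivial z.2.2
    exact ⟨u, Subtype.ext e.symm⟩)
  obtain ⟨r, hr⟩ := j.exists_leftInverse_of_injective
    (LinearMap.ker_eq_bot.2 Subtype.val_injective)
  refine ⟨E.avg (s ∘ₗ t ∘ₗ r).toAddMonoidHom w,
    E.avg_mem _ (fun c w => map_smul (s ∘ₗ t ∘ₗ r) c w) hw, ?_⟩
  rw [E.avg_apply, Finset.smul_sum]
  refine (congrArg Subtype.val (h.tr ⟨w, trivial, h0⟩)).symm.trans
    ((Submodule.coe_sum _ _ _).trans (Finset.sum_congr rfl fun g _ => ?_))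
  have e1 := LinearMap.congr_fun hr ((P022D.Fm.cutA E J).ρ g⁻¹ ⟨w, trivial, h0⟩)
  have e2 := congrArg Subtype.val
    (LinearMap.congr_fun hs (θ ((P022D.Fm.cutA E J).ρ g⁻¹ ⟨w, trivial, h0⟩)))
  rw [← map_smul]
  refine congrArg (E.ρ g) (e2.symm.trans ?_)
  exact congrArg (fun x => ν • s (θ x)) e1.symm

end Vale.Agent.P022F.Fm.Bg

namespace Vale.Agent.P022F.Fm

open Vale.Agent.P022 Vale.Agent.P022D.V Vale.Agent.P022F.V Vale.Agent.P022D.Fm.Bg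
  Vale.Agent.P022F.Fm.Bg
open Vale.Agent.P022D.W.Step (kl Cs)

variable {O F : Type} [CommRing O] [Field F] [Co O] [IsLocalRing O] {U : Su O F}
  [hC : ∀ l : U.L.C, Fact l.1.Prime] [CharP F 2]

/-- **the support of a non zero module of forms is big** -/
theorem big {n : ℕ} {X : Dt U U.N n} (hK : HK O) (hV : HKV O) (hD : DIV O) (hU : U.Ok)
    (hX : X.Ok) (I : P022D.Rep.Tu F U.Gam) {τ : U.B U.N} (hc : Cs (X.Y1 I) X.JW τ)
    (ha : ∀ c ∈ X.JW, ∀ v ∈ X.Y1 I, (c * τ) • v = 0) (h0 : X.Y I ≠ ⊥) {r : ℕ}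
    (u : Fin r ⊕ Fin r → U.B U.N) {b : ℕ} (hs : P022D.As.Sb2 (P022D.As.mT U.L.r) b (P022D.Fm.Mt (X.ev u) (X.Y I))) :
    P022D.As.Big (P022D.As.mT U.L.r) (P022D.Fm.Mt (X.ev u) (X.Y I)) := by
  have hM := P022F.Fm.Bg.odd_N hU
  have : NeZero U.N := ⟨hM.pos.ne'⟩
  exact P022F.Fm.Bg.big_abs hK hM hU.uni (P022F.Fm.Bg.amb_NN hD hM (P022F.Fm.Bg.three_N hU) hU.uni _) (P022F.Fm.Bg.cut1 hK hV hD hU hX I)
    (B := U.B U.N) (G := U.GG U.N) (ι := (U.GG U.N).subtype) (U.GG U.N).injective_subtype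
    (P022F.Fm.Bg.lb hV hD hU _) (Y := X.Y1 I) (fun v => ⟨fun ⟨y, e⟩ => ⟨y.1, y.2, e⟩,
      fun ⟨y, hy, e⟩ => ⟨⟨y, hy⟩, e⟩⟩) hc ha h0 (X.ev u)
    (fun c => MvPolynomial.eval₂Hom_C _ _ c) hs

variable {Cc : ∀ l : U.L.C, P022D.Rep.Ch (ZMod l.1) F}

/-- the cut on the forms of type `I` -/
theorem cs_Y1 (hN : NZ0 U) (hT : CUT U) (hZ : HZ U) {r n : ℕ} {q : Fin r → ℕ} (P : Lq U r n q) :
    ∃ ν : U.B P.M, (∀ c ∈ P.X.JW, ∀ v ∈ U.Wb P.M n, (c * ν) • v = 0) ∧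
      ∀ I, Cs (P.X.Y1 I) P.X.JW ν := by
  obtain ⟨ν, a, h1, h2, h3⟩ := hT r n q P
  obtain ⟨θ, hθ⟩ := (hZ r n q P).1
  have h4 : ∀ c ∈ P.X.JW, ∀ v ∈ U.Wb P.M n, (c * ν) • v = 0 := fun c hc v hv =>
    h2 c hc v fun h hh => (hv h hh).1
  have h5 := h3 (U.Wb P.M n) ⟨∅, fun _ => 1, fun _ h => h.elim,
    fun v => ⟨fun h => ⟨h, fun _ h => h.elim⟩, fun h => h.1⟩⟩ fun v hv k => by
      obtain ⟨w, e⟩ := (hN r n q P a h1).1 ⟨v, hv⟩ fun c hc => Subtype.ext (k c hc)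
      exact ⟨w.1, w.2, congrArg Subtype.val e⟩
  refine ⟨ν, h4, fun I => ?_⟩
  have h6 := P022F.Fm.Bg.cs_Y P.X.E (J := P.X.JW) (ν := ν) (fun c hc w => Subtype.ext (h4 c hc w.1 w.2))
    (fun w _ k => by
      obtain ⟨x, hx, e⟩ := h5 w.1 w.2 fun c hc => congrArg Subtype.val (k c hc)
      exact ⟨⟨x, hx⟩, trivial, Subtype.ext e⟩) hθ I
  rintro _ ⟨w, hw, rfl⟩ k
  obtain ⟨x, hx, e⟩ := h6 w hw fun c hc => Subtype.ext (k c hc)
  exact ⟨x.1, ⟨x, hx, rfl⟩, congrArg Subtype.val e⟩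

/-- **row BIGR** -/
theorem bigr (hK : HK O) (hV : HKV O) (hD : DIV O) (hU : U.Ok) (hN : NZ0 U) (hT : CUT U)
    (hZ : HZ U) (hS : SBR U Cc) (h0 : NONV U Cc) : BIGR U Cc := by
  intro P J hJ
  obtain ⟨ν, h1, h2⟩ := cs_Y1 hN hT hZ P
  obtain ⟨b, hb⟩ := hS 0
  have h3 := hb 0 _ P (P022D.Rep.XJ U.bn Cc J)
  have h4 := h0 P J hJ
  obtain ⟨M, b', τ, X, u, lv, ok, dia⟩ := P
  have e : M = U.N := by rw [lv.eq, Fin.prod_univ_zero, mul_one]
  subst e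
  exact big hK hV hD hU ok _ (h2 _) (by
    rintro c hc _ ⟨w, -, rfl⟩
    exact h1 c hc w.1 w.2) h4 u h3

end Vale.Agent.P022F.Fm
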