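import Vale.Agent.P022F.W.Ring
import Vale.Agent.P022F.Loc.Cls
import Vale.Agent.P022.H297.L3.Inert
import Vale.Agent.P022F.Ns

/-!
# P022D, forms side: the cyclotomic characters of the local elements
-/

set_option linter.all false

noncomputable section

namespace Vale.Agent.P022F.Fm

open NumberField IsLocalRing
open Vale.Agent.P022 Vale.Agent.P022.H443 Vale.Agent.P022.H853 Vale.Agent.P022D.W
  Vale.Agent.P022F.W
open Vale.Agent.P022F.Loc (Pl Tm)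

variable {m : ℕ} [NeZero m]

theorem cyc_open : IsOpen {g : GQ | cyc m g = 1} := isOpen_cyc m

theorem nat_not_mem {l : ℕ} (hl : l.Prime) (hm : ¬ l ∣ m) {P : Ideal (𝓞 Qb)} (hP : P.IsPrime)
    (hlP : (l : 𝓞 Qb) ∈ P) : (m : 𝓞 Qb) ∉ P := fun h =>
  hm (by exact_mod_cast H20.dvd_of_mem hl hP hlP (d := (m : ℤ)) (by exact_mod_cast h))

/-- inertia at `l` acts trivially on the roots of unity of order prime to `l` -/
theorem cyc_inert_mod {m' : ℕ} [NeZero m'] (hd : m' ∣ m) {l : ℕ} (hl : l.Prime) (hm : ¬ l ∣ m')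
    {P : Ideal (𝓞 Qb)} (hP : P.IsPrime) (hlP : (l : 𝓞 Qb) ∈ P) {s : GQ}
    (hs : ∀ x : 𝓞 Qb, s • x - x ∈ P) : (cyc m s : ZMod m).val ≡ 1 [MOD m'] :=
  cyc_of_pow hd hP (nat_not_mem hl hm hP hlP) (q := 1) fun x => by rw [pow_one]; exact hs x

theorem cyc_inert {l : ℕ} (hl : l.Prime) (hm : ¬ l ∣ m) {P : Ideal (𝓞 Qb)} (hP : P.IsPrime)
    (hlP : (l : 𝓞 Qb) ∈ P) {s : GQ} (hs : ∀ x : 𝓞 Qb, s • x - x ∈ P) : cyc m s = 1 := by
  have h := (ZMod.natCast_eq_natCast_iff _ _ _).2 (cyc_inert_mod dvd_rfl hl hm hP hlP hs)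
  rw [ZMod.natCast_zmod_val, Nat.cast_one] at h
  exact Units.ext h

/-- the decomposition group at `l` acts by powers of `l` -/
theorem cyc_dec {l : ℕ} (hl : l.Prime) (hm : ¬ l ∣ m) {P : Ideal (𝓞 Qb)} (hP : P.IsPrime)
    (hlP : (l : 𝓞 Qb) ∈ P) {g : GQ} (hg : g ∈ dec P) :
    ∃ k : ℕ, (cyc m g : ZMod m) = (l : ZMod m) ^ k := by
  obtain ⟨φ, hφ⟩ := exists_phi hl hP hlP
  obtain ⟨k, s, u, hs, hu, rfl⟩ := dec_gen hl hP hlP hφ hg (cyc m).ker (isOpen_cyc m)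
  refine ⟨k, ?_⟩
  rw [map_mul, map_mul, MonoidHom.mem_ker.1 hu, cyc_inert hl hm hP hlP hs, one_mul, mul_one,
    map_pow, Units.val_pow_eq_pow_val, cyc_frob hl hm ⟨P, hP, hlP, hφ⟩]

/-- the action on the roots of unity, in the words of `Top.DetW` -/
theorem cyc_act (g : GQ) : ∃ a : ℕ, (cyc m g : ZMod m) = a ∧ ∀ ζ : Qb, ζ ^ m = 1 → g ζ = ζ ^ a :=
  ⟨(cyc m g : ZMod m).val, (ZMod.natCast_zmod_val _).symm, fun _ h => cyc_spec g h⟩

theorem cyc_cast {m' : ℕ} [NeZero m'] (hd : m' ∣ m) (g : GQ) :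
    (((cyc m g : ZMod m).val : ℕ) : ZMod m') = cyc m' g := by
  rw [(ZMod.natCast_eq_natCast_iff _ _ _).2 (cyc_mod m hd g), ZMod.natCast_zmod_val]

theorem cyc_map {m' : ℕ} [NeZero m'] (hd : m' ∣ m) (g : GQ) :
    ZMod.unitsMap hd (cyc m g) = cyc m' g := by
  apply Units.ext
  rw [← cyc_cast hd g, ZMod.unitsMap_val, ZMod.natCast_val]

/-- an element of odd order is a `2 ^ n`-th power of a power of itself -/
theorem pow_of_odd {G : Type*} [Monoid G] {x : G} {k : ℕ} (hk : Odd k) (hx : x ^ k = 1) (n : ℕ) :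
    ∃ e : ℕ, (x ^ e) ^ 2 ^ n = x := by
  obtain ⟨j, rfl⟩ := hk
  refine ⟨(j + 1) ^ n, ?_⟩
  rw [← pow_mul, ← mul_pow]
  induction n with
  | zero => simp
  | succ n ih =>
    rw [pow_succ, pow_mul, ih, show (j + 1) * 2 = 2 * j + 1 + 1 by ring, pow_succ, hx, one_mul]

theorem cyc_proOdd {g : GQ} (h : ProOdd g) : ∃ k, Odd k ∧ cyc m g ^ k = 1 :=
  h.pow (cyc m) cyc_open

/-- the generator of tame inertia generates the units at `l` up to odd order -/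
theorem cyc_tau {l k m' : ℕ} (hl : l.Prime) (hmk : m = l ^ k * m') (hc : l.Coprime m')
    {P : Ideal (𝓞 Qb)} (hP : P.IsPrime) (hlP : (l : 𝓞 Qb) ∈ P) {τ φ : GQ} (hT : Tm l P τ φ)
    (u : (ZMod m)ˣ) (hu : (u : ZMod m).val ≡ 1 [MOD m']) :
    ∃ (j : ℕ) (p : (ZMod m)ˣ), (∃ e, Odd e ∧ p ^ e = 1) ∧ u = cyc m τ ^ j * p := by
  obtain ⟨s, hs, h⟩ := H297.L3.inert (NeZero.pos m) hl hmk hc hP hlP u hu
  have e : cyc m s = u := by
    have h1 := cyc_spec s (zt_prim m).pow_eq_one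
    rw [h _ (zt_prim m).pow_eq_one] at h1
    exact Units.ext (ZMod.val_injective m
      ((zt_prim m).pow_inj (ZMod.val_lt _) (ZMod.val_lt _) h1).symm)
  obtain ⟨N, hN⟩ := hT.tame _ (cyc m) cyc_open
  obtain ⟨j, p, hp, rfl⟩ := hN.cyc s hs
  exact ⟨j, cyc m p, hN.odd p hp, by rw [← e, map_mul, map_pow]⟩

/-- `u` is a `2 ^ n`-th power -/
def Pw (n : ℕ) {G : Type*} [Monoid G] (u : G) : Prop := ∃ z : G, z ^ 2 ^ n = u

theorem Pw.pow {n : ℕ} {G : Type*} [CommMonoid G] {u : G} (h : Pw n u) (k : ℕ) : Pw n (u ^ k) := by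
  obtain ⟨z, rfl⟩ := h
  exact ⟨z ^ k, by rw [← pow_mul, ← pow_mul, mul_comm]⟩

theorem neg_one_pw {q n : ℕ} (hq : q.Prime) (h : 2 ^ (n + 1) ∣ q - 1) : Pw n (-1 : (ZMod q)ˣ) := by
  haveI := Fact.mk hq
  obtain ⟨g, hg⟩ := IsCyclic.exists_ofOrder_eq_natCard (α := (ZMod q)ˣ)
  rw [Nat.card_eq_fintype_card, ZMod.card_units] at hg
  obtain ⟨t, ht⟩ := h
  have ht0 : 0 < t := by
    have := hq.two_le
    rcases Nat.eq_zero_or_pos t with rfl | h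
    · omega
    · exact h
  refine ⟨g ^ t, ?_⟩
  have h2 : ((g ^ t) ^ 2 ^ n) ^ 2 = 1 := by
    rw [← pow_mul, ← pow_mul, ← pow_succ, mul_comm, ← ht, ← hg, pow_orderOf_eq_one]
  have h3 : (g ^ t) ^ 2 ^ n ≠ 1 := by
    rw [← pow_mul]
    refine pow_ne_one_of_lt_orderOf (by positivity) ?_
    rw [hg, ht, pow_succ]
    have : 0 < t * 2 ^ n := by positivity
    nlinarith
  have h4 : (((g ^ t) ^ 2 ^ n : (ZMod q)ˣ) : ZMod q) ^ 2 = 1 := by
    rw [← Units.val_pow_eq_pow_val, h2, Units.val_one]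
  rw [sq] at h4
  rcases mul_self_eq_one_iff.1 h4 with h5 | h5
  · exact absurd (Units.ext h5) h3
  · exact Units.ext (by rw [h5]; simp)

variable {O F : Type} [CommRing O] [IsLocalRing O] [Field F] {S : P022D.R.Dat O F} {L : Pl O}

/-- **the elements with fixed determinant act trivially on the diamond groups** -/
theorem dd_pw (hL : L.Ok S) (ho : ∀ l ∈ L.W, ProOdd (L.g0 l)) {q n : ℕ} [NeZero q] (hq : q.Prime)
    (hT : q ∉ S.T) (h1 : 2 ^ (n + 1) ∣ q - 1) (h2 : ∃ z : ZMod q, z ^ 2 ^ n = 2) {g : GQ}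
    (hg : g ∈ L.DD) : Pw n (cyc q g) := by
  haveI := Fact.mk hq
  rw [hL.hT, Finset.mem_insert, Finset.mem_insert, not_or, not_or] at hT
  have hq2 : ¬ 2 ∣ q := fun h => hT.2.1 ((Nat.prime_dvd_prime_iff_eq Nat.prime_two hq).1 h).symm
  rcases hg with hg | rfl | ⟨l, hl, rfl⟩ | ⟨l, hl, rfl⟩
  · rw [hL.h2] at hg
    obtain ⟨k, hk⟩ := cyc_dec (m := q) Nat.prime_two hq2 (P022D.Loc2.PP_prime 2) (P022D.Loc2.p_mem_PP 2) hg
    obtain ⟨z, hz⟩ := h2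
    have h0 : z ≠ 0 := by
      rintro rfl
      rw [zero_pow (by positivity)] at hz
      exact hq2 ((Nat.prime_dvd_prime_iff_eq hq Nat.prime_two).1
        ((ZMod.natCast_eq_zero_iff 2 q).1 (by exact_mod_cast hz.symm)) ▸ dvd_rfl)
    refine ⟨Units.mk0 z h0 ^ k, Units.ext ?_⟩
    rw [hk, Units.val_pow_eq_pow_val, Units.val_pow_eq_pow_val, Units.val_mk0, ← pow_mul, mul_comm,
      pow_mul, hz, Nat.cast_ofNat]
  · have : cyc q L.c = -1 := Units.ext (by rw [cyc_conj hL.cj]; simp)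
    rw [this]
    exact neg_one_pw hq h1
  · have hne : ¬ l ∣ q := fun h =>
      hT.2.2 ((Nat.prime_dvd_prime_iff_eq (hL.pr l hl).1 hq).1 h ▸ hl)
    rw [cyc_inert (hL.pr l hl).1 hne (hL.hP l hl).1 (hL.hP l hl).2 (hL.tm l hl).tau]
    exact ⟨1, one_pow _⟩
  · obtain ⟨k, hk, e⟩ := cyc_proOdd (m := q) (ho l hl)
    obtain ⟨e', he⟩ := pow_of_odd hk e n
    exact ⟨_, he⟩

end Vale.Agent.P022F.Fm
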