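import Vale.Agent.P022D.Fm.Defs
import Vale.Agent.P022F.V.Spec2
import Vale.Agent.P022F.Loc.Cls
import Vale.Agent.P022F.Rep.Rs
import Vale.Agent.P022F.W.Step
import Vale.Agent.P022F.W.Ring
import Vale.Agent.P022F.As.Defs2
import Vale.Agent.P022F.R.Defs
import Vale.Agent.P022F.Loc2.Defs
import Vale.Agent.P022F.Loc2.Dec
import Vale.Agent.P022F.W.Odd
import Vale.Agent.P022F.As.Act
import Vale.Agent.P022F.Rl.AsLoc

namespace Vale.Agent.P022F.Fm
export Vale.Agent.P022D.Fm (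
  cm_comm mem_of_sub fr LS Pm rD Tor mem_sub HA bw Nl cm BT mem_Nl cm_eq sub Mt uP Cy AM
  mem_Tor)
end Vale.Agent.P022F.Fm

namespace Vale.Agent.P022F.Fm.BT
export Vale.Agent.P022D.Fm.BT (
  res alg_smul smul_def ext res_smul loc op)
end Vale.Agent.P022F.Fm.BT

/-!
# P022F, forms side: the modules of forms with their Galois operators (definitions)
-/

set_option linter.all false

open scoped MatrixGroups

noncomputable section

namespace Vale.Agent.P022F.Fm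

open Vale.Agent.P022 Vale.Agent.P022F.V Vale.Agent.P027M.M
open Vale.Agent.P022F.G (Wd wT wS Inert)
open Vale.Agent.P022F.W.Step (kl Cs)
open Vale.Agent.P027M.S (mx)

/-! ### abstract part -/

section abs

variable {O A : Type} [CommRing O] [AddCommGroup A] [Module O A]

variable {H : Subalgebra O (Module.End O A)} {G : Submodule O A}

variable {N : ℕ}

end abs

/-! ### the fixed data -/

/-- the fixed data: `N = NW * NC` is the base level, `i + 1` the weight, `z = e(1 / N)`, `om` the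
central character, `N0` the residual level -/
structure Su (O F : Type) [CommRing O] [Field F] where
  S : R.Dat O F
  L : Loc.Pl O
  ϖ : O
  i : ℕ
  NW : ℕ
  NC : ℕ
  N0 : ℕ
  z : O
  om : ℕ → O

variable {O F : Type} [CommRing O] [Field F]

/-- the base level -/
def Su.N (U : Su O F) : ℕ := U.NW * U.NC

/-- the trace of the point -/
def Su.tr (U : Su O F) (g : GQ) : O := (U.L.r g).trace

/-- the determinant of the point -/
def Su.dt (U : Su O F) (g : GQ) : O := (U.L.r g).det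

/-- the system of the point -/
def Su.sys (U : Su O F) (M : ℕ) : Gen M → O :=
  Sum.elim (fun ℓ => U.tr (fr ℓ.1)) fun ℓ => U.dt (fr ℓ.1)

/-- the hypotheses on the fixed data -/
structure Su.Ok [IsLocalRing O] [Co O] (U : Su O F) : Prop where
  ok : U.L.Ok U.S
  uni : Unif U.ϖ
  hi : 1 ≤ U.i
  NC : U.NC = ∏ l ∈ U.L.C, l
  NW0 : U.NW ≠ 0
  NW : ∀ l : ℕ, l.Prime → (l ∣ U.NW ↔ l ∈ U.L.W)
  W3 : U.L.W.Nonempty ∨ ∃ l ∈ U.L.C, mx U.S.rb (U.L.τ l) ≠ 1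
  z : Co.j U.z = ze U.N 1
  two : ∀ l ∈ U.L.W, ∃ y : O, IsPrimitiveRoot y (l ^ 2 - 1)
  om1 : U.om 1 = 1
  omm : ∀ x y, U.om (x * y) = U.om x * U.om y
  omp : ∀ x y, x ≡ y [MOD U.N] → U.om x = U.om y
  det : ∀ j : ℕ, ∃ a : ℕ, ∀ (g : GQ) (x : ℕ), Nat.Coprime x U.N → Cy (2 ^ a * U.N) g x →
    U.ϖ ^ j ∣ U.dt g - U.om x * (x : O) ^ U.i
  unr : ∀ l : ℕ, l.Prime → l ∉ U.S.T → ∀ g, Inert l g → U.L.r g = 1
  wc : ∀ l ∈ U.L.W, ∃ e u v, Loc.Wc U.S U.L l e u v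
  omr : ∀ x, Nat.Coprime x U.N → U.ϖ ∣ U.om x - 1
  lam : U.S.red U.S.lam = mx U.S.rb U.S.g1 0 1
  N0 : U.N0 ∣ U.N
  res : ∀ [NeZero U.N0], ∃ k : ℕ, ∀ X : Wd U.N0, (∀ j < k, G.sg U.N0 j X = 0) →
    U.ϖ ∣ FreeAlgebra.lift ℤ (U.sys U.N0) X
  ram : ∀ l ∈ U.L.C, l ∣ U.N0 → mx U.S.rb (U.L.τ l) ≠ 1

/-- a level: auxiliary primes `q`, generators `b` of the units at `q`, inertia elements `τ` -/
structure Lv (U : Su O F) (r n M : ℕ) (q : Fin r → ℕ) (b : Fin r → (ZMod M)ˣ) (τ : Fin r → GQ) :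
    Prop where
  inj : Function.Injective q
  pr : ∀ i, (q i).Prime ∧ q i ∉ U.S.T
  eq : M = U.N * ∏ i, q i
  one : ∀ i, 2 ^ (n + 1) ∣ q i - 1
  two : ∀ i, ∃ x : ZMod (q i), x ^ 2 ^ n = 2
  b1 : ∀ i, V.Cg M (M / q i) (b i) 1
  gen : ∀ (i) (a : (ZMod M)ˣ), V.Cg M (M / q i) a 1 →
    ∃ (k : ℕ) (c : (ZMod M)ˣ), V.Cg M (M / q i) c 1 ∧ a = b i ^ k * c ^ 2 ^ n
  ine : ∀ i, Inert (q i) (τ i)
  cyc : ∀ i, Cy M (τ i) (b i : ZMod M).val

variable [Co O]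

namespace Su

variable (U : Su O F) (M : ℕ)

/-- the primary part -/
def XP (S : Finset ℕ) : Submodule O (AM O M) := XD O M U.i ⊓ Pm (bw O M U.i) (U.sys M) S

/-- **the carrier of the Galois operators** -/
def GG : Submodule O (AM O M) := U.XP M ∅

/-- its ring of operators -/
abbrev B : Type := BT (HA O M U.N U.i) (U.GG M)

/-- stable parts -/
abbrev sb (Y : Submodule O (AM O M)) : Submodule (U.B M) (U.GG M) := sub _ _ Y

/-- the scalars which are `1` modulo `K` act by `om` -/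
def Ce (K : ℕ) : Submodule O (AM O M) :=
  Eg O (RD O) {g | ∃ a : (ZMod M)ˣ, V.Cg M K a 1 ∧ g = dg a a}
    fun g => U.om ((g : Matrix (Fin 2) (Fin 2) (ZMod M)) 0 0).val

/-- Whittaker at the primes of `NW`, invariant under the unipotent groups outside `N` -/
def WhP : Submodule O (AM O M) :=
  ⨅ x : ℕ, LinearMap.ker (U.z ^ (U.NC * x) • rD O (un ((U.NC * x : ℕ) : ZMod M)) - 1)

/-- the `2 ^ n`-th powers in the torus at the auxiliary primes -/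
def TQ (n : ℕ) : Set (GM M) :=
  {g | ∃ a d : (ZMod M)ˣ, V.Cg M U.N a 1 ∧ V.Cg M U.N d 1 ∧ g = dg (a ^ 2 ^ n) (d ^ 2 ^ n)}

/-- the group conditions, nothing at the primes of `NC` except the centre -/
def Zp (n : ℕ) : Submodule O (AM O M) :=
  U.Ce M (M / U.NC) ⊓ U.WhP M ⊓ Iv O (RD O) (U.TQ M n)

/-- the group conditions of the Whittaker part -/
def Zw (n : ℕ) : Submodule O (AM O M) :=
  U.Ce M (M / U.NC) ⊓ Wh O (RD O) M U.z ⊓ Iv O (RD O) (U.TQ M n)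

/-- the forms modulo `ϖ` on which the projective groups act -/
def Wb (n : ℕ) : Submodule (U.B M) (U.GG M) := U.sb M (U.Zp M n ⊓ Tor (AM O M) U.ϖ)

variable {U M} in
/-- the element `e` acts as the translation by `g` -/
def IsU (e : U.B M) (g : GM M) : Prop := ∀ v : U.GG M, ((e • v : U.GG M) : AM O M) = rD O g v

variable {M} in
/-- **the Galois operators** -/
structure Op (t : GQ → U.B M) (d : GQ →* (U.B M)ˣ) : Prop where
  tf : H346.TF t d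
  opn : ∀ v : U.GG M, ∃ V : Subgroup GQ, V.Normal ∧ IsOpen (V : Set GQ) ∧
    (∀ ℓ : PA M, ∀ g, Inert ℓ.1 g → g ∈ V) ∧
    ∀ u ∈ V, (d u : U.B M) • v = v ∧ ∀ g, t (g * u) • v = t g • v
  frT : ∀ (ℓ : PA M) φ, IsFrob ℓ.1 φ → ∀ v : U.GG M,
    ((t φ • v : U.GG M) : AM O M) = T2 O (RD O) U.i ℓ.1 (uP ℓ) v
  frS : ∀ (ℓ : PA M) φ, IsFrob ℓ.1 φ → ∀ v : U.GG M,
    (((d φ : U.B M) • v : U.GG M) : AM O M) = S2 O (RD O) U.i ℓ.1 (uP ℓ) v
  fin : ∀ v : U.GG M, Finite (Submodule.span (U.B M) {v})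
  nil : ∀ (g : GQ) (v : U.GG M), ∃ k : ℕ, (t g - algebraMap O _ (U.tr g)) ^ k • v = 0 ∧
    ((d g : U.B M) - algebraMap O _ (U.dt g)) ^ k • v = 0
  dF : ∀ v : U.GG M, ∃ a : ℕ, ∀ (g : GQ) (x : ℕ) (u : (ZMod M)ˣ), Odd x → (u : ZMod M) = x →
    Cy (2 ^ a * M) g x → (((d g : U.B M) • v : U.GG M) : AM O M) = S2 O (RD O) U.i x u v
  dI : ∀ l : ℕ, l.Prime → l ≠ 2 → ∀ s, Inert l s → ∀ u : (ZMod M)ˣ, Cy M s (u : ZMod M).val →
    IsU (d s : U.B M) (dg u u)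
  dc : ∀ c, IsConj c → (d c : U.B M) = -1
  i1 : ∀ M₀ q, Sp M M₀ q → ∀ s, Inert q s → ∀ u : (ZMod M)ˣ, Cy M s (u : ZMod M).val →
    ∀ v : U.GG M, (v : AM O M) ∈ Iv O (RD O) (Uq M M₀) →
      ((t s • v : U.GG M) : AM O M) = rD O (dg u 1) v + rD O (dg 1 u) v
  ur : ∀ M₀ q, Sp M M₀ q → ∀ s, Inert q s → ∀ v : U.GG M,
    (v : AM O M) ∈ Iv O (RD O) (Kq M M₀) → ∀ g, t (g * s) • v = t g • v

end Su

section lev

variable (U : Su O F) [hC : ∀ l : U.L.C, Fact l.1.Prime] [CharP F 2]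

/-- the groups -/
abbrev Su.Gam : U.L.C → Type := fun l => Rep.PG (ZMod l.1)

/-- their `BN` structures -/
abbrev Su.bn : ∀ l : U.L.C, Rep.BN (ZMod l.1) (U.Gam l) := fun l => Rep.bnP (ZMod l.1)

/-- the additive characters which belong to `z` -/
def Su.IsCh (Cc : ∀ l : U.L.C, Rep.Ch (ZMod l.1) F) : Prop :=
  ∀ (l : U.L.C) (x : ℕ), (Cc l).ψ ((U.N / l.1 * x : ℕ) : ZMod l.1) *
    U.S.red U.z ^ (U.N / l.1 * x) = 1

/-- the operators of a level -/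
structure Dt (M n : ℕ) where
  t : GQ → U.B M
  d : GQ →* (U.B M)ˣ
  E : Rep.Act F U.Gam (U.B M) (U.Wb M n)

variable {U} {M n : ℕ} (X : Dt U M n)

/-- the operators are the right ones -/
structure Dt.Ok : Prop where
  op : U.Op X.t X.d
  sc : ∀ (c : O) (w : U.Wb M n), X.E.sc (U.S.red c) w = algebraMap O (U.B M) c • w
  act : ∀ h ∈ Kq M (M / U.NC), ∀ γ : ∀ l, U.Gam l,
    (∀ (l : U.L.C) (hl : l.1 ∣ M), γ l = QuotientGroup.mk (pr hl h)) →
      ∀ w : U.Wb M n, (((X.E.ρ γ w : U.Wb M n) : U.GG M) : AM O M) = rD O h (w : U.GG M)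

/-- the elements of the cut -/
def Dt.JW : Set (U.B M) :=
  {c | (∃ g ∈ U.L.TT, c = X.t g - algebraMap O _ (U.tr g)) ∨
    ∃ l ∈ U.L.W, c = (X.d (U.L.τ l) : U.B M) - algebraMap O _ (U.dt (U.L.τ l))}

/-- the forms of type `I` before the cut -/
def Dt.Y1 (I : Rep.Tu F U.Gam) : Submodule (U.B M) (U.GG M) := (X.E.Y I).map (U.Wb M n).subtype

/-- **the forms of type `I`** -/
def Dt.Y (I : Rep.Tu F U.Gam) : Submodule (U.B M) (U.GG M) := kl (X.Y1 I) X.JW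

/-- all forms after the cut -/
def Dt.Z : Submodule (U.B M) (U.GG M) := kl (U.sb M (U.Zp M n)) X.JW

/-- **the Whittaker forms** -/
def Dt.Wh : Submodule (U.B M) (U.GG M) := kl (U.sb M (U.Zw M n)) X.JW

/-- the congruence element at `p` -/
def Dt.D (p : ℕ) (φ : GQ) : U.B M := (p : U.B M) * X.t φ ^ 2 - ((p : U.B M) + 1) ^ 2 * X.d φ

/-- the Whittaker forms killed by `ϖ ^ j` -/
def Dt.Wc (j : ℕ) : Submodule (U.B M) (U.GG M) := kl X.Wh {algebraMap O _ (U.ϖ ^ j)}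

/-- the action of the symbols -/
def Dt.ev {r : ℕ} (u : Fin r ⊕ Fin r → U.B M) : As.Tg O →+* U.B M :=
  MvPolynomial.eval₂Hom (algebraMap O _) (Sum.elim X.t (Sum.elim (fun g => (X.d g : U.B M))
    fun i => if h : i < r then u (Sum.inl ⟨i, h⟩) - 1 else 0))

end lev

/-- the diamond operators: `d₁` and `d₂ / d₁` -/
def IsDia {U : Su O F} {M r : ℕ} (b : Fin r → (ZMod M)ˣ) (u : Fin r ⊕ Fin r → U.B M) : Prop :=
  ∀ i, Su.IsU (u (Sum.inl i)) (dg 1 (b i)) ∧ Su.IsU (u (Sum.inr i)) (dg (b i) (b i)⁻¹)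

end Vale.Agent.P022F.Fm
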