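import Vale.Agent.P022F.Fm.Rows
import Vale.Agent.P022D.V.All0
import Vale.Agent.P022F.Fm.DiaA
import Vale.Agent.P022.H20.Frob
import Vale.Agent.P022F.Ns

/-!
# P022D, forms side: levels, diamond operators and cyclicity for the modules of forms
-/

set_option linter.all false

noncomputable section

namespace Vale.Agent.P022F.Fm

open Vale.Agent.P022 Vale.Agent.P027M.M Vale.Agent.P022D.V Vale.Agent.P022F.V Vale.Agent.P022D.As
  Vale.Agent.P022F.As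
open Vale.Agent.P027M.S (mx)

variable {O F : Type} [CommRing O] [Field F] [Co O] {U : Su O F}

namespace Di

variable [IsLocalRing O]

theorem mem_of_dvd (hU : U.Ok) {l : ℕ} (hl : l.Prime) (hd : l ∣ U.N) : l ∈ U.L.W ∪ U.L.C := by
  rcases (hl.dvd_mul).1 hd with h | h
  · exact Finset.mem_union_left _ ((hU.NW l hl).1 h)
  · rw [hU.NC] at h
    obtain ⟨p, hp, h⟩ := (Prime.dvd_finset_prod_iff hl.prime _).1 h
    rw [(Nat.prime_dvd_prime_iff_eq hl (hU.ok.pr p (Finset.mem_union_right _ hp)).1).1 h]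
    exact Finset.mem_union_right _ hp

theorem dvd_of_mem (hU : U.Ok) {l : ℕ} (hl : l ∈ U.L.W ∪ U.L.C) : l ∣ U.N := by
  rcases Finset.mem_union.1 hl with h | h
  · exact ((hU.NW l (hU.ok.pr l hl).1).2 h).mul_right _
  · refine Dvd.dvd.mul_left ?_ _
    rw [hU.NC]
    exact Finset.dvd_prod_of_mem _ h

theorem odd_N (hU : U.Ok) : Odd U.N := by
  rw [← Nat.not_even_iff_odd, even_iff_two_dvd]
  exact fun h => (hU.ok.pr 2 (mem_of_dvd hU Nat.prime_two h)).2 rfl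

theorem three_le (hU : U.Ok) : 3 ≤ U.N := by
  obtain ⟨l, hl⟩ : ∃ l, l ∈ U.L.W ∪ U.L.C := hU.W3.elim
    (fun ⟨l, h⟩ => ⟨l, Finset.mem_union_left _ h⟩) fun ⟨l, h, _⟩ => ⟨l, Finset.mem_union_right _ h⟩
  have h1 := Nat.le_of_dvd (odd_N hU).pos (dvd_of_mem hU hl)
  have h2 := (hU.ok.pr l hl).1.two_le
  have h3 := (hU.ok.pr l hl).2
  omega

theorem not_dvd (hU : U.Ok) {q : ℕ} (hq : q.Prime) (h : q ∉ U.S.T) : ¬ q ∣ U.N := fun e => h (by
  rw [hU.ok.hT]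
  exact Finset.mem_insert_of_mem (Finset.mem_insert_of_mem (mem_of_dvd hU hq e)))

theorem ne_two (hU : U.Ok) {q : ℕ} (h : q ∉ U.S.T) : q ≠ 2 := fun e => h (by
  rw [hU.ok.hT, e]
  exact Finset.mem_insert_of_mem (Finset.mem_insert_self _ _))

theorem odd_M (hU : U.Ok) {r : ℕ} {q : Fin r → ℕ} (h : ∀ i, (q i).Prime ∧ q i ∉ U.S.T) :
    Odd (U.N * ∏ i, q i) :=
  (odd_N hU).mul (Finset.prod_induction _ Odd (fun _ _ => Odd.mul) odd_one fun i _ =>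
    (h i).1.odd_of_ne_two (ne_two hU (h i).2))

theorem z_pow (hU : U.Ok) : U.z ^ U.N = 1 := Co.inj (by
  have h : (U.N : ℂ) ≠ 0 := by exact_mod_cast (odd_N hU).pos.ne'
  rw [map_pow, hU.z, map_one, ze, ← Complex.exp_nat_mul, ← Complex.exp_two_pi_mul_I]
  congr 1
  push_cast
  field_simp)

end Di

variable {r n M : ℕ} {q : Fin r → ℕ} {b : Fin r → (ZMod M)ˣ} {τ : Fin r → GQ}

/-- a level consists of auxiliary data -/
theorem Lv.aux [IsLocalRing O] (hU : U.Ok) (V : Lv U r n M q b τ) : Aux M U.N n q b :=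
  ⟨V.eq ▸ Di.odd_M hU V.pr, V.eq, V.inj, fun i => ⟨(V.pr i).1, Di.not_dvd hU (V.pr i).1 (V.pr i).2⟩,
    V.b1, V.gen⟩

theorem Lv.lam [IsLocalRing O] (hU : U.Ok) (V : Lv U r n M q b τ) :
    ∃ lam : Fin r → (ZMod M)ˣ →* Multiplicative (ZMod (2 ^ n)), Lam q b lam :=
  (V.aux hU).lam fun j => (pow_dvd_pow 2 n.le_succ).trans (V.one j)

/-- **levels exist** -/
theorem exLv [IsLocalRing O] (hU : U.Ok) (inj : Function.Injective q)
    (pr : ∀ i, (q i).Prime ∧ q i ∉ U.S.T) (one : ∀ i, 2 ^ (n + 1) ∣ q i - 1)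
    (two : ∀ i, ∃ x : ZMod (q i), x ^ 2 ^ n = 2) :
    ∃ (b : Fin r → (ZMod (U.N * ∏ i, q i))ˣ) (τ : Fin r → GQ),
      Lv U r n (U.N * ∏ i, q i) q b τ := by
  have hM := Di.odd_M hU pr
  have : NeZero (U.N * ∏ i, q i) := ⟨hM.pos.ne'⟩
  obtain ⟨τ, lam, h1, h2, -⟩ := exists_tau (n := n) hM rfl inj
    (fun i => ⟨(pr i).1, Di.not_dvd hU (pr i).1 (pr i).2⟩)
    fun j => (pow_dvd_pow 2 n.le_succ).trans (one j)
  exact ⟨_, τ, inj, pr, rfl, one, two, h2.one, h2.gen, h1, fun i ζ h => H853.cyc_spec _ h⟩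

/-- **levels exist for auxiliary primes** -/
theorem exLv_aq [IsLocalRing O] (hU : U.Ok) {A : Finset ℕ} {n₀ : ℕ} (h0 : 1 ≤ n₀)
    (inj : Function.Injective q) (h : ∀ i, Aq U.S.rb (A ∪ U.S.T) (n + n₀) (q i)) :
    ∃ (b : Fin r → (ZMod (U.N * ∏ i, q i))ˣ) (τ : Fin r → GQ),
      Lv U r n (U.N * ∏ i, q i) q b τ :=
  exLv hU inj (fun i => ⟨(h i).prime, fun e => (h i).out (Finset.mem_union_right _ e)⟩)
    (fun i => (pow_dvd_pow 2 (by omega)).trans (h i).one) fun i => by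
      obtain ⟨z, hz⟩ := (h i).two
      exact ⟨z ^ 2 ^ n₀, by rw [← pow_mul, ← pow_add, add_comm, hz]⟩

/-- the base level -/
theorem lv_base (U : Su O F) (n : ℕ) : Lv U 0 n U.N Fin.elim0 Fin.elim0 Fin.elim0 :=
  ⟨fun i => i.elim0, fun i => i.elim0, by simp, fun i => i.elim0, fun i => i.elim0,
    fun i => i.elim0, fun i => i.elim0, fun i => i.elim0, fun i => i.elim0⟩

/-- the embedding of a module over the symbols in the ambient module -/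
def em {T : Type} [CommRing T] (φ : T →+* U.B M) (Y : Submodule (U.B M) (U.GG M)) :
    P022D.Fm.Mt φ Y →+ P022D.Fm.AM O M where
  toFun w := ((show Y from w).1 : P022D.Fm.AM O M)
  map_zero' := rfl
  map_add' _ _ := rfl

section io

variable {T : Type} [CommRing T] {φ : T →+* U.B M} {Y : Submodule (U.B M) (U.GG M)}

theorem em_inj : Function.Injective (em φ Y) := fun _ _ h => Subtype.ext (Subtype.ext h)

theorem em_smul (p : T) (w : P022D.Fm.Mt φ Y) :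
    em φ Y (p • w) = ((φ p • (show Y from w).1 : U.GG M) : P022D.Fm.AM O M) := rfl

end io

section lev

variable [hC : ∀ l : U.L.C, Fact l.1.Prime] [CharP F 2] (X : Dt U M n)
  (u : Fin r ⊕ Fin r → U.B M)

theorem Dt.ev_cc (c : O) : X.ev u (cc c) = algebraMap O _ c := MvPolynomial.eval₂Hom_C _ _ _

theorem Dt.ev_tt (g : GQ) : X.ev u (tt g) = X.t g := MvPolynomial.eval₂Hom_X' _ _ _

theorem Dt.ev_dd (g : GQ) : X.ev u (dd g) = X.d g := MvPolynomial.eval₂Hom_X' _ _ _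

theorem Dt.ev_yy (j : Fin r) : X.ev u (1 + yy j) = u (Sum.inl j) := by
  rw [map_add, map_one, yy, Dt.ev, MvPolynomial.eval₂Hom_X']
  simp

/-- the conditions at the auxiliary primes -/
def Su.Zq (U : Su O F) (M n : ℕ) : Submodule O (P022D.Fm.AM O M) := U.WhP M ⊓ Iv O (RD O) (U.TQ M n)

theorem Su.zp_le : U.Zp M n ≤ U.Zq M n := fun _ h => ⟨h.1.2, h.2⟩

theorem Su.zw_zp : U.Zw M n ≤ U.Zp M n := fun v h => ⟨⟨h.1.1, (Submodule.mem_iInf _).2 fun x => by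
  rw [LinearMap.mem_ker, LinearMap.sub_apply, sub_eq_zero]
  exact h.1.2 _⟩, h.2⟩

theorem Dt.y_zp (I : P022D.Rep.Tu F U.Gam) {v : U.GG M} (h : v ∈ X.Y I) :
    (v : P022D.Fm.AM O M) ∈ U.Zp M n := by
  obtain ⟨⟨w, -, rfl⟩, -⟩ := h
  exact (P022D.Fm.mem_of_sub w.2).1

theorem Dt.wh_zw {v : U.GG M} (h : v ∈ X.Wh) : (v : P022D.Fm.AM O M) ∈ U.Zw M n := P022D.Fm.mem_of_sub h.1

theorem Dt.wc_zw {j : ℕ} {v : U.GG M} (h : v ∈ X.Wc j) : (v : P022D.Fm.AM O M) ∈ U.Zw M n := X.wh_zw h.1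

variable {X u} [IsLocalRing O]

omit hC [CharP F 2] in
theorem Lv.uq (hU : U.Ok) (V : Lv U r n M q b τ) {v : P022D.Fm.AM O M} (h : v ∈ U.WhP M) (j : Fin r) :
    v ∈ Iv O (RD O) (Uq M (M / q j)) := by
  have A := V.aux hU
  have : NeZero M := ⟨A.odd.pos.ne'⟩
  rw [Cyc.mem_Iv]
  rintro _ ⟨x, rfl⟩
  obtain ⟨k, hk⟩ := (A.sp j).2
  have h1 := (Submodule.mem_iInf _).1 h (U.NW * k * x.val)
  have e : U.NC * (U.NW * k * x.val) = U.N * (k * x.val) := by rw [Su.N]; ring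
  rw [LinearMap.mem_ker, LinearMap.sub_apply, sub_eq_zero, e, pow_mul, Di.z_pow hU, one_pow,
    one_smul, ← mul_assoc, ← hk, Nat.cast_mul, ZMod.natCast_zmod_val] at h1
  exact h1

omit hC [CharP F 2] in
theorem Lv.inv (hU : U.Ok) (V : Lv U r n M q b τ) {v : P022D.Fm.AM O M}
    (h : v ∈ Iv O (RD O) (U.TQ M n)) (j : Fin r) (c : (ZMod M)ˣ) (hc : Cg M (M / q j) c 1) :
    rt O _ (dg (c ^ 2 ^ n) 1) v = v ∧ rt O _ (dg 1 (c ^ 2 ^ n)) v = v := by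
  have h1 := Cyc.Cg.of_dvd hc ((V.aux hU).sp j).2
  exact ⟨Cyc.mem_Iv.1 h _ ⟨c, 1, h1, Cyc.cg_one, by rw [one_pow]⟩,
    Cyc.mem_Iv.1 h _ ⟨1, c, Cyc.cg_one, h1, by rw [one_pow]⟩⟩

/-- the symbols act as diamond operators -/
theorem Lv.dm (hU : U.Ok) (V : Lv U r n M q b τ) (hX : U.Op X.t X.d) (hu : IsDia b u)
    {Y : Submodule (U.B M) (U.GG M)} (hY : ∀ v ∈ Y, (v : P022D.Fm.AM O M) ∈ U.Zp M n) :
    Dm (O := O) n q b τ (em (X.ev u) Y) := by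
  refine ⟨em_inj, fun j c hc w => V.inv hU (hY _ (show Y from w).2).2 j c hc, fun j w => ?_,
    fun j w => ?_⟩
  · rw [em_smul, X.ev_yy]
    exact (hu j).1 _
  · rw [em_smul, X.ev_tt]
    exact hX.i1 _ _ ((V.aux hU).sp j).1 _ (V.ine j) _ (V.cyc j) _
      (V.uq hU (hY _ (show Y from w).2).1.2 j)

/-- **the fields `dia`, `diaC`** -/
theorem Lv.dia (hU : U.Ok) (V : Lv U r n M q b τ) (hX : U.Op X.t X.d) (hu : IsDia b u)
    {Y : Submodule (U.B M) (U.GG M)} (hY : ∀ v ∈ Y, (v : P022D.Fm.AM O M) ∈ U.Zp M n) :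
    Dia (O := O) n τ (P022D.Fm.Mt (X.ev u) Y) :=
  (V.dm hU hX hu hY).dia (V.aux hU) fun j w => by
    rw [em_smul, X.ev_dd]
    exact hX.dI _ (V.pr j).1 (Di.ne_two hU (V.pr j).2) _ (V.ine j) _ (V.cyc j) _

theorem Lv.diaY (hU : U.Ok) (V : Lv U r n M q b τ) (hX : U.Op X.t X.d) (hu : IsDia b u)
    (I : P022D.Rep.Tu F U.Gam) : Dia (O := O) n τ (P022D.Fm.Mt (X.ev u) (X.Y I)) :=
  V.dia hU hX hu fun _ h => X.y_zp I h

theorem Lv.diaC (hU : U.Ok) (V : Lv U r n M q b τ) (hX : U.Op X.t X.d) (hu : IsDia b u)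
    (j : ℕ) : Dia (O := O) n τ (P022D.Fm.Mt (X.ev u) (X.Wc j)) :=
  V.dia hU hX hu fun _ h => Su.zw_zp (X.wc_zw h)

end lev

section cyc

variable [hC : ∀ l : U.L.C, Fact l.1.Prime] [CharP F 2] {X : Dt U M n}
  {u : Fin r ⊕ Fin r → U.B M} [IsDomain O] [IsDiscreteValuationRing O]

/-- **the field `cyc`** -/
theorem Lv.cyc_of (h1 : CYC O) (h2 : RAT O) (h3 : HKV O) (hU : U.Ok) (V : Lv U r n M q b τ)
    (hX : U.Op X.t X.d) (hu : IsDia b u) {Y : Submodule (U.B M) (U.GG M)}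
    (hY : ∀ v ∈ Y, (v : P022D.Fm.AM O M) ∈ U.Zw M n) (hZ : ∀ v ∈ Y, (v : P022D.Fm.AM O M) ∈ XD1 O M (U.i + 1)) :
    ∃ χ : CharacterModule (P022D.Fm.Mt (X.ev u) Y), ∀ w : P022D.Fm.Mt (X.ev u) Y,
      (∀ p : Tg O, χ (p • w) = 0) → (∏ j, (ee n (O := O) τ j - 1)) • w = 0 := by
  have A := V.aux hU
  have D := V.dm hU hX hu fun v h => Su.zw_zp (hY v h)
  refine cyc_field h1 h2 A (Di.three_le hU) V.two hU.z (em (X.ev u) Y) em_inj
    (fun w => ⟨hZ _ (show Y from w).2, (hY _ (show Y from w).2).1.2⟩) D.inv (fun o w => ?_)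
    (fun p a p1 p2 p3 => ?_) τ (dgr M) (dgl M) (Or.inr ⟨rfl, rfl⟩) D.hy fun j => ?_
  · rw [em_smul, X.ev_cc]
    rfl
  · obtain ⟨φ, hφ⟩ := H20.exists_isFrob p1
    have hp : ¬ p ∣ 2 * M := fun e => by
      rcases p1.dvd_mul.1 e with e | e
      · exact p2 ((Nat.prime_dvd_prime_iff_eq p1 Nat.prime_two).1 e)
      · exact p1.coprime_iff_not_dvd.1 ((ZMod.isUnit_iff_coprime p M).1 (p3 ▸ a.isUnit)) e
    have e : P022D.Fm.uP (⟨p, p1, hp⟩ : PA M) = a := Units.ext p3.symm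
    have k := fun w : P022D.Fm.Mt (X.ev u) Y => (h3 M U.i p a A.odd p1 p2 p3).2.1 _ (hZ _ (show Y from w).2)
    refine ⟨⟨tt φ, fun w => ?_⟩, dd φ, fun w => ?_⟩
    · rw [em_smul, X.ev_tt, hX.frT ⟨p, p1, hp⟩ φ hφ, e]
      exact (k w).2.2.1
    · rw [em_smul, X.ev_dd, hX.frS ⟨p, p1, hp⟩ φ hφ, e]
      exact (k w).2.2.2
  · rw [add_comm]
    exact D.ht j

/-- the same with any positive exponent -/
theorem Lv.cycC (h1 : CYC O) (h2 : RAT O) (h3 : HKV O) (hU : U.Ok) (V : Lv U r n M q b τ)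
    (hX : U.Op X.t X.d) (hu : IsDia b u)
    (hZ : ∀ v ∈ X.Wh, (v : P022D.Fm.AM O M) ∈ XD1 O M (U.i + 1)) (j : ℕ) {c : ℕ} (hc : 1 ≤ c) :
    ∃ χ : CharacterModule (P022D.Fm.Mt (X.ev u) (X.Wc j)), ∀ w : P022D.Fm.Mt (X.ev u) (X.Wc j),
      (∀ p : Tg O, χ (p • w) = 0) → (∏ i, (ee n τ i - 1) : Tg O) ^ c • w = 0 := by
  obtain ⟨χ, h⟩ := V.cyc_of h1 h2 h3 hU hX hu (Y := X.Wc j) (fun v h => X.wc_zw h)
    fun v h => hZ v h.1
  refine ⟨χ, fun w hw => ?_⟩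
  rw [← Nat.sub_add_cancel hc, pow_succ, mul_smul, h w hw, smul_zero]

end cyc

section rows

theorem pow_smul_congr {B W : Type} [CommRing B] [AddCommGroup W] [Module B W] {x y : B}
    (h : ∀ w : W, x • w = y • w) (k : ℕ) (w : W) : x ^ k • w = y ^ k • w := by
  induction k with
  | zero => rw [pow_zero, pow_zero]
  | succ k ih => rw [pow_succ', pow_succ', mul_smul, mul_smul, ih, h]

theorem nrm_congr {B W : Type} [CommRing B] [AddCommGroup W] [Module B W] {r : ℕ} (n : ℕ)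
    {x y : Fin r ⊕ Fin r → B} (h : ∀ s (w : W), x s • w = y s • w) (w : W) :
    P022D.Fm.nrm n x • w = P022D.Fm.nrm n y • w := by
  rw [P022D.Fm.nrm, P022D.Fm.nrm, Finset.sum_smul, Finset.sum_smul]
  exact Finset.sum_congr rfl fun k _ =>
    prod_smul_congr _ (fun s w => pow_smul_congr (h s) _ w) w

theorem map_nD {B : Type} [CommRing B] (φ : Tg O →+* B) (n : ℕ) (τ : Fin r → GQ) :
    φ (nD n τ) = P022D.Fm.nrm n fun s => φ (dl n τ s) := by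
  simp only [nD, P022D.Fm.nrm, map_sum, map_prod, map_pow]

theorem Lv.lm1 [IsLocalRing O] (hU : U.Ok) (V : Lv U r n M q b τ) : U.Lm M := by
  have A := V.aux hU
  refine ⟨A.odd, Di.three_le hU, ⟨_, V.eq⟩, ?_⟩
  rw [V.eq, Nat.mul_div_cancel_left _ (Di.odd_N hU).pos]
  exact Nat.Coprime.prod_right fun j _ => ((A.pr j).1.coprime_iff_not_dvd.2 (A.pr j).2).symm

/-- **row LQ** -/
theorem lqC [IsLocalRing O] (hU : U.Ok) : LQ U :=
  ⟨fun _ _ _ _ _ _ V => V.lm1 hU, fun r n q inj h =>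
    ⟨_, exLv_aq hU (A := ∅) le_rfl inj (by rwa [Finset.empty_union])⟩⟩

variable [CharP F 2] [hC : ∀ l : U.L.C, Fact l.1.Prime]

/-- **row DIA** -/
theorem diaC [IsLocalRing O] (hU : U.Ok) : DIA U := fun r n q P => by
  refine ⟨fun v hv => ?_, fun Y hY => P.lv.dia hU P.ok.op P.dia fun v h => P022D.Fm.mem_of_sub (hY h)⟩
  have D := P.lv.dm hU P.ok.op P.dia (Y := U.sb P.M (U.Zp P.M n)) fun v h => P022D.Fm.mem_of_sub h
  have A := P.lv.aux hU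
  have h1 : ∀ s (w : U.sb P.M (U.Zp P.M n)), P.ev (dl n P.τ s) • w = P.u s • w := by
    rintro (j | j) w
    · exact congrArg (· • w) (P.X.ev_yy P.u j)
    · exact Subtype.ext (Subtype.ext ((D.ee A j w).trans ((P.dia j).2 w.1).symm))
  refine ⟨fun s => congrArg Subtype.val (h1 s ⟨v, hv⟩), ?_, fun s => ?_⟩
  · rw [map_nD]
    exact congrArg Subtype.val (nrm_congr n h1 ⟨v, hv⟩)
  · have h2 := D.grp A s ⟨v, hv⟩
    have h3 := pow_smul_congr (B := U.B P.M) (W := U.sb P.M (U.Zp P.M n)) (h1 s) (2 ^ n) ⟨v, hv⟩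
    rw [← map_pow] at h3
    exact congrArg Subtype.val (h3.symm.trans h2)

/-- **row CYF** -/
theorem cyfC [IsDomain O] [IsDiscreteValuationRing O] (hU : U.Ok) (hL : CLS U) : CYF U :=
  fun r n q P => P.lv.cycC (P022D.V.All.cyc O) (P022D.V.All.rat O) (P022D.V.All.hkv O) hU P.ok.op P.dia
    (fun v h => (hL r n q P v ⟨fun e he => Su.zw_zp (h.1 e he), h.2⟩).2.2.1) _ (by norm_num)

end rows

end Vale.Agent.P022F.Fm
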