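import Vale.Agent.P022F.Fm.Defs
import Vale.Agent.P022D.V.Form
import Vale.Agent.P022F.Ns

/-!
# P022D, forms side: the Whittaker forms modulo the uniformiser
-/

set_option linter.all false

open scoped MatrixGroups

noncomputable section

namespace Vale.Agent.P022F.Fm

open Vale.Agent.P022 Vale.Agent.P022D.V Vale.Agent.P022F.V Vale.Agent.P027M.M
open Vale.Agent.P022D.W.Step (kl Cs Dv mem_kl mem_kl1 cut_dv)

namespace Red

theorem un_add {M : ℕ} (x y : ZMod M) : un (x + y) = un x * un y := by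
  apply Units.ext
  rw [Units.val_mul, un_coe, un_coe, un_coe]
  ext i j
  fin_cases i <;> fin_cases j <;> simp [Matrix.mul_apply, Fin.sum_univ_two, add_comm]

theorem un_zero {M : ℕ} : un (0 : ZMod M) = 1 := by
  apply Units.ext
  rw [un_coe]
  ext i j
  fin_cases i <;> fin_cases j <;> simp

theorem un_dg {M : ℕ} (x : ZMod M) (a d : (ZMod M)ˣ) :
    un x * dg a d = dg a d * un (((a⁻¹ : (ZMod M)ˣ) : ZMod M) * x * (d : ZMod M)) := by
  apply Units.ext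
  rw [Units.val_mul, Units.val_mul, un_coe, un_coe, dg_coe]
  ext i j
  fin_cases i <;> fin_cases j <;> simp [Matrix.mul_apply, Fin.sum_univ_two, ← mul_assoc]

theorem pr_un {M l : ℕ} [Fact l.Prime] (h : l ∣ M) (x : ℕ) :
    pr h (un (x : ZMod M)) = P022D.Rep.uG (x : ZMod l) := by
  apply Units.ext
  ext i j
  change ZMod.castHom h (ZMod l) ((un (x : ZMod M) : Matrix (Fin 2) (Fin 2) (ZMod M)) i j) = _
  rw [un_coe, P022D.Rep.uG_coe]
  fin_cases i <;> fin_cases j <;> simp [-ZMod.castHom_apply]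

theorem uG_zero {K : Type} [Field K] : P022D.Rep.uG (0 : K) = 1 := by
  apply Units.ext
  rw [P022D.Rep.uG_coe]
  ext i j
  fin_cases i <;> fin_cases j <;> simp

theorem un_Kq {M N x : ℕ} (h : N ∣ x) : un (x : ZMod M) ∈ Kq M N := by
  obtain ⟨c, rfl⟩ := h
  intro i j
  rw [un_coe]
  fin_cases i <;> fin_cases j
  · exact ⟨0, by simp⟩
  · exact ⟨c, by simp⟩
  · exact ⟨0, by simp⟩
  · exact ⟨0, by simp⟩

section abs

variable {T B G : Type} [CommRing T] [CommRing B] [AddCommGroup G] [Module B G] (φ : T →+* B)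
  (p : T) {K : Submodule B G}

theorem red_abs {Y : Submodule B G} {c : B} (j : ℕ) (hY : Y = kl K {φ p}) (hc : c = φ p ^ (j + 1)) :
    ∃ e : P022D.Fm.Mt φ Y →ₗ[T] P022D.Fm.Mt φ (kl K {c}),
      Function.Injective e ∧ ∀ w, w ∈ LinearMap.range e ↔ p • w = 0 := by
  subst hY hc
  have hle : kl K {φ p} ≤ kl K {φ p ^ (j + 1)} := by
    intro v hv
    rw [mem_kl1] at hv ⊢
    exact ⟨hv.1, by rw [pow_succ, mul_smul, hv.2, smul_zero]⟩
  refine ⟨⟨⟨fun w => (⟨(show kl K _ from w).1, hle (show kl K _ from w).2⟩ : kl K _),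
    fun _ _ => rfl⟩, fun _ _ => rfl⟩, fun v w h => Subtype.ext (congrArg Subtype.val h :), ?_⟩
  rintro ⟨w, hw⟩
  refine Iff.trans ?_ (Subtype.ext_iff (p := fun x => x ∈ kl K {φ p ^ (j + 1)})).symm
  constructor
  · rintro ⟨⟨v, hv⟩, h⟩
    obtain rfl : v = w := congrArg Subtype.val h
    exact (mem_kl1.1 hv).2
  · exact fun h => ⟨⟨w, mem_kl1.2 ⟨hw.1, h⟩⟩, rfl⟩

theorem piC_abs {c : B} (j : ℕ) (hc : c = φ p ^ j) (w : P022D.Fm.Mt φ (kl K {c})) : p ^ j • w = 0 := by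
  obtain ⟨w, hw⟩ := w
  refine Subtype.ext ?_
  change φ (p ^ j) • w = 0
  rw [map_pow, ← hc]
  exact (mem_kl1.1 hw).2

theorem flat_abs {c : B} (j : ℕ) (hc : c = φ p ^ (j + 1)) (hd : Dv (φ p) K)
    (w : P022D.Fm.Mt φ (kl K {c})) (h : p • w = 0) : ∃ w' : P022D.Fm.Mt φ (kl K {c}), w = p ^ j • w' := by
  obtain ⟨w, hw⟩ := w
  have h0 : φ p • w = 0 := congrArg Subtype.val h
  have dv : ∀ k : ℕ, ∀ v ∈ K, ∃ u ∈ K, v = φ p ^ k • u := by
    intro k
    induction k with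
    | zero => exact fun v hv => ⟨v, hv, by rw [pow_zero, one_smul]⟩
    | succ k ih =>
      intro v hv
      obtain ⟨u, hu, rfl⟩ := ih v hv
      obtain ⟨u', hu', rfl⟩ := hd u hu
      exact ⟨u', hu', by rw [pow_succ, mul_smul]⟩
  obtain ⟨u, hu, e⟩ := dv j w (mem_kl1.1 hw).1
  refine ⟨⟨u, mem_kl1.2 ⟨hu, ?_⟩⟩, Subtype.ext ?_⟩
  · rw [hc, pow_succ', mul_smul, ← e, h0]
  · change w = φ (p ^ j) • u
    rw [map_pow, e]

end abs

section formal

variable {S R : Type} [CommRing S] [CommRing R] [Algebra S R] {M : ℕ}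

/-- the Whittaker operator -/
def wo (R : Type) [CommRing R] [Algebra S R] (M : ℕ) (z : S) : Module.End S (FT M R) :=
  z • (rt S R (un 1)).toLinearMap

theorem wo_it (z : S) (x : ℕ) (w : FT M R) :
    (wo R M z)^[x] w = z ^ x • rt S R (un (x : ZMod M)) w := by
  induction x with
  | zero => rw [Nat.cast_zero, un_zero, rt_one, pow_zero, one_smul, Function.iterate_zero_apply]
  | succ x ih =>
    rw [Function.iterate_succ_apply', ih, map_smul, Nat.cast_succ, add_comm (x : ZMod M), un_add,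
      ← rt_rt, pow_succ, mul_smul]
    rfl

/-- the Whittaker condition can be checked on generators -/
theorem wh_of {z : S} {w : FT M R} (A : Set ℕ) (a : ℕ) (ha : a ∈ A) (h0 : a ≠ 0)
    (hA : ∀ p : ℕ, p.Prime → ∃ x ∈ A, ¬ p ∣ x)
    (h : ∀ x ∈ A, z ^ x • rt S R (un (x : ZMod M)) w = w) : w ∈ Wh S R M z := by
  have hd : ∀ x ∈ A, Function.minimalPeriod (wo R M z) w ∣ x := fun x hx =>
    Function.IsPeriodicPt.minimalPeriod_dvd ((wo_it z x w).trans (h x hx))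
  have h1 : Function.minimalPeriod (wo R M z) w = 1 := by
    by_contra hn
    obtain ⟨p, hp, hpd⟩ := Nat.exists_prime_and_dvd hn
    obtain ⟨x, hx, hn⟩ := hA p hp
    exact hn (hpd.trans (hd x hx))
  intro x
  rw [← wo_it]
  exact Function.isPeriodicPt_iff_minimalPeriod_dvd.2 (h1 ▸ one_dvd x)

theorem wh_dg [NeZero M] {N : ℕ} (hN : N ∣ M) {z : S} (hz : z ^ N = 1) {a d : (ZMod M)ˣ}
    (h : P022D.V.Cg M N a d) {w : FT M R} (hw : w ∈ Wh S R M z) : rt S R (dg a d) w ∈ Wh S R M z := by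
  intro x
  obtain ⟨y, hy⟩ : ∃ y : ℕ, (y : ZMod M) = ((a⁻¹ : (ZMod M)ˣ) : ZMod M) * (x : ZMod M) * d :=
    ⟨_, ZMod.natCast_zmod_val _⟩
  have e : x ≡ y [MOD N] := by
    obtain ⟨t, ht⟩ := h
    have e1 : (y : ZMod M) = x - N * (t * x * (a⁻¹ : (ZMod M)ˣ)) := by
      rw [hy]
      linear_combination (-(x * (a⁻¹ : (ZMod M)ˣ) : ZMod M)) * ht + (x : ZMod M) * a.mul_inv
    have e2 := congrArg (ZMod.castHom hN (ZMod N)) e1
    rw [map_sub, map_mul, map_natCast, map_natCast, map_natCast, ZMod.natCast_self, zero_mul,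
      sub_zero] at e2
    exact (ZMod.natCast_eq_natCast_iff _ _ _).1 e2.symm
  rw [rt_rt, un_dg, ← hy, ← rt_rt, ← map_smul, pow_eq_pow_of_modEq e hz, hw y]

end formal

variable {O F : Type} [CommRing O] [Field F] [Co O]

theorem cm_le {A : Type} [AddCommGroup A] [Module O A] (H : Subalgebra O (Module.End O A)) :
    P022D.Fm.cm H ≤ H := by
  unfold P022D.Fm.cm
  split_ifs
  · exact le_rfl
  · exact bot_le

theorem bw_rt {M i : ℕ} (x : P022D.G.Wd M) (g : GM M) (w : P022D.Fm.AM O M) :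
    rt O _ g (P022D.Fm.bw O M i x w) = P022D.Fm.bw O M i x (rt O _ g w) := by
  induction x using FreeAlgebra.induction generalizing w with
  | grade0 n =>
    rw [eq_intCast, map_intCast, Module.End.intCast_apply, Module.End.intCast_apply, map_zsmul]
  | grade1 s =>
    rw [P022D.Fm.bw, RingHom.coe_coe, FreeAlgebra.lift_ι_apply]
    rcases s with ℓ | ℓ
    · exact rt_T2 _ _ _ _ _
    · exact rt_S2 _ _ _ _ _
  | mul p q hp hq => rw [map_mul, Module.End.mul_apply, hp, hq, Module.End.mul_apply]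
  | add p q hp hq => rw [map_add, LinearMap.add_apply, map_add, hp, hq, LinearMap.add_apply]

theorem wh_HA {M N i : ℕ} [NeZero M] (hN : N ∣ M) {z : O} (hz : z ^ N = 1) :
    ∀ h ∈ P022D.Fm.HA O M N i, ∀ w ∈ Wh O (RD O) M z, h w ∈ Wh O (RD O) M z := by
  intro h hh
  induction hh using Algebra.adjoin_induction with
  | mem x hx =>
    rcases hx with ⟨x, rfl⟩ | ⟨a, d, h, rfl⟩
    · exact fun w hw => Wh_map _ (fun g w => bw_rt x g w) hw
    · exact fun w hw => wh_dg hN hz h hw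
  | algebraMap c => exact fun w hw => Submodule.smul_mem _ c hw
  | add x y _ _ hx hy => exact fun w hw => add_mem (hx w hw) (hy w hw)
  | mul x y _ _ hx hy => exact fun w hw => hx _ (hy w hw)

variable [IsLocalRing O] {U : Su O F} (hU : U.Ok)

include hU

theorem NC_ne : U.NC ≠ 0 := by
  rw [hU.NC]
  exact Finset.prod_ne_zero_iff.2 fun l hl =>
    (hU.ok.pr l (Finset.mem_union_right _ hl)).1.ne_zero

theorem z_pow : U.z ^ U.N = 1 := by
  have h0 : (U.N : ℂ) ≠ 0 := Nat.cast_ne_zero.2 (mul_ne_zero hU.NW0 (NC_ne hU))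
  apply (Co.inj : Function.Injective (Co.j : O →+* ℂ))
  rw [map_pow, hU.z, map_one, ze, ← Complex.exp_nat_mul, Int.cast_one, mul_one,
    mul_div_cancel₀ _ h0, Complex.exp_two_pi_mul_I]

variable {r n M : ℕ} {q : Fin r → ℕ} {b : Fin r → (ZMod M)ˣ} {τ : Fin r → GQ}
  (hL : Lv U r n M q b τ)

include hL

theorem M_ne : M ≠ 0 := by
  rw [hL.eq]
  exact mul_ne_zero (mul_ne_zero hU.NW0 (NC_ne hU))
    (Finset.prod_ne_zero_iff.2 fun i _ => (hL.pr i).1.ne_zero)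

theorem lev {l : ℕ} (hl : l ∈ U.L.C) : M / l = U.N / l * ∏ i, q i ∧ M / U.NC ∣ M / l ∧
    ¬ l ∣ M / l ∧ ∀ l' ∈ U.L.C, l' ≠ l → l' ∣ M / l := by
  have hp := (hU.ok.pr l (Finset.mem_union_right _ hl)).1
  have e : U.NC = l * ∏ k ∈ U.L.C.erase l, k := by
    rw [hU.NC, Finset.mul_prod_erase _ (fun k => k) hl]
  have e1 : U.N / l = U.NW * ∏ k ∈ U.L.C.erase l, k :=
    Nat.div_eq_of_eq_mul_right hp.pos (by rw [Su.N, e]; ring)
  have e2 : M / l = U.N / l * ∏ i, q i :=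
    Nat.div_eq_of_eq_mul_right hp.pos (by rw [e1, hL.eq, Su.N, e]; ring)
  have e3 : M / U.NC = U.NW * ∏ i, q i :=
    Nat.div_eq_of_eq_mul_right (Nat.pos_of_ne_zero (NC_ne hU)) (by rw [hL.eq, Su.N]; ring)
  refine ⟨e2, ⟨∏ k ∈ U.L.C.erase l, k, by rw [e3, e2, e1]; ring⟩, fun h => ?_, fun l' h1 h2 => ?_⟩
  · rw [e2, e1, hp.dvd_mul, hp.dvd_mul] at h
    rcases h with (h | h) | h
    · exact Finset.disjoint_left.1 hU.ok.dj ((hU.NW l hp).1 h) hl
    · obtain ⟨k, hk, h⟩ := hp.prime.exists_mem_finset_dvd h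
      rw [Finset.mem_erase] at hk
      exact hk.1 ((Nat.prime_dvd_prime_iff_eq hp
        (hU.ok.pr k (Finset.mem_union_right _ hk.2)).1).1 h).symm
    · obtain ⟨i, -, h⟩ := hp.prime.exists_mem_finset_dvd h
      refine (hL.pr i).2 ?_
      rw [← (Nat.prime_dvd_prime_iff_eq hp (hL.pr i).1).1 h, hU.ok.hT]
      simp [hl]
  · rw [e2, e1]
    exact ((Finset.dvd_prod_of_mem (fun k => k)
      (Finset.mem_erase.2 ⟨h2, h1⟩)).mul_left _).mul_right _

variable [hC : ∀ l : U.L.C, Fact l.1.Prime] [CharP F 2] {X : Dt U M n} (hX : X.Ok)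

include hX

/-- the unipotent elements at `l` -/
theorem rho_u (l : U.L.C) (x : ℕ) (w : U.Wb M n) :
    (((X.E.ρ (Pi.mulSingle l ((U.bn l).u ((M / l.1 * x : ℕ) : ZMod l.1))) w : U.Wb M n) :
      U.GG M) : P022D.Fm.AM O M) = P022D.Fm.rD O (un ((M / l.1 * x : ℕ) : ZMod M)) (w : U.GG M) := by
  obtain ⟨-, h2, -, h4⟩ := lev hU hL l.2
  refine hX.act _ (un_Kq (h2.mul_right x)) _ (fun l' hl' => ?_) w
  rw [pr_un]
  by_cases e : l' = l
  · subst e
    rw [Pi.mulSingle_eq_same]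
    rfl
  · rw [Pi.mulSingle_eq_of_ne e, (ZMod.natCast_eq_zero_iff _ _).2
      ((h4 l'.1 l'.2 fun h => e (Subtype.ext h)).mul_right x), uG_zero, QuotientGroup.mk_one]

variable {Cc : ∀ l : U.L.C, P022D.Rep.Ch (ZMod l.1) F} (hCc : U.IsCh Cc)

include hCc

theorem wh_one (l : U.L.C) (x : ℕ) (w : U.Wb M n) :
    X.E.ρ (Pi.mulSingle l ((U.bn l).u ((M / l.1 * x : ℕ) : ZMod l.1))) w =
      X.E.sc ((Cc l).ψ ((M / l.1 * x : ℕ) : ZMod l.1)) w ↔
    U.z ^ (M / l.1 * x) • rt O _ (un ((M / l.1 * x : ℕ) : ZMod M)) ((w : U.GG M) : P022D.Fm.AM O M) =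
      (w : U.GG M) := by
  have e : (Cc l).ψ ((M / l.1 * x : ℕ) : ZMod l.1) * U.S.red (U.z ^ (M / l.1 * x)) = 1 := by
    rw [map_pow, (lev hU hL l.2).1, mul_assoc]
    exact hCc l _
  have e1 : ∀ v : U.Wb M n, (((X.E.sc (U.S.red (U.z ^ (M / l.1 * x))) v : U.Wb M n) : U.GG M) :
      P022D.Fm.AM O M) = U.z ^ (M / l.1 * x) • ((v : U.GG M) : P022D.Fm.AM O M) := fun v => by
    rw [hX.sc]
    rfl
  have e2 := rho_u hU hL hX l x w
  change _ ↔ U.z ^ (M / l.1 * x) • P022D.Fm.rD O _ _ = _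
  rw [← e2, ← e1, ← Subtype.ext_iff, ← Subtype.ext_iff]
  constructor
  · intro h
    rw [h, ← Module.End.mul_apply, ← map_mul, mul_comm, e, map_one, Module.End.one_apply]
  · intro h
    conv_rhs => rw [← h, ← Module.End.mul_apply, ← map_mul, e, map_one, Module.End.one_apply]

/-- **the Gelfand-Graev type is the Whittaker condition** -/
theorem mem_G (w : U.Wb M n) : w ∈ X.E.Y (P022D.Rep.XG U.bn Cc).v ↔
    ((w : U.GG M) : P022D.Fm.AM O M) ∈ Wh O (RD O) M U.z := by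
  constructor
  · intro h
    refine wh_of ({U.NC} ∪ Set.range fun l : U.L.C => M / l.1) U.NC (Or.inl rfl) (NC_ne hU)
      (fun p hp => ?_) ?_
    · by_cases hd : p ∣ U.NC
      · rw [hU.NC] at hd
        obtain ⟨l, hl, h⟩ := hp.prime.exists_mem_finset_dvd hd
        rw [(Nat.prime_dvd_prime_iff_eq hp (hC ⟨l, hl⟩).out).1 h]
        exact ⟨_, Or.inr ⟨⟨l, hl⟩, rfl⟩, (lev hU hL hl).2.2.1⟩
      · exact ⟨_, Or.inl rfl, hd⟩
    · rintro _ (rfl | ⟨l, rfl⟩)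
      · have h1 := (Submodule.mem_iInf _).1 (P022D.Fm.mem_of_sub w.2).1.1.2 1
        rw [mul_one, LinearMap.mem_ker, LinearMap.sub_apply, sub_eq_zero] at h1
        exact h1
      · have h1 := (wh_one hU hL hX hCc l 1 w).1
          ((X.E.kill_Ig (U.bn l) (Cc l) w).1 (h l) _)
        rwa [mul_one] at h1
  · intro h l
    refine (X.E.kill_Ig (U.bn l) (Cc l) w).2 fun y => ?_
    have hu : ((M / l.1 : ℕ) : ZMod l.1) ≠ 0 := fun e =>
      (lev hU hL l.2).2.2.1 ((ZMod.natCast_eq_zero_iff _ _).1 e)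
    have e : y = ((M / l.1 * (y / ((M / l.1 : ℕ) : ZMod l.1)).val : ℕ) : ZMod l.1) := by
      rw [Nat.cast_mul, ZMod.natCast_zmod_val, mul_div_cancel₀ _ hu]
    rw [e]
    exact (wh_one hU hL hX hCc l _ w).2 (h _)

theorem y1_G : X.Y1 (P022D.Rep.XG U.bn Cc).v =
    kl (U.sb M (U.Zw M n)) {algebraMap O (U.B M) U.ϖ} := by
  haveI : NeZero M := ⟨M_ne hU hL⟩
  ext v
  rw [mem_kl1]
  constructor
  · rintro ⟨w, hw, rfl⟩
    refine ⟨fun h hh => ?_, Subtype.ext (P022D.Fm.mem_of_sub w.2).2⟩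
    have h1 := (w.2 h hh).1
    exact ⟨⟨h1.1.1, wh_HA ⟨_, hL.eq⟩ (z_pow hU) h (cm_le _ hh) _
      ((mem_G hU hL hX hCc w).1 hw)⟩, h1.2⟩
  · rintro ⟨h1, h2⟩
    refine ⟨⟨v, fun h hh => ?_⟩, (mem_G hU hL hX hCc _).2 (P022D.Fm.mem_of_sub h1).1.2, rfl⟩
    have h3 := h1 h hh
    refine ⟨⟨⟨h3.1.1, (Submodule.mem_iInf _).2 fun x => ?_⟩, h3.2⟩, ?_⟩
    · rw [LinearMap.mem_ker, LinearMap.sub_apply, sub_eq_zero]
      exact h3.1.2 _
    · have h4 : U.ϖ • (v : P022D.Fm.AM O M) = 0 := congrArg Subtype.val h2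
      rw [SetLike.mem_coe, P022D.Fm.mem_Tor, ← map_smul, h4, map_zero]

/-- **RED** -/
theorem y_G : X.Y (P022D.Rep.XG U.bn Cc).v = X.Wc 1 := by
  ext v
  rw [Dt.Y, Dt.Wc, Dt.Wh, y1_G hU hL hX hCc, pow_one, mem_kl, mem_kl1, mem_kl1, mem_kl]
  tauto

theorem wh_le : X.Wc 1 ≤ X.Wh := P022D.W.Step.kl_le _ _

/-- divisibility after the cut -/
theorem dv_wh {θ : U.B M} (hd : Dv (algebraMap O (U.B M) U.ϖ) (U.sb M (U.Zw M n)))
    (ht : ∀ v : U.GG M, ∃ k : ℕ, U.ϖ ^ k • v = 0)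
    (ha : ∀ c ∈ X.JW, ∀ v : U.GG M, (c * θ) • v = 0)
    (hc : Cs (X.Y1 (P022D.Rep.XG U.bn Cc).v) X.JW θ) : Dv (algebraMap O (U.B M) U.ϖ) X.Wh :=
  cut_dv hd (fun v _ => (ht v).imp fun k hk => by rwa [← map_pow]) (fun c h v _ => ha c h v)
    (by rwa [← y1_G hU hL hX hCc])

/-- the field `red` -/
theorem red {T : Type} [CommRing T] (φ : T →+* U.B M) (p : T) (hp : φ p = algebraMap O _ U.ϖ)
    (j : ℕ) : ∃ e : P022D.Fm.Mt φ (X.Y (P022D.Rep.XG U.bn Cc).v) →ₗ[T] P022D.Fm.Mt φ (X.Wc (j + 1)),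
      Function.Injective e ∧ ∀ w, w ∈ LinearMap.range e ↔ p • w = 0 :=
  red_abs φ p j (by rw [y_G hU hL hX hCc, Dt.Wc, pow_one, hp]) (by rw [hp]; exact map_pow _ _ _)

omit hU hL hX hCc in
/-- the field `piC` -/
theorem piC (X : Dt U M n) {T : Type} [CommRing T] (φ : T →+* U.B M) (p : T)
    (hp : φ p = algebraMap O _ U.ϖ) (j : ℕ) (w : P022D.Fm.Mt φ (X.Wc j)) : p ^ j • w = 0 :=
  piC_abs φ p j (by rw [hp]; exact map_pow _ _ _) w

omit hU hL hX hCc in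
/-- the field `flat` -/
theorem flat (X : Dt U M n) (hd : Dv (algebraMap O (U.B M) U.ϖ) X.Wh) {T : Type} [CommRing T]
    (φ : T →+* U.B M) (p : T) (hp : φ p = algebraMap O _ U.ϖ) (j : ℕ) (w : P022D.Fm.Mt φ (X.Wc (j + 1)))
    (h : p • w = 0) : ∃ w' : P022D.Fm.Mt φ (X.Wc (j + 1)), w = p ^ j • w' :=
  flat_abs φ p j (by rw [hp]; exact map_pow _ _ _) (hp ▸ hd) w h

omit hU hL hX hCc in
theorem ev_cc (X : Dt U M n) {k : ℕ} (u : Fin k ⊕ Fin k → U.B M) (c : O) :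
    X.ev u (P022D.As.cc c) = algebraMap O _ c := MvPolynomial.eval₂Hom_C _ _ c

end Red

end Vale.Agent.P022F.Fm
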