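import Vale.Agent.P022F.Fm.Rows
import Vale.Agent.P022F.Fm.Red
import Vale.Agent.P022F.Ns

/-!
# P022D, forms side: the dictionary between the action and the translations
-/

set_option linter.all false

open scoped MatrixGroups

noncomputable section

namespace Vale.Agent.P022F.Fm

open Vale.Agent.P022 Vale.Agent.P022D.V Vale.Agent.P022F.V Vale.Agent.P027M.M

namespace Dic

theorem pr_Kq {M N l : ℕ} (hl : l ∣ M) (h : l ∣ N) {k : GM M} (hk : k ∈ Kq M N) : pr hl k = 1 := by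
  apply Units.ext
  ext i j
  obtain ⟨y, hy⟩ := hk i j
  change ZMod.castHom hl (ZMod l) ((k : Matrix (Fin 2) (Fin 2) (ZMod M)) i j) = _
  rw [hy, map_add, map_mul, map_natCast, (ZMod.natCast_eq_zero_iff _ _).2 h, zero_mul, add_zero,
    Units.val_one]
  by_cases e : i = j
  · subst e
    rw [Matrix.one_apply_eq, Matrix.one_apply_eq, map_one]
  · rw [Matrix.one_apply_ne e, Matrix.one_apply_ne e, map_zero]

variable {O F : Type} [CommRing O] [IsLocalRing O] [Co O] [Field F] [CharP F 2] {U : Su O F}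
  (hU : U.Ok) {M : ℕ} (hL : U.Lm M)

include hL in
theorem three : 3 ≤ M := hL.le.trans (Nat.le_of_dvd hL.odd.pos hL.dvd)

include hU hL

theorem lev {l : ℕ} (hl : l ∈ U.L.C) : M / l = U.N / l * (M / U.N) ∧ M / U.NC ∣ M / l ∧
    ¬ l ∣ M / l ∧ (∀ l' ∈ U.L.C, l' ≠ l → l' ∣ M / l) ∧ l ∣ M := by
  have hp := (hU.ok.pr l (Finset.mem_union_right _ hl)).1
  have hc := hL.cop
  have e0 : M = U.N * (M / U.N) := (Nat.mul_div_cancel' hL.dvd).symm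
  generalize M / U.N = c at hc e0
  have e : U.NC = l * ∏ k ∈ U.L.C.erase l, k := by
    rw [hU.NC, Finset.mul_prod_erase _ (fun k => k) hl]
  have e1 : U.N / l = U.NW * ∏ k ∈ U.L.C.erase l, k :=
    Nat.div_eq_of_eq_mul_right hp.pos (by rw [Su.N, e]; ring)
  have e2 : M / l = U.N / l * c :=
    Nat.div_eq_of_eq_mul_right hp.pos (by rw [e1, e0, Su.N, e]; ring)
  have e3 : M / U.NC = U.NW * c :=
    Nat.div_eq_of_eq_mul_right (Nat.pos_of_ne_zero (Red.NC_ne hU)) (by rw [e0, Su.N]; ring)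
  have e4 : l ∣ U.N := ⟨U.NW * ∏ k ∈ U.L.C.erase l, k, by rw [Su.N, e]; ring⟩
  refine ⟨e2, ⟨∏ k ∈ U.L.C.erase l, k, by rw [e3, e2, e1]; ring⟩, fun h => ?_,
    fun l' h1 h2 => ?_, e4.trans hL.dvd⟩
  · rw [e2, e1, hp.dvd_mul, hp.dvd_mul] at h
    rcases h with (h | h) | h
    · exact Finset.disjoint_left.1 hU.ok.dj ((hU.NW l hp).1 h) hl
    · obtain ⟨k, hk, h⟩ := hp.prime.exists_mem_finset_dvd h
      rw [Finset.mem_erase] at hk
      exact hk.1 ((Nat.prime_dvd_prime_iff_eq hp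
        (hU.ok.pr k (Finset.mem_union_right _ hk.2)).1).1 h).symm
    · exact hp.ne_one (Nat.eq_one_of_dvd_coprimes hc e4 h)
  · rw [e2, e1]
    exact ((Finset.dvd_prod_of_mem (fun k => k)
      (Finset.mem_erase.2 ⟨h2, h1⟩)).mul_left _).mul_right _

theorem sp {l : ℕ} (hl : l ∈ U.L.C) : Sp M (M / l) l := by
  have hp := (hU.ok.pr l (Finset.mem_union_right _ hl)).1
  obtain ⟨-, -, h3, -, h5⟩ := lev hU hL hl
  exact ⟨(Nat.div_mul_cancel h5).symm, (hp.coprime_iff_not_dvd.2 h3).symm, hp, hL.odd⟩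

variable [hC : ∀ l : U.L.C, Fact l.1.Prime] {n : ℕ} {X : Dt U M n} (hX : X.Ok)

include hX

/-- the elements of the factor at `l` -/
theorem rho_k (l : U.L.C) (hl : l.1 ∣ M) {k : GM M} (hk : k ∈ Kq M (M / l.1)) (w : U.Wb M n) :
    (((X.E.ρ (Pi.mulSingle l (QuotientGroup.mk (pr hl k))) w : U.Wb M n) : U.GG M) : P022D.Fm.AM O M) =
      P022D.Fm.rD O k (w : U.GG M) := by
  obtain ⟨-, h2, -, h4, -⟩ := lev hU hL l.2
  refine hX.act _ (P022D.Rep.Kq_mono h2 hk) _ (fun l' hl' => ?_) w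
  by_cases e : l' = l
  · subst e
    rw [Pi.mulSingle_eq_same]
  · rw [Pi.mulSingle_eq_of_ne e, pr_Kq hl' (h4 l'.1 l'.2 fun h => e (Subtype.ext h)) hk,
      QuotientGroup.mk_one]

theorem rho_emb (l : U.L.C) (h : Sp M (M / l.1) l.1) (g : GL (Fin 2) (ZMod l.1)) (w : U.Wb M n) :
    (((X.E.ρ (Pi.mulSingle l (QuotientGroup.mk g)) w : U.Wb M n) : U.GG M) : P022D.Fm.AM O M) =
      P022D.Fm.rD O (P022D.Rep.emb h g) (w : U.GG M) := by
  rw [← rho_k hU hL hX l (P022D.Rep.dq h) (P022D.Rep.emb_mem h g) w, P022D.Rep.pr_emb]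

/-- the unipotent elements at `l` -/
theorem rho_u (l : U.L.C) (x : ℕ) (w : U.Wb M n) :
    (((X.E.ρ (Pi.mulSingle l ((U.bn l).u ((M / l.1 * x : ℕ) : ZMod l.1))) w : U.Wb M n) :
      U.GG M) : P022D.Fm.AM O M) = P022D.Fm.rD O (un ((M / l.1 * x : ℕ) : ZMod M)) (w : U.GG M) := by
  rw [← rho_k hU hL hX l (lev hU hL l.2).2.2.2.2 (Red.un_Kq (dvd_mul_right _ x)) w, Red.pr_un]
  rfl

theorem fix_iff (l : U.L.C) (w : U.Wb M n) : (∀ g : U.Gam l, X.E.ρ (Pi.mulSingle l g) w = w) ↔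
    ((w : U.GG M) : P022D.Fm.AM O M) ∈ Iv O (RD O) (Kq M (M / l.1)) := by
  rw [P022D.V.mem_Iv]
  constructor
  · intro h k hk
    have e := rho_k hU hL hX l (lev hU hL l.2).2.2.2.2 hk w
    rw [h] at e
    exact e.symm
  · intro h g
    obtain ⟨g, rfl⟩ := QuotientGroup.mk_surjective g
    exact Subtype.ext (Subtype.ext ((rho_emb hU hL hX l (sp hU hL l.2) g w).trans
      (h _ (P022D.Rep.emb_mem _ g))))

variable {Cc : ∀ l : U.L.C, P022D.Rep.Ch (ZMod l.1) F} (hCc : U.IsCh Cc)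

include hCc

theorem wh_one (l : U.L.C) (x : ℕ) (w : U.Wb M n) :
    X.E.ρ (Pi.mulSingle l ((U.bn l).u ((M / l.1 * x : ℕ) : ZMod l.1))) w =
      X.E.sc ((Cc l).ψ ((M / l.1 * x : ℕ) : ZMod l.1)) w ↔
    U.z ^ (M / l.1 * x) • P022D.Fm.rD O (un ((M / l.1 * x : ℕ) : ZMod M)) ((w : U.GG M) : P022D.Fm.AM O M) =
      (w : U.GG M) := by
  have e : (Cc l).ψ ((M / l.1 * x : ℕ) : ZMod l.1) * U.S.red (U.z ^ (M / l.1 * x)) = 1 := by
    rw [map_pow, (lev hU hL l.2).1, mul_assoc]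
    exact hCc l _
  have e1 : ∀ v : U.Wb M n, (((X.E.sc (U.S.red (U.z ^ (M / l.1 * x))) v : U.Wb M n) : U.GG M) :
      P022D.Fm.AM O M) = U.z ^ (M / l.1 * x) • ((v : U.GG M) : P022D.Fm.AM O M) := fun v => by
    rw [hX.sc]
    rfl
  have e2 := rho_u hU hL hX l x w
  rw [← e2, ← e1, ← Subtype.ext_iff, ← Subtype.ext_iff]
  constructor
  · intro h
    rw [h, ← Module.End.mul_apply, ← map_mul, mul_comm, e, map_one, Module.End.one_apply]
  · intro h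
    conv_rhs => rw [← h, ← Module.End.mul_apply, ← map_mul, e, map_one, Module.End.one_apply]

theorem wh_all (l : U.L.C) (w : U.Wb M n) :
    (∀ y : ZMod l.1, X.E.ρ (Pi.mulSingle l ((U.bn l).u y)) w = X.E.sc ((Cc l).ψ y) w) ↔
    ∀ x : ℕ, U.z ^ (M / l.1 * x) • P022D.Fm.rD O (un ((M / l.1 * x : ℕ) : ZMod M))
      ((w : U.GG M) : P022D.Fm.AM O M) = (w : U.GG M) := by
  refine ⟨fun h x => (wh_one hU hL hX hCc l x w).1 (h _), fun h y => ?_⟩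
  have hu : ((M / l.1 : ℕ) : ZMod l.1) ≠ 0 := fun e =>
    (lev hU hL l.2).2.2.1 ((ZMod.natCast_eq_zero_iff _ _).1 e)
  have e : y = ((M / l.1 * (y / ((M / l.1 : ℕ) : ZMod l.1)).val : ℕ) : ZMod l.1) := by
    rw [Nat.cast_mul, ZMod.natCast_zmod_val, mul_div_cancel₀ _ hu]
  rw [e]
  exact (wh_one hU hL hX hCc l _ w).2 (h _)

theorem mem_G (w : U.Wb M n) : w ∈ X.E.Y (P022D.Rep.XG U.bn Cc).v ↔
    ((w : U.GG M) : P022D.Fm.AM O M) ∈ Wh O (RD O) M U.z := by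
  constructor
  · intro h
    refine Red.wh_of ({U.NC} ∪ Set.range fun l : U.L.C => M / l.1) U.NC (Or.inl rfl)
      (Red.NC_ne hU) (fun p hp => ?_) ?_
    · by_cases hd : p ∣ U.NC
      · rw [hU.NC] at hd
        obtain ⟨l, hl, h⟩ := hp.prime.exists_mem_finset_dvd hd
        rw [(Nat.prime_dvd_prime_iff_eq hp (hC ⟨l, hl⟩).out).1 h]
        exact ⟨_, Or.inr ⟨⟨l, hl⟩, rfl⟩, (lev hU hL hl).2.2.1⟩
      · exact ⟨_, Or.inl rfl, hd⟩
    · rintro _ (rfl | ⟨l, rfl⟩)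
      · have h1 := (Submodule.mem_iInf _).1 (P022D.Fm.mem_of_sub w.2).1.1.2 1
        rw [mul_one, LinearMap.mem_ker, LinearMap.sub_apply, sub_eq_zero] at h1
        exact h1
      · have h1 := (wh_one hU hL hX hCc l 1 w).1
          ((X.E.kill_Ig (U.bn l) (Cc l) w).1 (h l) _)
        rwa [mul_one] at h1
  · exact fun h l => (X.E.kill_Ig (U.bn l) (Cc l) w).2
      ((wh_all hU hL hX hCc l w).2 fun _ => h _)

theorem mem_S (S : Finset U.L.C) (w : U.Wb M n) : w ∈ X.E.Y (P022D.Rep.XS U.bn Cc S).v ↔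
    (∀ l ∈ S, ∀ x : ℕ, U.z ^ (M / l.1 * x) • P022D.Fm.rD O (un ((M / l.1 * x : ℕ) : ZMod M))
      ((w : U.GG M) : P022D.Fm.AM O M) = (w : U.GG M)) ∧
    ∀ l ∉ S, ((w : U.GG M) : P022D.Fm.AM O M) ∈ Iv O (RD O) (Kq M (M / l.1)) :=
  (X.E.mem_XS S w).trans (and_congr
    (forall₂_congr fun l _ => wh_all hU hL hX hCc l w)
    (forall₂_congr fun l _ => fix_iff hU hL hX l w))

end Dic

/-- **row DIC** -/
theorem dicC {O F : Type} [CommRing O] [IsLocalRing O] [Co O] [Field F] [CharP F 2] {U : Su O F}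
    [hC : ∀ l : U.L.C, Fact l.1.Prime] {Cc : ∀ l : U.L.C, P022D.Rep.Ch (ZMod l.1) F} (hU : U.Ok)
    (hc : U.IsCh Cc) (hH : HC U) : DIC U Cc := by
  intro M n hL X hX
  have H := hH M hL.odd (Dic.three hL)
  refine ⟨fun l => Dic.sp hU hL l.2, Dic.rho_emb hU hL hX, fun v => ⟨?_, ?_⟩, fun S v => ⟨?_, ?_⟩⟩
  · rintro ⟨w, hw, rfl⟩
    obtain ⟨h1, h2⟩ := (H.wb hL n _).1 w.2
    exact ⟨⟨⟨h1.1.1, (Dic.mem_G hU hL hX hc w).1 hw⟩, h1.2⟩, h2⟩
  · rintro ⟨h1, h2⟩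
    exact ⟨⟨v, (H.wb hL n v).2 ⟨H.wp hL n h1, h2⟩⟩, (Dic.mem_G hU hL hX hc _).2 h1.1.2, rfl⟩
  · rintro ⟨w, hw, rfl⟩
    exact ⟨w.2, (Dic.mem_S hU hL hX hc S w).1 hw⟩
  · rintro ⟨h1, h2⟩
    exact ⟨⟨v, h1⟩, (Dic.mem_S hU hL hX hc S ⟨v, h1⟩).2 h2, rfl⟩

end Vale.Agent.P022F.Fm
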