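import Vale.Agent.P022F.Fm.Rows
import Vale.Agent.P022F.Ns

/-!
# P022D, forms side: the determinant at the base level
-/

set_option linter.all false

noncomputable section

namespace Vale.Agent.P022F.Fm

open Vale.Agent.P022 Vale.Agent.P022D.V Vale.Agent.P022F.V Vale.Agent.P027M.M
open Vale.Agent.P022D.As (Tg cc dd)

variable {O F : Type} [CommRing O] [IsLocalRing O] [Co O] [Field F] [CharP F 2] {U : Su O F}
  [hC : ∀ l : U.L.C, Fact l.1.Prime] {Cc : ∀ l : U.L.C, P022D.Rep.Ch (ZMod l.1) F}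

theorem dt0C (hU : U.Ok) (h1 : CLS U) (h2 : RED U Cc) : DT0 U Cc := by
  intro P i g w
  obtain ⟨⟨a1, -⟩, a2, -⟩ := h2 _ _ _ P
  obtain ⟨c, hc⟩ : U.ϖ ∣ U.dt g - 1 := hU.uni.dvd _ ((hU.ok.ker _).1 (by
    rw [map_sub, map_one, sub_eq_zero, ← hU.ok.det g, ← hU.ok.lift g, Su.dt, RingHom.map_det]
    rfl))
  have e1 : P.ev (dd g) = P.X.d g := MvPolynomial.eval₂Hom_X' _ _ _
  have e2 : P.ev (cc U.ϖ) = algebraMap O _ U.ϖ := MvPolynomial.eval₂Hom_C _ _ _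
  have b1 := ((h1 _ _ _ P w.1 (a1 _ w.2)).2.2.2.2 fun s => (s.elim Fin.elim0 Fin.elim0)).2.2 g
  have b2 : P.ev (cc U.ϖ) • w.1 = 0 := congrArg Subtype.val (a2 i w)
  rw [pow_one]
  refine Subtype.ext ?_
  change P.ev (dd g) • w.1 = w.1
  rw [e1, b1, eq_add_of_sub_eq hc, map_add, map_one, add_smul, one_smul, mul_comm, map_mul,
    show ∀ (a b : U.B P.M) (v : U.GG P.M), (a * b) • v = a • b • v from fun _ _ _ => rfl, ← e2, b2,
    smul_zero, zero_add]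

end Vale.Agent.P022F.Fm
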