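import Vale.Agent.P022F.Fm.Rows
import Vale.Agent.P022F.Fm.Red
import Vale.Agent.P022F.Ns

/-!
# P022D, forms side: rows DVW and RED
-/

set_option linter.all false

open scoped MatrixGroups

noncomputable section

namespace Vale.Agent.P022F.Fm

open Vale.Agent.P022 Vale.Agent.P022D.V Vale.Agent.P022F.V Vale.Agent.P027M.M
open Vale.Agent.P022D.W.Step (kl Cs Dv mem_kl mem_kl1 cut_dv)

namespace Red

/-- multiples in the Whittaker part -/
theorem mul_G {ι : Type} [Fintype ι] [DecidableEq ι] {F : Type} [Field F] [CharP F 2]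
    {Γ K : ι → Type} [∀ i, Group (Γ i)] [∀ i, Fintype (Γ i)] [∀ i, Field (K i)]
    [∀ i, Fintype (K i)] (D : ∀ i, P022D.Rep.BN (K i) (Γ i)) (C : ∀ i, P022D.Rep.Ch (K i) F) {T W : Type}
    [Ring T] [AddCommGroup W] [Module T W] (E : P022D.Rep.Act F Γ T W) {ν : T} {w w' : W}
    (hw : w ∈ E.Y (P022D.Rep.XG D C).v) (h : w = ν • w') : ∃ u ∈ E.Y (P022D.Rep.XG D C).v, w = ν • u := by
  have m : ∀ v, v ∈ E.Y (P022D.Rep.XG D C).v ↔ ∀ i, E.al i (P022D.Rep.ee (D i) (C i) 1) v = v := by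
    refine fun v => forall_congr' fun i => (E.kill_span i _ v).trans ?_
    simp only [Set.mem_singleton_iff, forall_eq, map_sub, map_one, LinearMap.sub_apply,
      Module.End.one_apply, sub_eq_zero]
    exact eq_comm
  have key : ∀ S : Finset ι, ∃ u, (∀ i ∈ S, E.al i (P022D.Rep.ee (D i) (C i) 1) u = u) ∧ w = ν • u := by
    intro S
    induction S using Finset.induction_on with
    | empty => exact ⟨w', by simp, h⟩
    | insert l S hl ih =>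
      obtain ⟨u, h1, h2⟩ := ih
      refine ⟨E.al l (P022D.Rep.ee (D l) (C l) 1) u, fun i hi => ?_, ?_⟩
      · rcases Finset.mem_insert.1 hi with rfl | hi
        · rw [← Module.End.mul_apply, ← map_mul, P022D.Rep.ee_idem]
        · rw [E.al_comm (fun e : l = i => hl (e ▸ hi)), h1 i hi]
      · rw [← map_smul, ← h2, (m w).1 hw]
  obtain ⟨u, h1, h2⟩ := key Finset.univ
  exact ⟨u, (m u).2 fun i => h1 i (Finset.mem_univ i), h2⟩

theorem wh_iff {S R : Type} [CommRing S] [CommRing R] [Algebra S R] {M N : ℕ} (hN : N ≠ 0) {z : S}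
    (hz : z ^ N = 1) {w : FT M R} :
    w ∈ Wh S R M z ↔ w ∈ Eg S R {un 1} fun _ => z ^ (N - 1) := by
  have e : z * z ^ (N - 1) = 1 := by rw [← pow_succ', Nat.sub_add_cancel (Nat.pos_of_ne_zero hN), hz]
  simp only [mem_Eg, Set.mem_singleton_iff, forall_eq]
  constructor
  · intro h
    have h1 := h 1
    rw [pow_one, Nat.cast_one] at h1
    conv_rhs => rw [← h1, ← mul_smul, mul_comm, e, one_smul]
  · intro h
    refine wh_of {1} 1 rfl one_ne_zero (fun p hp => ⟨1, rfl, hp.not_dvd_one⟩) ?_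
    rintro _ rfl
    rw [pow_one, Nat.cast_one, h, ← mul_smul, e, one_smul]

variable {O F : Type} [CommRing O] [Field F] [Co O] {U : Su O F}

theorem zw_le (M n : ℕ) : U.Zw M n ≤ U.Zp M n := fun v h =>
  ⟨⟨h.1.1, (Submodule.mem_iInf _).2 fun x => by
    rw [LinearMap.mem_ker, LinearMap.sub_apply, sub_eq_zero]
    exact h.1.2 _⟩, h.2⟩

theorem sb_mono {M : ℕ} {Y Y' : Submodule O (P022D.Fm.AM O M)} (h : Y ≤ Y') : U.sb M Y ≤ U.sb M Y' :=
  fun _ hv e he => h (hv e he)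

variable [IsLocalRing O] [hC : ∀ l : U.L.C, Fact l.1.Prime] [CharP F 2]
  {Cc : ∀ l : U.L.C, P022D.Rep.Ch (ZMod l.1) F} {r n : ℕ} {q : Fin r → ℕ}

theorem y1_le {M : ℕ} (X : Dt U M n) (I : P022D.Rep.Tu F U.Gam) : X.Y1 I ≤ U.Wb M n := by
  rintro _ ⟨w, -, rfl⟩
  exact w.2

theorem gk_G (hU : U.Ok) (hc : U.IsCh Cc) (P : Lq U r n q) :
    P.Gk (P.X.Y1 (P022D.Rep.XG U.bn Cc).v) := by
  refine ⟨{un 1}, fun _ => U.z ^ (U.N - 1), ?_, fun v => ?_⟩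
  · rintro _ rfl
    exact ⟨0, by simp [un_coe, Matrix.det_fin_two_of]⟩
  · rw [← wh_iff (N := U.N) (mul_ne_zero hU.NW0 (NC_ne hU)) (z_pow hU)]
    constructor
    · rintro ⟨w, hw, rfl⟩
      exact ⟨w.2, (mem_G hU P.lv P.ok hc w).1 hw⟩
    · rintro ⟨h1, h2⟩
      exact ⟨⟨v, h1⟩, (mem_G hU P.lv P.ok hc _).2 h2, rfl⟩

theorem cs_G (hZ : NZ0 U) (P : Lq U r n q) {a : ℕ → ℕ} (ha : U.Ex a) :
    Cs (P.X.Y1 (P022D.Rep.XG U.bn Cc).v) P.aW (P.nW a) := by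
  rintro _ ⟨w, hw, rfl⟩ h
  obtain ⟨w', e⟩ := (hZ r n q P a ha).1 w fun c hc => Subtype.ext (h c hc)
  obtain ⟨u, h1, h2⟩ := mul_G U.bn Cc P.X.E hw e
  exact ⟨u, ⟨u, h1, rfl⟩, congrArg Subtype.val h2⟩

end Red

variable {O F : Type} [CommRing O] [IsLocalRing O] [Co O] [Field F] [CharP F 2] {U : Su O F}
  [hC : ∀ l : U.L.C, Fact l.1.Prime] {Cc : ∀ l : U.L.C, P022D.Rep.Ch (ZMod l.1) F}

/-- **row DVW** -/
theorem dvwC (hU : U.Ok) (hc : U.IsCh Cc) (hH : HC U) (hL : LQ U) (hD : DV0 U) (hT : CUT U)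
    (hZ : NZ0 U) : DVW U := by
  intro r n q P
  have hm := hL.1 _ _ _ _ _ _ P.lv
  obtain ⟨ν, a, ha, h1, h2⟩ := hT r n q P
  refine cut_dv (hD _ n hm)
    (fun v _ => (hH _ hm.odd (hm.le.trans (Nat.le_of_dvd hm.odd.pos hm.dvd))).tor v)
    (fun c h v hv => h1 c h v (Red.sb_mono (Red.zw_le _ _) hv)) ?_
  rw [← Red.y1_G hU P.lv P.ok hc]
  exact h2 _ (Red.gk_G hU hc P) (Red.cs_G hZ P ha)

/-- **row RED** -/
theorem redC (hU : U.Ok) (hc : U.IsCh Cc) (hD : DVW U) : RED U Cc := by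
  intro r n q P
  have e := Red.ev_cc P.X P.u U.ϖ
  have h1 : P.X.Wh ≤ P.X.Z := fun v hv => ⟨Red.sb_mono (Red.zw_le _ _) hv.1, hv.2⟩
  refine ⟨⟨fun I v hv => ⟨Red.sb_mono inf_le_left (Red.y1_le P.X I hv.1), hv.2⟩, h1,
    fun j v hv => h1 hv.1⟩, fun i w => ?_, Red.red hU P.lv P.ok hc P.ev _ e n,
    Red.piC P.X P.ev _ e _, Red.flat P.X (hD r n q P) P.ev _ e n⟩
  obtain ⟨w, hw⟩ := w
  refine Subtype.ext ?_
  change P.X.ev P.u (P022D.As.cc U.ϖ) • w = 0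
  rw [e]
  exact Subtype.ext (P022D.Fm.mem_of_sub (Red.y1_le P.X _ hw.1)).2

end Vale.Agent.P022F.Fm
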