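import Vale.Agent.P022F.Fm.FibB
import Vale.Agent.P022F.Ns

/-!
# P022D, forms side: the chain of the auxiliary primes
-/

set_option autoImplicit false
set_option linter.all false

noncomputable section

namespace Vale.Agent.P022F.Fm

open Vale.Agent.P022 Vale.Agent.P022D.V Vale.Agent.P022F.V
open Vale.Agent.P022D.G (wT wS)

namespace Fb

variable {O F : Type} [CommRing O] [Field F] [Co O] {M : ℕ}

theorem le_gen {N i : ℕ} (K : Subalgebra O (Module.End O (P022D.Fm.AM O M)))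
    (hT : ∀ ℓ : PA M, T2 O (RD O) i ℓ.1 (P022D.Fm.uP ℓ) ∈ K) (hS : ∀ ℓ : PA M, S2 O (RD O) i ℓ.1 (P022D.Fm.uP ℓ) ∈ K)
    (hd : ∀ a d : (ZMod M)ˣ, Cg M N a d → P022D.Fm.rD O (dg a d) ∈ K) :
    (∀ Q, P022D.Fm.bw O M i Q ∈ K) ∧ P022D.Fm.cm (P022D.Fm.HA O M N i) ≤ K := by
  have h1 : ∀ Q, P022D.Fm.bw O M i Q ∈ K := fun Q => by
    induction Q using FreeAlgebra.induction with
    | grade0 r => rw [eq_intCast, map_intCast]; exact intCast_mem K r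
    | grade1 x =>
      rcases x with ℓ | ℓ
      · simpa [P022D.Fm.bw] using hT ℓ
      · simpa [P022D.Fm.bw] using hS ℓ
    | mul a b ha hb => rw [map_mul]; exact K.mul_mem ha hb
    | add a b ha hb => rw [map_add]; exact K.add_mem ha hb
  refine ⟨h1, le_trans ?_ (Algebra.adjoin_le ?_ : P022D.Fm.HA O M N i ≤ K)⟩
  · unfold P022D.Fm.cm
    split_ifs
    · exact le_rfl
    · exact bot_le
  · rintro _ (⟨Q, rfl⟩ | ⟨a, d, e, rfl⟩)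
    · exact h1 Q
    · exact hd a d e

/-- the operators which preserve `D` and commute with `Φ` on it -/
def Cz (D : Submodule O (P022D.Fm.AM O M)) (Φ : Module.End O (P022D.Fm.AM O M)) :
    Subalgebra O (Module.End O (P022D.Fm.AM O M)) where
  carrier := {h | ∀ v ∈ D, h v ∈ D ∧ Φ (h v) = h (Φ v)}
  mul_mem' := fun {a b} ha hb v hv => ⟨(ha _ (hb v hv).1).1, by
    rw [Module.End.mul_apply, (ha _ (hb v hv).1).2, (hb v hv).2, Module.End.mul_apply]⟩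
  add_mem' := fun {a b} ha hb v hv => ⟨D.add_mem (ha v hv).1 (hb v hv).1, by
    rw [LinearMap.add_apply, map_add, (ha v hv).2, (hb v hv).2, LinearMap.add_apply]⟩
  algebraMap_mem' c v hv := ⟨D.smul_mem c hv, map_smul Φ c v⟩

variable {U : Su O F}

theorem mem_sb {A : ℕ} {v : U.GG M} :
    v ∈ U.sb M (Iv O (RD O) (Bq M U.N) ⊓ Iv O (RD O) (Kq M A)) ↔
      (v : P022D.Fm.AM O M) ∈ Iv O (RD O) (Bq M U.N) ∧ (v : P022D.Fm.AM O M) ∈ Iv O (RD O) (Kq M A) :=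
  P022D.Fm.mem_sub fun h hh v hv => ((le_gen (Cz (Iv O (RD O) (Bq M U.N) ⊓ Iv O (RD O) (Kq M A)) 1)
    (fun ℓ v hv => ⟨⟨Iv_T2 _ _ _ hv.1, Iv_T2 _ _ _ hv.2⟩, rfl⟩)
    (fun ℓ v hv => ⟨⟨Iv_S2 _ _ _ hv.1, Iv_S2 _ _ _ hv.2⟩, rfl⟩)
    (fun a d e v hv => ⟨by
      rw [AlgHom.toLinearMap_apply, dg_sc e hv.1]
      exact ⟨Iv_sc d hv.1, Iv_sc d hv.2⟩, rfl⟩)).2 hh v hv).1

theorem gq_cz (hM : Odd M) (h3 : 3 ≤ M) {Φ : Module.End O (P022D.Fm.AM O M)} (hΦ : U.Gq Φ) :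
    (∀ Q, P022D.Fm.bw O M U.i Q ∈ Cz (U.DI M) Φ) ∧ P022D.Fm.cm (P022D.Fm.HA O M U.N U.i) ≤ Cz (U.DI M) Φ := by
  have k := fun ℓ : PA M => (All.hkv O M U.i ℓ.1 (P022D.Fm.uP ℓ) hM ℓ.2.1
    (fun e => ℓ.2.2 (by rw [e]; exact dvd_mul_right 2 M)) rfl).2.2
  refine le_gen _ (fun ℓ v hv => ⟨⟨(k ℓ v hv.1).1, Iv_T2 _ _ _ hv.2⟩, hΦ.T ℓ v hv⟩)
    (fun ℓ v hv => ⟨⟨(k ℓ v hv.1).2, Iv_S2 _ _ _ hv.2⟩, hΦ.S ℓ v hv⟩) fun a d e v hv => ?_
  rw [AlgHom.toLinearMap_apply, AlgHom.toLinearMap_apply, dg_sc e hv.2, dg_sc e (hΦ.mem v hv).2]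
  exact ⟨⟨XD_rt hM h3 _ hv.1, Iv_sc d hv.2⟩, hΦ.sc d v hv⟩

theorem gq_GG (hM : Odd M) (h3 : 3 ≤ M) {Φ : Module.End O (P022D.Fm.AM O M)} (hΦ : U.Gq Φ) (v : U.GG M)
    (hv : (v : P022D.Fm.AM O M) ∈ Iv O (RD O) (Bq M U.N)) : Φ v ∈ U.GG M := by
  have a : ∀ Q c, (v : P022D.Fm.AM O M) ∈ P022D.Fm.Nl (P022D.Fm.bw O M U.i Q - algebraMap O _ c) →
      Φ v ∈ P022D.Fm.Nl (P022D.Fm.bw O M U.i Q - algebraMap O _ c) := fun Q c e => by
    obtain ⟨k, hk⟩ := P022D.Fm.mem_Nl.1 e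
    refine P022D.Fm.mem_Nl.2 ⟨k, ?_⟩
    rw [← (pow_mem (sub_mem ((gq_cz hM h3 hΦ).1 Q) (Subalgebra.algebraMap_mem _ c)) k v
      ⟨v.2.1, hv⟩).2, hk, map_zero]
  refine ⟨(hΦ.mem v ⟨v.2.1, hv⟩).1, ?_⟩
  have b := v.2.2
  simp only [P022D.Fm.Pm, SetLike.mem_coe, Submodule.mem_iInf, Submodule.mem_inf] at b ⊢
  exact fun ℓ h => ⟨a _ _ (b ℓ h).1, a _ _ (b ℓ h).2⟩

theorem gq_smul (hM : Odd M) (h3 : 3 ≤ M) {Φ : Module.End O (P022D.Fm.AM O M)} (hΦ : U.Gq Φ) (e : U.B M)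
    (v w : U.GG M) (hv : (v : P022D.Fm.AM O M) ∈ Iv O (RD O) (Bq M U.N)) (hw : (w : P022D.Fm.AM O M) = Φ v) :
    ((e • w : U.GG M) : P022D.Fm.AM O M) = Φ (e • v : U.GG M) := by
  classical
  obtain ⟨h, a, b⟩ := e.loc {v, w}
  rw [P022D.Fm.BT.smul_def, P022D.Fm.BT.smul_def, b v (by simp), b w (by simp), hw,
    ((gq_cz hM h3 hΦ).2 a v ⟨v.2.1, hv⟩).2]

theorem gq_res (hM : Odd M) (h3 : 3 ≤ M) {Φ : Module.End O (P022D.Fm.AM O M)} (hΦ : U.Gq Φ)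
    (V₁ V₂ : Submodule (U.B M) (U.GG M))
    (h1 : ∀ v ∈ V₁, (v : P022D.Fm.AM O M) ∈ Iv O (RD O) (Bq M U.N))
    (h2 : ∀ v ∈ V₁, ∀ w : U.GG M, (w : P022D.Fm.AM O M) = Φ v → w ∈ V₂) :
    ∃ f : V₁ →ₗ[U.B M] V₂, ∀ v, ((f v : U.GG M) : P022D.Fm.AM O M) = Φ (v : U.GG M) :=
  ⟨{ toFun := fun v => ⟨⟨Φ (v : U.GG M), gq_GG hM h3 hΦ v (h1 v v.2)⟩, h2 v v.2 _ rfl⟩
     map_add' := fun v w => Subtype.ext (Subtype.ext (map_add Φ _ _))
     map_smul' := fun e v => Subtype.ext (Subtype.ext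
       (gq_smul hM h3 hΦ e v ⟨_, gq_GG hM h3 hΦ v (h1 v v.2)⟩ (h1 v v.2) rfl).symm) },
    fun _ => rfl⟩

theorem alg {B X : Type} [CommRing B] [AddCommGroup X] [Module B X] (q : ℕ) (t : B) (x : X) :
    ((q : B) * t) • x = q • t • x ∧ ((q : B) + 1) • x = (q + 1) • x := by
  rw [mul_smul, Nat.cast_smul_eq_nsmul, ← Nat.cast_succ, Nat.cast_smul_eq_nsmul]
  exact ⟨rfl, rfl⟩

theorem alg2 {B : Type} [CommRing B] {q t d : B} (h : IsUnit q) :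
    (q * t ^ 2 - (q + 1) ^ 2 * d) ^ 2 * ((q + 1) ^ 2 * (q * d) - (q * t) ^ 2) ∣
      (q * t ^ 2 - (q + 1) ^ 2 * d) ^ 3 := by
  obtain ⟨u, hu⟩ := h.exists_right_inv
  exact ⟨-u, by linear_combination (-(q * t ^ 2 - (q + 1) ^ 2 * d) ^ 3) * hu⟩

/-- the steps of the chain -/
def VA (P : Submodule (U.B M) (U.GG M)) (A : ℕ) : Submodule (U.B M) (U.GG M) :=
  P ⊓ U.sb M (Iv O (RD O) (Bq M U.N) ⊓ Iv O (RD O) (Kq M A))

theorem mem_VA {P : Submodule (U.B M) (U.GG M)} {A : ℕ} {v : U.GG M} : v ∈ VA P A ↔ v ∈ P ∧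
    (v : P022D.Fm.AM O M) ∈ Iv O (RD O) (Bq M U.N) ∧ (v : P022D.Fm.AM O M) ∈ Iv O (RD O) (Kq M A) :=
  Submodule.mem_inf.trans (and_congr_right' mem_sb)

theorem step {q A : ℕ} (h : Sp M (M / q) q) (h3 : 3 ≤ M) (hN : U.N ∣ M / q) (hq : q ∣ M / U.N)
    (hA : A ∣ M / q) {t d : U.B M} (hn : U.NewQ q ((q : U.B M) * t ^ 2 - ((q : U.B M) + 1) ^ 2 * d))
    (ho : U.OldQ q t d) {P : Submodule (U.B M) (U.GG M)} (hP : U.Nq P) :
    ∃ β : VA P A × VA P A →ₗ[U.B M] VA P (A * q), P022D.Fm.Qi (X := VA P A × VA P A) (Y := VA P (A * q))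
      (((q : U.B M) * t ^ 2 - ((q : U.B M) + 1) ^ 2 * d) ^ 3) β := by
  obtain ⟨s, hs⟩ := (grp M _ q h).1
  obtain ⟨c, hc⟩ := (grp M _ q h).2.1
  have hz := (root O M h.odd).2.2.2.2.2.1
  have gW := gq_W U h h3 hN hq
  have gT := gq_Tr U h h3 hN hq hs
  have le : VA P A ≤ VA P (A * q) := fun v hv => mem_VA.2 ⟨(mem_VA.1 hv).1, (mem_VA.1 hv).2.1,
    anti (fun _ => P022D.Fm.kq_dvd (dvd_mul_right A q)) (mem_VA.1 hv).2.2⟩
  obtain ⟨W, hW⟩ := gq_res h.odd h3 gW (VA P (A * q)) (VA P (A * q))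
    (fun v hv => (mem_VA.1 hv).2.1) fun v hv w e => by
      obtain ⟨a, b, c⟩ := mem_VA.1 hv
      refine mem_VA.2 ⟨hP _ gW v w a b e, ?_⟩
      rw [e]
      exact ⟨W_BN h hz.pow _ hN b, W_K h hz.pow _ (anti (U_B.trans (B_dvd hN)) b)
        (dvd_mul_left q A) c⟩
  obtain ⟨T, hT⟩ := gq_res h.odd h3 gT (VA P (A * q)) (VA P A)
    (fun v hv => (mem_VA.1 hv).2.1) fun v hv w e => by
      obtain ⟨a, b, c⟩ := mem_VA.1 hv
      refine mem_VA.2 ⟨hP _ gT v w a b e, ?_⟩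
      rw [e]
      exact ⟨Tr_BN h hs hN b, Tr_K h hs hA (anti (B_dvd hN) b) c⟩
  have k : ∀ f : VA P A, ((f : U.GG M) : P022D.Fm.AM O M) ∈ Iv O (RD O) (Kq M (M / q)) := fun f =>
    anti (fun _ => P022D.Fm.kq_dvd hA) (mem_VA.1 f.2).2.2
  have u : IsUnit (q : U.B M) := by
    have := ((root O q (Nat.odd_mul.1 (h.eq ▸ h.odd)).2).2.2.2.1).map (algebraMap O (U.B M))
    rwa [map_natCast] at this
  refine ⟨_, (P022D.Fm.qi_step (X := VA P A) (Y := VA P (A * q)) (Submodule.inclusion le) W T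
    ((q : U.B M) + 1) ((q : U.B M) * t) ((q : U.B M) * d) _ (fun f => ?_) (fun f => ?_)
    (fun f => ?_) (fun v a b => ?_)).of_dvd (alg2 u)⟩
  · refine Eq.trans (Subtype.ext (Subtype.ext ?_)) (alg q t f).2.symm
    rw [hT]
    exact (All.wf2 O _ M _ q _ h s c hz hs hc).2.2.1 _ (k f)
  · refine Eq.trans (Subtype.ext (Subtype.ext ?_)) (alg q t f).1.symm
    rw [hT, hW]
    exact (ho s hs f (k f)).1
  · refine Eq.trans (Subtype.ext (Subtype.ext ?_)) (alg q d (Submodule.inclusion le f)).1.symm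
    rw [hW, hW]
    exact (ho s hs f (k f)).2
  · refine Subtype.ext (hn s hs v (anti (B_dvd hN) (mem_VA.1 v.2).2.1) ?_ ?_)
    · rw [← hT, a]; rfl
    · rw [← hW, ← hT, b]; rfl

end Fb

open Vale.Agent.P022D.Fm.Fb Vale.Agent.P022F.Fm.Fb

theorem chain : CHAIN := by
  intro O F _ _ _ _ U M r q t d hM h3 inj hq e hn ho P hP
  classical
  have N0 : 0 < U.N := by omega
  have h3' : 3 ≤ M := h3.trans (Nat.le_of_dvd hM.pos ⟨_, e⟩)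
  let q' : ℕ → ℕ := fun j => if h : j < r then q ⟨j, h⟩ else 1
  let D : ℕ → U.B M := fun j => if h : j < r then
    ((q ⟨j, h⟩ : U.B M) * t ⟨j, h⟩ ^ 2 - ((q ⟨j, h⟩ : U.B M) + 1) ^ 2 * d ⟨j, h⟩) ^ 3 else 1
  let A : ℕ → ℕ := fun j => U.N * ∏ i ∈ Finset.range j, q' i
  have Ar : A r = M := by
    rw [e]
    simp only [A, q', Finset.prod_range, Fin.is_lt, dite_true]
  have e0 : P022F.Fm.Fb.VA P (A 0) = U.PK P := by
    simp only [A, Finset.prod_range_zero, mul_one, P022F.Fm.Fb.VA, Su.PK]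
    rw [(inf_eq_right (a := Iv O (RD O) (Bq M U.N))).2 fun v hv =>
      P022F.Fm.Fb.anti (fun _ (h : _ ∈ Bq M U.N) => h.1) hv]
  have er : P022F.Fm.Fb.VA P (A r) = U.PB P := by
    rw [Ar, P022F.Fm.Fb.VA, Su.PB, (inf_eq_left (b := Iv O (RD O) (Kq M M))).2 fun v _ =>
      mem_Iv.2 fun g hg => by
      rw [← P022D.Fm.pr_self g, (Wq.mem_Kq (dvd_refl M) g).1 hg, rt_one]]
  have key := P022D.Fm.qi_chainF (B := U.B M) (fun j => P022F.Fm.Fb.VA P (A j)) D r fun j hj => by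
    have e1 : M / q ⟨j, hj⟩ = U.N * ∏ i ∈ Finset.univ.erase ⟨j, hj⟩, q i := by
      rw [e, ← Finset.mul_prod_erase _ _ (Finset.mem_univ (⟨j, hj⟩ : Fin r)), mul_left_comm,
        Nat.mul_div_cancel_left _ (hq _).1.pos]
    have e2 : q ⟨j, hj⟩ ∣ M := by
      rw [e]
      exact (Finset.dvd_prod_of_mem q (Finset.mem_univ _)).mul_left _
    have e3 : A (j + 1) = A j * q ⟨j, hj⟩ := by
      simp only [A, q', Finset.prod_range_succ, hj, dite_true, mul_assoc]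
    have sp : Sp M (M / q ⟨j, hj⟩) (q ⟨j, hj⟩) := ⟨(Nat.div_mul_cancel e2).symm, by
      rw [e1]
      exact Nat.Coprime.mul_left ((Nat.Prime.coprime_iff_not_dvd (hq _).1).2 (hq _).2).symm
        (Nat.Coprime.prod_left fun i hi => (Nat.coprime_primes (hq _).1 (hq _).1).2
          fun x => (Finset.mem_erase.1 hi).1 (inj x)), (hq _).1, hM⟩
    have e4 : A j ∣ M / q ⟨j, hj⟩ := by
      rw [Nat.dvd_div_iff_mul_dvd e2, mul_comm, ← e3, ← Ar]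
      exact mul_dvd_mul_left _ (Finset.prod_dvd_prod_of_subset _ _ _ (Finset.range_mono hj))
    have := P022F.Fm.Fb.step sp h3' ⟨_, e1⟩ (by
      rw [e, Nat.mul_div_cancel_left _ N0]
      exact Finset.dvd_prod_of_mem q (Finset.mem_univ _)) e4 (hn _) (ho _) hP
    rw [← e3] at this
    simpa only [D, hj, dite_true] using this
  simp only [D, Fin.is_lt, dite_true, Finset.prod_pow] at key
  rw [e0, er] at key
  exact key

end Vale.Agent.P022F.Fm
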