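import Vale.Agent.P022F.Fm.Rows
import Vale.Agent.P022F.Fm.Basic
import Vale.Agent.P022F.Fm.Dia
import Vale.Agent.P022F.Ns

/-!
# P022D, forms side: independence of the generators at the auxiliary primes
-/

set_option linter.all false

noncomputable section

namespace Vale.Agent.P022F.Fm.Nz

open Vale.Agent.P022 Vale.Agent.P022D.V Vale.Agent.P022F.V

variable {O F : Type} [CommRing O] [Field F] [Co O] {U : Su O F}
variable {r n M : ℕ} {q : Fin r → ℕ} {b : Fin r → (ZMod M)ˣ} {τ : Fin r → GQ}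

theorem qind [IsLocalRing O] (hU : U.Ok) (H : Lv U r n M q b τ) (k k' : Fin r → ℕ)
    (x a d : (ZMod M)ˣ) (hx : ∀ j, P022D.V.Cg M (q j) x 1)
    (h1 : (∏ j, b j ^ k' j) * x = a ^ 2 ^ n)
    (h2 : (∏ j, b j ^ k j * (b j)⁻¹ ^ k' j) * x = d ^ 2 ^ n) :
    ∀ j, 2 ^ n ∣ k j ∧ 2 ^ n ∣ k' j := by
  obtain ⟨lam, L⟩ := H.lam hU
  have A := H.aux hU
  intro j
  have z : ∀ c : (ZMod M)ˣ, (lam j (c ^ 2 ^ n)).toAdd = 0 := fun c => by
    rw [map_pow, toAdd_pow, nsmul_eq_mul, ZMod.natCast_self, zero_mul]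
  have e1 := z a
  have e2 := z d
  rw [← h1, map_mul, L.other j x (hx j), mul_one, map_prod, toAdd_prod,
    Finset.sum_eq_single j (fun i _ h => by
      rw [map_pow, toAdd_pow, L.val A, Pi.single_eq_of_ne h.symm, smul_zero]) (by simp),
    map_pow, toAdd_pow, L.val A, Pi.single_eq_same, nsmul_eq_mul, mul_one] at e1
  rw [← h2, map_mul, L.other j x (hx j), mul_one, map_prod, toAdd_prod,
    Finset.sum_eq_single j (fun i _ h => by
      rw [map_mul, map_pow, map_pow, map_inv, toAdd_mul, toAdd_pow, toAdd_pow, toAdd_inv, L.val A,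
        Pi.single_eq_of_ne h.symm, neg_zero, smul_zero, smul_zero, add_zero]) (by simp),
    map_mul, map_pow, map_pow, map_inv, toAdd_mul, toAdd_pow, toAdd_pow, toAdd_inv, L.val A,
    Pi.single_eq_same, nsmul_eq_mul, nsmul_eq_mul, mul_one, e1, zero_mul, add_zero] at e2
  exact ⟨(ZMod.natCast_eq_zero_iff _ _).1 e2, (ZMod.natCast_eq_zero_iff _ _).1 e1⟩

end Vale.Agent.P022F.Fm.Nz
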