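import Vale.Agent.P022F.Fm.Forms0
import Vale.Agent.P022F.Fm.NmH
import Vale.Agent.P022F.Fm.NmW
import Vale.Agent.P022F.Fm.NmH66
import Vale.Agent.P022F.Ns

/-!
# P022D: the forms side
-/

namespace Vale.Agent.P022F.Fm

/-- **the forms side** -/
theorem formsC : FORMS :=
  forms_nz fun _ _ _ _ _ _ _ _ _ _ _ _ hU => H66.nz0_of hU (lqC hU) (Nm.hign hU (Nm.whp hU))

end Vale.Agent.P022F.Fm
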