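import Vale.Agent.P022F.Fm.Gop
import Vale.Agent.P022D.Gt.Clg
import Vale.Agent.P022D.Gt.Clgd
import Vale.Agent.P022D.V.All1
import Vale.Agent.P022D.G.All
import Vale.Agent.P022F.Ns

/-!
# P022D, forms side: rows GT, GOP closed
-/

set_option linter.all false

namespace Vale.Agent.P022F

theorem Gt.gt0 (O : Type) [CommRing O] [P022D.V.Co O] : P022D.Gt.GT O :=
  P022D.Gt.gt (P022D.Gt.clgd O (P022D.Gt.clg O) (P022D.V.lift O) (P022D.V.All.div O)) (P022D.V.All.div O) (P022D.V.All.hkv O) P022D.G.gal2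

theorem Fm.gopC {O F : Type} [CommRing O] [IsDomain O] [IsDiscreteValuationRing O] [P022D.V.Co O]
    [Field F] [Finite F] [CharP F 2] {U : Fm.Su O F} (hU : U.Ok) : Fm.GOP U :=
  Fm.gop hU (Gt.gt0 O) (P022D.V.All.div O) (P022D.V.All.hkv O) (P022D.V.All.descv O)

end Vale.Agent.P022F
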