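import Vale.Agent.P022F.Fm.Occ
import Vale.Agent.P022D.Th.Vec
import Vale.Agent.P022F.Ns

/-!
# P022D, forms side: the first vector
-/

set_option linter.all false

open NumberField IsLocalRing

noncomputable section

namespace Vale.Agent.P022F.Fm

open Vale.Agent.P022 Vale.Agent.P022D.V Vale.Agent.P022F.V Vale.Agent.P027M.M
open Vale.Agent.P027M.S (mx)

namespace Sd

variable {M N₁ N₀ : ℕ}

theorem un_dg (a : (ZMod M)ˣ) (x : ZMod M) : un ((a : ZMod M) * x) * dg a 1 = dg a 1 * un x := by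
  apply Units.ext
  rw [Units.val_mul, Units.val_mul, dg_coe, un_coe, un_coe]
  ext i j; fin_cases i <;> fin_cases j <;> simp [Matrix.mul_apply, Fin.sum_univ_two]

theorem un_add (x y : ZMod M) : un (x + y) = un x * un y := by
  apply Units.ext
  rw [Units.val_mul, un_coe, un_coe, un_coe]
  ext i j; fin_cases i <;> fin_cases j <;> simp [Matrix.mul_apply, Fin.sum_univ_two, add_comm]

theorem un_H2 (x : ZMod M) : un ((N₁ : ZMod M) * x) ∈ P022D.Th.H2 M N₁ N₀ := by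
  refine ⟨fun i j => ?_, ⟨x, by simp [un_coe]⟩, 0, by simp [un_coe]⟩
  rw [un_coe]
  fin_cases i <;> fin_cases j
  · exact ⟨0, by simp⟩
  · exact ⟨x, by simp⟩
  · exact ⟨0, by simp⟩
  · exact ⟨0, by simp⟩

theorem cj_H2 (a : (ZMod M)ˣ) {h : GM M} (hh : h ∈ P022D.Th.H2 M N₁ N₀) :
    ∃ h' ∈ P022D.Th.H2 M N₁ N₀, h * dg a 1 = dg a 1 * h' := by
  obtain ⟨k, ⟨y, hy⟩, z, hz⟩ := hh
  have e : ((dg a⁻¹ 1 * h * dg a 1 : GM M) : Matrix (Fin 2) (Fin 2) (ZMod M)) =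
      !![(h : Matrix (Fin 2) (Fin 2) (ZMod M)) 0 0,
        ((a⁻¹ : (ZMod M)ˣ) : ZMod M) * (h : Matrix (Fin 2) (Fin 2) (ZMod M)) 0 1;
        (a : ZMod M) * (h : Matrix (Fin 2) (Fin 2) (ZMod M)) 1 0,
        (h : Matrix (Fin 2) (Fin 2) (ZMod M)) 1 1] := by
    rw [Units.val_mul, Units.val_mul, dg_coe, dg_coe]
    ext i j
    fin_cases i <;> fin_cases j <;>
      simp [Matrix.mul_apply, Fin.sum_univ_two, Matrix.vecMul, dotProduct]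
    · rw [mul_right_comm, Units.inv_mul, one_mul]
    · rw [mul_comm]
  refine ⟨dg a⁻¹ 1 * h * dg a 1, ⟨fun i j => ?_, ⟨((a⁻¹ : (ZMod M)ˣ) : ZMod M) * y, ?_⟩,
    (a : ZMod M) * z, ?_⟩, ?_⟩
  · rw [e]
    fin_cases i <;> fin_cases j
    · exact k 0 0
    · exact ⟨((a⁻¹ : (ZMod M)ˣ) : ZMod M) * y, by simp [hy]; ring⟩
    · obtain ⟨s, hs⟩ := k 1 0
      exact ⟨(a : ZMod M) * s, by simp [hs]; ring⟩
    · exact k 1 1
  · rw [e]; simp [hy]; ring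
  · rw [e]
    simp only [Matrix.of_apply, Matrix.cons_val', Matrix.cons_val_zero, Matrix.cons_val_one,
      Matrix.cons_val_fin_one]
    rw [mul_left_comm, hz]; ring
  · rw [← mul_assoc, ← mul_assoc, dg_mul, mul_inv_cancel, mul_one, dg_one, one_mul]

theorem K_mono {M₀ : ℕ} (h : N₁ ∣ M₀) : Kq M M₀ ⊆ Kq M N₁ := by
  obtain ⟨c, rfl⟩ := h
  intro g hg i j
  obtain ⟨y, hy⟩ := hg i j
  exact ⟨c * y, by rw [hy]; push_cast; ring⟩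

theorem B_H2 {M₀ : ℕ} (h : N₁ ∣ M₀) : Bq M M₀ ⊆ P022D.Th.H2 M N₁ N₀ := fun g hg => by
  obtain ⟨y, hy⟩ := K_mono h hg.1 0 1
  exact ⟨K_mono h hg.1, ⟨y, by simpa using hy⟩, 0, by rw [hg.2]; simp⟩

theorem K_H2 {M₀ : ℕ} (h : N₁ ∣ M₀) (h0 : N₀ ∣ M₀) : Kq M M₀ ⊆ P022D.Th.H2 M N₁ N₀ := fun g hg => by
  obtain ⟨y, hy⟩ := K_mono h hg 0 1
  obtain ⟨z, hz⟩ := K_mono h0 hg 1 0
  exact ⟨K_mono h hg, ⟨y, by simpa using hy⟩, N₁ * z, by rw [hz]; simp; ring⟩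

end Sd

variable {O F : Type} [CommRing O] [Field F] [IsLocalRing O] [Co O] {U : Su O F}

namespace Su.Ok

variable (hU : U.Ok)
include hU

theorem dvd_NC {l : ℕ} (hl : l.Prime) : l ∣ U.NC ↔ l ∈ U.L.C := by
  rw [hU.NC]
  refine ⟨fun h => ?_, fun h => Finset.dvd_prod_of_mem _ h⟩
  obtain ⟨a, ha, e⟩ := (Prime.dvd_finsetProd_iff hl.prime _).1 h
  rwa [(Nat.prime_dvd_prime_iff_eq hl (hU.ok.pr a (Finset.mem_union_right _ ha)).1).1 e]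

theorem NC0 : U.NC ≠ 0 := by
  rw [hU.NC]
  exact Finset.prod_ne_zero_iff.2 fun a ha => (hU.ok.pr a (Finset.mem_union_right _ ha)).1.ne_zero

theorem N_ne : U.N ≠ 0 := mul_ne_zero hU.NW0 hU.NC0

theorem dvd_N {l : ℕ} (hl : l.Prime) : l ∣ U.N ↔ l ∈ U.L.W ∪ U.L.C := by
  rw [Su.N, hl.dvd_mul, hU.NW l hl, hU.dvd_NC hl, Finset.mem_union]

theorem odd_N : Odd U.N := by
  rw [← Nat.not_even_iff_odd, even_iff_two_dvd, hU.dvd_N Nat.prime_two]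
  exact fun h => (hU.ok.pr 2 h).2 rfl

theorem cop_N : Nat.Coprime U.NW U.NC := Nat.coprime_of_dvd fun l hl h1 h2 =>
  Finset.disjoint_left.1 hU.ok.dj ((hU.NW l hl).1 h1) ((hU.dvd_NC hl).1 h2)

theorem three_N : 3 ≤ U.N := by
  obtain ⟨l, hl⟩ : ∃ l, l ∈ U.L.W ∪ U.L.C := by
    rcases hU.W3 with ⟨l, h⟩ | ⟨l, h, -⟩
    · exact ⟨l, Finset.mem_union_left _ h⟩
    · exact ⟨l, Finset.mem_union_right _ h⟩
  have h := hU.ok.pr l hl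
  have h1 := h.1.two_le
  have h2 := Nat.le_of_dvd (Nat.pos_of_ne_zero hU.N_ne) ((hU.dvd_N h.1).2 hl)
  have h3 := h.2
  omega

theorem mem_T {l : ℕ} (hl : l.Prime) : l ∈ U.S.T ↔ l ∣ 2 * U.N := by
  rw [hU.ok.hT, hl.dvd_mul, hU.dvd_N hl, Finset.mem_insert, Finset.mem_insert,
    Nat.prime_dvd_prime_iff_eq hl Nat.prime_two]
  exact or_iff_right hl.ne_zero

theorem z_pow : U.z ^ U.N = 1 := Co.inj (by
  rw [map_pow, hU.z, map_one, ze, ← Complex.exp_nat_mul, Int.cast_one, mul_one,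
    mul_div_cancel₀ _ (Nat.cast_ne_zero.2 hU.N_ne), Complex.exp_two_pi_mul_I])

theorem z_W : Co.j (U.z ^ U.NC) = ze U.NW 1 := by
  have h1 : (U.NW : ℂ) ≠ 0 := Nat.cast_ne_zero.2 hU.NW0
  have h2 : (U.NC : ℂ) ≠ 0 := Nat.cast_ne_zero.2 hU.NC0
  rw [map_pow, hU.z, ze, ze, ← Complex.exp_nat_mul, Su.N]
  congr 1
  push_cast
  field_simp

/-- the level without the prime `l` -/
theorem sp {l : ℕ} (hl : l ∈ U.L.C) : Sp U.N (U.N / l) l ∧ U.NW ∣ U.N / l := by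
  have hp := (hU.ok.pr l (Finset.mem_union_right _ hl)).1
  have e : U.N = U.NW * (∏ a ∈ U.L.C.erase l, a) * l := by
    rw [Su.N, hU.NC, mul_assoc, Finset.prod_erase_mul _ _ hl]
  have e' : U.N / l = U.NW * ∏ a ∈ U.L.C.erase l, a := by
    rw [e, Nat.mul_div_cancel _ hp.pos]
  refine ⟨⟨by rw [e']; exact e, ?_, hp, hU.odd_N⟩, e' ▸ dvd_mul_right _ _⟩
  rw [e', Nat.coprime_comm, hp.coprime_iff_not_dvd, hp.dvd_mul, hU.NW l hp]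
  rintro (h | h)
  · exact Finset.disjoint_left.1 hU.ok.dj h hl
  · obtain ⟨a, ha, e⟩ := (Prime.dvd_finsetProd_iff hp.prime _).1 h
    rw [Finset.mem_erase] at ha
    exact ha.1 ((Nat.prime_dvd_prime_iff_eq hp
      (hU.ok.pr a (Finset.mem_union_right _ ha.2)).1).1 e).symm

/-- **the first vector** -/
theorem seed [CharP F 2] : ∃ v ∈ Vb U.N U.ϖ, v ≠ 0 ∧ (∀ a, rt O _ (dg a a) v = v) ∧
    P022D.Th.Ev (fun p => U.tr (P022D.Fm.fr p)) v ∧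
    (∀ x : ℕ, U.z ^ (U.NC * x) • rt O _ (un ((U.NC * x : ℕ) : ZMod U.N)) v = v) ∧
    (∀ l ∈ U.L.C, v ∈ Iv O _ (Bq U.N (U.N / l))) ∧
    ∀ l ∈ U.L.C, ¬ l ∣ U.N0 → v ∈ Iv O _ (Kq U.N (U.N / l)) := by
  haveI : NeZero U.N0 := ⟨fun h => hU.N_ne (Nat.eq_zero_of_zero_dvd (h ▸ hU.N0))⟩
  obtain ⟨v, ⟨⟨⟨h1, h2⟩, h3⟩, h4⟩, h5, h6⟩ := P022D.Th.vec O U.ϖ (U.z ^ U.NC) U.N U.NW U.NC U.N0 _ hU.uni
    ⟨hU.odd_N, hU.three_N, rfl, hU.cop_N, hU.N0⟩ hU.z_W hU.occ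
  have hc : Nat.Coprime (U.NC + U.NW) U.N := Nat.Coprime.mul_right
    (by simpa using hU.cop_N.symm) (by simpa using hU.cop_N)
  let a := ZMod.unitOfCoprime _ hc
  have ea : (a : ZMod U.N) = U.NC + U.NW := by
    rw [ZMod.coe_unitOfCoprime, Nat.cast_add]
  have iv : rt O _ (dg a 1) v ∈ Iv O _ (P022D.Th.H2 U.N U.NW U.N0) := mem_Iv.2 fun h hh => by
    obtain ⟨h', a1, a2⟩ := Sd.cj_H2 a hh
    rw [rt_rt, a2, ← rt_rt, mem_Iv.1 h3 h' a1]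
  refine ⟨rt O _ (dg a 1) v, ⟨(vs3 O _ _ hU.odd_N hU.uni.ne).2.2.2.1 _ _ _ h1.1, Od_rt _ h1.2⟩,
    fun e => h6 ?_, fun b => ?_, fun p u a1 a2 a3 => ?_, fun x => ?_, fun l hl => ?_,
    fun l hl h0 => ?_⟩
  · rw [← rt_one (S := O) v, ← inv_mul_cancel (dg a 1), ← rt_rt, e, map_zero]
  · rw [← rt_sc, mem_Iv.1 h4 _ ⟨b, rfl⟩]
  · rw [← rt_Tf, h5 p u a1 a2 a3, map_smul]
  · have e := congrArg (rt O _ (dg a 1)) (h2 x)
    rw [map_smul, rt_rt, ← Sd.un_dg, ea, add_mul, Sd.un_add, mul_assoc, ← rt_rt, ← rt_rt,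
      mem_Iv.1 iv _ (Sd.un_H2 _), ← pow_mul] at e
    rwa [Nat.cast_mul]
  · exact mem_Iv.2 fun g hg => mem_Iv.1 iv g (Sd.B_H2 (hU.sp hl).2 hg)
  · have s := (hU.sp hl).1
    refine mem_Iv.2 fun g hg => mem_Iv.1 iv g (Sd.K_H2 (hU.sp hl).2 ?_ hg)
    exact ((s.prime.coprime_iff_not_dvd.2 h0).symm).dvd_of_dvd_mul_right (s.eq ▸ hU.N0)

end Su.Ok

end Vale.Agent.P022F.Fm
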