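import Vale.Agent.P022D.Fm.Rows
import Vale.Agent.P022F.Fm.Defs
import Vale.Agent.P022F.Rep.Crt
import Vale.Agent.P022F.R.Defs
import Vale.Agent.P022F.Loc2.Defs
import Vale.Agent.P022F.Loc2.Dec
import Vale.Agent.P022F.W.Step
import Vale.Agent.P022F.W.Odd
import Vale.Agent.P022F.As.Act
import Vale.Agent.P022F.Rl.AsLoc

namespace Vale.Agent.P022F.Fm
export Vale.Agent.P022D.Fm (
  nrm cutA)
end Vale.Agent.P022F.Fm

/-!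
# P022F, forms side: the rows
-/

set_option linter.all false

open scoped MatrixGroups

noncomputable section

namespace Vale.Agent.P022F.Fm

open Vale.Agent.P022 Vale.Agent.P022F.V Vale.Agent.P027M.M
open Vale.Agent.P022F.G (Wd wT wS Inert)
open Vale.Agent.P022F.W.Step (kl Cs Dv)
open Vale.Agent.P027M.S (mx)
open Vale.Agent.P022F.As (Tg cc tt dd yy dl nD ee Dq mT Gm Sb2 Big Dia Aq HD2 Lv2)

variable {O F : Type} [CommRing O] [IsLocalRing O] [Co O] [Field F] [CharP F 2] (U : Su O F)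

/-- the levels which occur -/
structure Su.Lm (M : ℕ) : Prop where
  odd : Odd M
  le : 3 ≤ U.N
  dvd : U.N ∣ M
  cop : Nat.Coprime U.N (M / U.N)

/-- formal properties of the Hecke ring -/
structure Su.Hc (M : ℕ) : Prop where
  cm : cm (HA O M U.N U.i) = HA O M U.N U.i
  st : ∀ h ∈ HA O M U.N U.i, ∀ v ∈ U.GG M, h v ∈ U.GG M
  rt : ∀ g : GM M, ∀ v ∈ U.GG M, rD O g v ∈ U.GG M
  com : ∀ g : GM M, (∀ a d : (ZMod M)ˣ, V.Cg M U.N a d → g * dg a d = dg a d * g) →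
    ∀ (e : U.B M) (v w : U.GG M), (w : AM O M) = rD O g v →
      ((e • w : U.GG M) : AM O M) = rD O g (e • v : U.GG M)
  ex : ∀ a d : (ZMod M)ˣ, V.Cg M U.N a d → ∃ e : U.B M, Su.IsU e (dg a d)
  tor : ∀ v : U.GG M, ∃ k : ℕ, algebraMap O (U.B M) U.ϖ ^ k • v = 0
  kq : U.Lm M → ∀ g ∈ Kq M (M / U.NC), ∀ a d : (ZMod M)ˣ, V.Cg M U.N a d →
    g * dg a d = dg a d * g
  zp : U.Lm M → ∀ n (v : U.GG M), v ∈ U.sb M (U.Zp M n) ↔ (v : AM O M) ∈ U.Zp M n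
  zw : U.Lm M → ∀ n (v : U.GG M), v ∈ U.sb M (U.Zw M n) ↔ (v : AM O M) ∈ U.Zw M n
  wb : U.Lm M → ∀ n (v : U.GG M),
    v ∈ U.Wb M n ↔ (v : AM O M) ∈ U.Zp M n ∧ U.ϖ • (v : AM O M) = 0
  wp : U.Lm M → ∀ n, U.Zw M n ≤ U.Zp M n

/-- row HC -/
def HC : Prop := ∀ M, Odd M → 3 ≤ M → U.Hc M

/-- row PRJ: projection to the primary part -/
def PRJ : Prop := ∀ M, Odd M → 3 ≤ M → ∀ s : Finset (AM O M), (∀ v ∈ s, v ∈ XD O M U.i) →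
  ∃ h ∈ Algebra.adjoin O (Set.range (bw O M U.i)),
    ∀ v ∈ s, h v ∈ U.GG M ∧ (v ∈ U.GG M → h v = v)

/-- row GOP: the Galois operators exist -/
def GOP : Prop := ∀ M, Odd M → 3 ≤ M →
  (∃ (t : GQ → U.B M) (d : GQ →* (U.B M)ˣ), U.Op t d) ∧ ∀ S, U.XP M S = U.GG M

/-- row NAT: naturality -/
def NAT : Prop := ∀ (M M' : ℕ) (t : GQ → U.B M) (d : GQ →* (U.B M)ˣ) (t' : GQ → U.B M')
  (d' : GQ →* (U.B M')ˣ), U.Op t d → U.Op t' d' → ∀ (K : Submodule (U.B M) (U.GG M))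
  (f : K →+ U.GG M') (S : Finset ℕ), (∀ (ℓ : ℕ) φ, ℓ.Prime → ℓ ∉ S → IsFrob ℓ φ → ∀ v : K,
    f (t φ • v) = t' φ • f v ∧ f ((d φ : U.B M) • v) = (d' φ : U.B M') • f v) →
  ∀ g (v : K), f (t g • v) = t' g • f v ∧ f ((d g : U.B M) • v) = (d' g : U.B M') • f v

/-- row NOINV: no invariant vectors at a residually ramified prime -/
def NOINV : Prop := ∀ (M : ℕ) (t : GQ → U.B M) (d : GQ →* (U.B M)ˣ), U.Op t d →
  ∀ M₀, ∀ l ∈ U.L.C, mx U.S.rb (U.L.τ l) ≠ 1 → Sp M M₀ l →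
  ∀ v : U.GG M, (v : AM O M) ∈ Iv O (RD O) (Kq M M₀) → v = 0

/-- row LQ: levels exist -/
def LQ : Prop := (∀ r n M q b τ, Lv U r n M q b τ → U.Lm M) ∧
  ∀ (r n : ℕ) (q : Fin r → ℕ), Function.Injective q → (∀ i, Aq U.S.rb U.S.T (n + 1) (q i)) →
    ∃ M b τ, Lv U r n M q b τ

variable [hC : ∀ l : U.L.C, Fact l.1.Prime]

/-- row CH -/
def CH : Prop := ∃ Cc, U.IsCh Cc

/-- row ACT -/
def ACT : Prop := ∀ M n, U.Lm M → ∀ (t : GQ → U.B M) (d : GQ →* (U.B M)ˣ), U.Op t d →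
  ∃ E, Dt.Ok (⟨t, d, E⟩ : Dt U M n)

/-- **a level with all its operators** -/
structure Lq (r n : ℕ) (q : Fin r → ℕ) where
  M : ℕ
  b : Fin r → (ZMod M)ˣ
  τ : Fin r → GQ
  X : Dt U M n
  u : Fin r ⊕ Fin r → U.B M
  lv : Lv U r n M q b τ
  ok : X.Ok
  dia : IsDia b u

/-- the base level -/
abbrev L0 : Type := Lq U 0 0 Fin.elim0

variable (Cc : ∀ l : U.L.C, Rep.Ch (ZMod l.1) F)

/-- the index set -/
abbrev Ix : Type := Rep.TX U.bn Cc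

section lq

variable {U Cc} {r n : ℕ} {q : Fin r → ℕ} (P : Lq U r n q)

/-- the action of the symbols -/
def Lq.ev : Tg O →+* U.B P.M := P.X.ev P.u

/-- the modules modulo `ϖ` -/
abbrev Lq.Yb (I : Ix U Cc) : Type := Mt P.ev (P.X.Y I.v)

/-- the Whittaker module modulo `ϖ ^ (n + 1)` -/
abbrev Lq.Wc : Type := Mt P.ev (P.X.Wc (n + 1))

/-- the divisible Whittaker module -/
abbrev Lq.W0 : Type := Mt P.ev P.X.Wh

/-- the forms modulo `ϖ` after the cut -/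
abbrev Lq.Zc : Submodule (U.B P.M) (U.Wb P.M n) :=
  kl (B := U.B P.M) (X := U.Wb P.M n) ⊤ P.X.JW

instance : AddCommGroup P.Zc :=
  Submodule.addCommGroup (R := U.B P.M) (M := U.Wb P.M n) P.Zc

/-- the action after the cut -/
abbrev Lq.Ec : Rep.Act F U.Gam (U.B P.M) P.Zc := cutA P.X.E P.X.JW

/-- the norm of the two-part of the scalars at the primes of `W` -/
def Lq.nW (a : ℕ → ℕ) : U.B P.M :=
  ∏ l ∈ U.L.W, ∑ j ∈ Finset.range (2 ^ a l), (P.X.d (U.L.τ l) : U.B P.M) ^ j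

/-- the augmentation ideal of the scalars at the primes of `W` -/
def Lq.aW : Set (U.B P.M) := {c | ∃ l ∈ U.L.W, c = (P.X.d (U.L.τ l) : U.B P.M) - 1}

/-- `K` is cut out of `Wb` by group conditions of determinant one modulo `NW` -/
def Lq.Gk (K : Submodule (U.B P.M) (U.GG P.M)) : Prop :=
  ∃ (H : Set (GM P.M)) (χ : GM P.M → O),
    (∀ g ∈ H, V.Cg P.M U.NW (g : Matrix (Fin 2) (Fin 2) (ZMod P.M)).det 1) ∧
    ∀ v, v ∈ K ↔ v ∈ U.Wb P.M n ∧ (v : AM O P.M) ∈ Eg O (RD O) H χ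

end lq

/-- the exact powers of two in `l - 1` -/
def Su.Ex (a : ℕ → ℕ) : Prop := ∀ l ∈ U.L.W, ∃ m, Odd m ∧ l = 2 ^ a l * m + 1

/-- row DIC: the dictionary between the action and the translations -/
def DIC : Prop := ∀ M n, U.Lm M → ∀ X : Dt U M n, X.Ok →
  (∀ l : U.L.C, Sp M (M / l.1) l.1) ∧
  (∀ (l : U.L.C) (h : Sp M (M / l.1) l.1) (g : GL (Fin 2) (ZMod l.1)) (w : U.Wb M n),
    (((X.E.ρ (Pi.mulSingle l (QuotientGroup.mk g)) w : U.Wb M n) : U.GG M) : AM O M) =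
      rD O (Rep.emb h g) (w : U.GG M)) ∧
  (∀ v : U.GG M, v ∈ X.Y1 (Rep.XG U.bn Cc).v ↔
    (v : AM O M) ∈ U.Zw M n ∧ U.ϖ • (v : AM O M) = 0) ∧
  ∀ (S : Finset U.L.C) (v : U.GG M), v ∈ X.Y1 (Rep.XS U.bn Cc S).v ↔ v ∈ U.Wb M n ∧
    (∀ l ∈ S, ∀ x : ℕ, U.z ^ (M / l.1 * x) • rD O (un ((M / l.1 * x : ℕ) : ZMod M)) v =
      (v : AM O M)) ∧ ∀ l ∉ S, (v : AM O M) ∈ Iv O (RD O) (Kq M (M / l.1))

/-- row CLS: the class conditions after the cut -/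
def CLS : Prop := ∀ r n q (P : Lq U r n q), ∀ v ∈ P.X.Z,
  (∀ g ∈ U.L.TT, P.X.t g • v = algebraMap O (U.B P.M) (U.tr g) • v) ∧
  (∀ g ∈ U.L.DD, (P.X.d g : U.B P.M) • v = algebraMap O (U.B P.M) (U.dt g) • v) ∧
  (v : AM O P.M) ∈ XD1 O P.M (U.i + 1) ∧ (v : AM O P.M) ∈ U.Ce P.M (P.M / U.N) ∧
  ((∀ s, P.u s • v = v) → (v : AM O P.M) ∈ Iv O (RD O) (Bq P.M U.N) ∧
    (v : AM O P.M) ∈ U.Ce P.M 1 ∧
    ∀ g, (P.X.d g : U.B P.M) • v = algebraMap O (U.B P.M) (U.dt g) • v)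

/-- row GMR: fields `gm`, `gmC`, `gm0`, `gmW` -/
def GMR : Prop := ∀ r n q (P : Lq U r n q), ∀ Y ≤ P.X.Z,
  Gm U.ϖ U.L U.S.T (Finset.univ.image q) r (Mt P.ev Y)

/-- row DIA: fields `dia`, `diaC` and the dictionary for the diamond operators -/
def DIA : Prop := ∀ r n q (P : Lq U r n q),
  (∀ v ∈ U.sb P.M (U.Zp P.M n), (∀ s, P.ev (dl n P.τ s) • v = P.u s • v) ∧
    P.ev (nD n P.τ) • v = nrm n P.u • v ∧ ∀ s, P.u s ^ 2 ^ n • v = v) ∧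
  ∀ Y ≤ U.sb P.M (U.Zp P.M n), Dia (O := O) n P.τ (Mt P.ev Y)

/-- row NZ0: invariants are norms before the cut -/
def NZ0 : Prop := ∀ r n q (P : Lq U r n q) (a : ℕ → ℕ), U.Ex a →
  (∀ w : U.Wb P.M n, (∀ c ∈ P.aW, c • w = 0) → ∃ w' : U.Wb P.M n, w = P.nW a • w') ∧
  ∀ (S : Subgroup (∀ l, U.Gam l)) (s : Finset (∀ l, U.Gam l)), (∀ γ, γ ∈ s ↔ γ ∈ S) →
    ∀ w : U.Wb P.M n, (∀ γ ∈ S, P.X.E.ρ γ w = w) → (∀ j, P.u j • w = w) →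
    (∃ w' : U.Wb P.M n, w = nrm n P.u • ∑ γ ∈ s, P.X.E.ρ γ w') ∧
    ((∀ c ∈ P.aW, c • w = 0) →
      ∃ w' : U.Wb P.M n, w = P.nW a • nrm n P.u • ∑ γ ∈ s, P.X.E.ρ γ w')

/-- row CUT: the cut at the primes of `W` -/
def CUT : Prop := ∀ r n q (P : Lq U r n q), ∃ (ν : U.B P.M) (a : ℕ → ℕ), U.Ex a ∧
  (∀ c ∈ P.X.JW, ∀ v ∈ U.sb P.M (U.Zp P.M n), (c * ν) • v = 0) ∧
  ∀ K, P.Gk K → Cs K P.aW (P.nW a) → Cs K P.X.JW ν

/-- row HZ: Higman's operator after the cut -/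
def HZ : Prop := ∀ r n q (P : Lq U r n q), (∃ θ : P.Zc →+ P.Zc, P.Ec.Hig θ) ∧
  ∀ I, ∀ v ∈ P.X.Y I, (∀ s, P.u s • v = v) → ∃ v' ∈ P.X.Y I, v = nrm n P.u • v'

/-- row EXF: fields `ex`, `free` -/
def EXF : Prop := ∀ r n q (P : Lq U r n q),
  (∀ i j k : Ix U Cc, Rep.SesX U.bn Cc i j k →
    ∃ (f : P.Yb i →ₗ[Tg O] P.Yb j) (g : P.Yb j →ₗ[Tg O] P.Yb k),
      Function.Injective f ∧ Function.Exact f g ∧ Function.Surjective g) ∧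
  ∀ (i : Ix U Cc) (w : P.Yb i), (∀ s, (dl n P.τ s : Tg O) • w = w) →
    ∃ w' : P.Yb i, w = (nD n P.τ : Tg O) • w'

/-- row DV0: divisibility before the cut -/
def DV0 : Prop := ∀ M n, U.Lm M → Dv (algebraMap O (U.B M) U.ϖ) (U.sb M (U.Zw M n))

/-- row DVW: divisibility after the cut -/
def DVW : Prop := ∀ r n q (P : Lq U r n q), Dv (algebraMap O (U.B P.M) U.ϖ) P.X.Wh

/-- row RED: fields `pi`, `red`, `piC`, `flat`, and the inclusions -/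
def RED : Prop := ∀ r n q (P : Lq U r n q),
  ((∀ I, P.X.Y I ≤ P.X.Z) ∧ P.X.Wh ≤ P.X.Z ∧ ∀ j, P.X.Wc j ≤ P.X.Z) ∧
  (∀ (i : Ix U Cc) (w : P.Yb i), cc U.ϖ • w = 0) ∧
  (∃ e : P.Yb (Rep.XG U.bn Cc) →ₗ[Tg O] P.Wc, Function.Injective e ∧
    ∀ w, w ∈ LinearMap.range e ↔ cc U.ϖ • w = 0) ∧
  (∀ w : P.Wc, cc U.ϖ ^ (n + 1) • w = 0) ∧
  ∀ w : P.Wc, cc U.ϖ • w = 0 → ∃ w' : P.Wc, w = cc U.ϖ ^ n • w'

/-- row CYF: field `cyc` -/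
def CYF : Prop := ∀ r n q (P : Lq U r n q), ∃ χ : CharacterModule P.Wc, ∀ w : P.Wc,
  (∀ u : Tg O, χ (u • w) = 0) → (∏ i, (ee n P.τ i - 1) : Tg O) ^ 5 • w = 0

/-- row URF: field `unr` -/
def URF : Prop := ∀ r n q (P : Lq U r n q) (J : Finset U.L.C) (l : U.L.C), l ∉ J →
  ∀ g (w : P.Yb (Rep.XJ U.bn Cc J)), (tt (g * U.L.τ l) : Tg O) • w = (tt g : Tg O) • w

/-- row NWF: field `new` -/
def NWF : Prop := ∀ r n q (P : Lq U r n q) (J : Finset U.L.C) (l : U.L.C), l ∈ J →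
  ∀ w : P.Yb (Rep.XJ U.bn Cc J), (tt (U.L.φ l) : Tg O) ^ 5 • w = 0

/-- row FIB: field `fib` -/
def FIB : Prop := ∀ (P0 : L0 U) r n q (P : Lq U r n q) (φ : Fin r → GQ),
  (∀ i, IsFrob (q i) (φ i)) → ∀ i : Ix U Cc,
  ∃ β : (Finset (Fin r) → P0.Yb i) →ₗ[Tg O] P.Yb i,
    (∀ s w, (dl n P.τ s : Tg O) • β w = β w) ∧
    (∀ w, β w = 0 → (Dq q φ : Tg O) ^ 5 • w = 0) ∧
    ∀ v : P.Yb i, (∀ s, (dl n P.τ s : Tg O) • v = v) →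
      (Dq q φ : Tg O) ^ 5 • v ∈ LinearMap.range β

/-- row DSC: field `desc` -/
def DSC : Prop := ∀ (P0 : L0 U) r n q (P : Lq U r n q) (φ : Fin r → GQ),
  (∀ i, IsFrob (q i) (φ i)) → ∀ j ≤ n, ∀ w : P.Wc, cc U.ϖ ^ j • w = 0 →
  (∀ s, (dl n P.τ s : Tg O) • w = w) → ∃ s : Finset P0.W0, (∀ v ∈ s, cc U.ϖ ^ j • v = 0) ∧
    ∀ p : Tg O, (∀ v ∈ s, p • v = 0) → (Dq q φ ^ 5 * p) • w = 0

/-- row SBR: fields `sb`, `sb0` -/
def SBR : Prop := ∀ r, ∃ b : ℕ, ∀ n q (P : Lq U r n q) (i : Ix U Cc), Sb2 (mT U.L.r) b (P.Yb i)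

/-- row DT0: field `det0` -/
def DT0 : Prop := ∀ (P0 : L0 U) (i : Ix U Cc) (g : GQ) (w : P0.Yb i), (dd g : Tg O) ^ 1 • w = w

/-- row NONV: the base modules are not zero -/
def NONV : Prop := ∀ (P0 : L0 U) (J : Finset U.L.C),
  (∀ l : U.L.C, mx U.S.rb (U.L.τ l) ≠ 1 → l ∈ J) → P0.X.Y (Rep.XJ U.bn Cc J).v ≠ ⊥

/-- row BIGR: field `big` -/
def BIGR : Prop := ∀ (P0 : L0 U) (J : Finset U.L.C),
  (∀ l : U.L.C, mx U.S.rb (U.L.τ l) ≠ 1 → l ∈ J) → Big (mT U.L.r) (P0.Yb (Rep.XJ U.bn Cc J))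

/-- row ASM: the target -/
def ASM : Prop := ∃ P0 : L0 U, HD2 U.ϖ U.S U.L (fun i : Ix U Cc => P0.Yb i) P0.W0
  (Rep.SesX U.bn Cc) (Rep.XG U.bn Cc) (Rep.XJ U.bn Cc)

/-- **the forms side** -/
def FORMS : Prop := ∀ (O F : Type) [CommRing O] [IsDomain O] [IsDiscreteValuationRing O]
  [Core.Coef O] [Co O] [Field F] [Finite F] [CharP F 2] (U : Su O F)
  [∀ l : U.L.C, Fact l.1.Prime], U.Ok → ∃ Cc, ASM U Cc

end Vale.Agent.P022F.Fm
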