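import Vale.Agent.P022F.Fm.SbA
import Vale.Agent.P022F.Fm.Rows
import Vale.Agent.P022F.Fm.CycA
import Vale.Agent.P022F.Fm.Unit
import Vale.Agent.P022F.Ns

/-!
# P022D, forms side: the socles are bounded
-/

set_option linter.all false

open Matrix IsLocalRing

noncomputable section

namespace Vale.Agent.P022F.Fm.Sb

open Vale.Agent.P022 Vale.Agent.P022D.V Vale.Agent.P022F.V Vale.Agent.P022D.Gt Vale.Agent.P022F.Gt
open Vale.Agent.P027M.M (ze)
open Vale.Agent.P027M.S (mx)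
open Vale.Agent.P022D.As (Tg cc tt dd yy mT ev0 Sb2)

theorem sb2_of {T O Y A : Type} [CommRing T] [CommRing O] [AddCommGroup Y] [Module T Y]
    [AddCommGroup A] [Module O A] (ι : Y →+ A) (inj : Function.Injective ι) (c : O → T)
    (hc : ∀ o w, ι (c o • w) = o • ι w) (P : Y → Prop) (h0 : P 0) (s : Finset A) {b : ℕ}
    (hs : s.card ≤ b) (h1 : ∀ x ∈ s, ∃ w, P w ∧ ι w = x)
    (h2 : ∀ w, P w → ι w ∈ Submodule.span O (s : Set A)) :
    ∃ f : Fin b → Y, (∀ j, P (f j)) ∧ ∀ w, P w → w ∈ Submodule.span T (Set.range f) := by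
  classical
  choose g g1 g2 using h1
  let f : Fin b → Y := fun j =>
    if h : j.1 < s.card then g _ (s.equivFin.symm ⟨j.1, h⟩).2 else 0
  refine ⟨f, fun j => ?_, fun w hw => ?_⟩
  · unfold f
    split_ifs
    exacts [g1 _ _, h0]
  · have key : ∀ v ∈ Submodule.span O (s : Set A), ∃ w' ∈ Submodule.span T (Set.range f),
        ι w' = v := fun v hv => by
      induction hv using Submodule.span_induction with
      | mem x hx =>
        refine ⟨_, Submodule.subset_span ⟨⟨(s.equivFin ⟨x, hx⟩).1,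
          (s.equivFin ⟨x, hx⟩).2.trans_le hs⟩, rfl⟩, ?_⟩
        unfold f
        rw [dif_pos (s.equivFin ⟨x, hx⟩).2, g2]
        simp
      | zero => exact ⟨0, zero_mem _, map_zero _⟩
      | add x y _ _ hx hy =>
        obtain ⟨a, a1, rfl⟩ := hx
        obtain ⟨d, d1, rfl⟩ := hy
        exact ⟨a + d, add_mem a1 d1, map_add _ _ _⟩
      | smul o x _ hx =>
        obtain ⟨a, a1, rfl⟩ := hx
        exact ⟨c o • a, Submodule.smul_mem _ _ a1, hc o a⟩
    obtain ⟨w', a, e⟩ := key _ (h2 w hw)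
    exact inj e ▸ a

variable {O F : Type} [CommRing O] [IsLocalRing O] [Co O] [Field F] {U : Su O F}

section lev

variable {r n M : ℕ} {q : Fin r → ℕ} {b : Fin r → (ZMod M)ˣ} {τ : Fin r → GQ}

theorem prC (hU : U.Ok) (l : U.L.C) : l.1.Prime ∧ l.1 ≠ 2 :=
  hU.ok.pr _ (Finset.mem_union_right _ l.2)

theorem NC_eq (hU : U.Ok) : U.NC = ∏ l : U.L.C, l.1 := by
  rw [hU.NC, Finset.prod_coe_sort U.L.C fun l => l]

theorem mem_of_dvd (hU : U.Ok) {p : ℕ} (hp : p.Prime) (h : p ∣ U.N) : p ∈ U.L.W ∪ U.L.C := by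
  rcases (Nat.Prime.dvd_mul hp).1 h with h | h
  · exact Finset.mem_union_left _ ((hU.NW p hp).1 h)
  · rw [NC_eq hU] at h
    obtain ⟨l, -, hl⟩ := (hp.prime.dvd_finset_prod_iff _).1 h
    rw [(Nat.prime_dvd_prime_iff_eq hp (prC hU l).1).1 hl]
    exact Finset.mem_union_right _ l.2

theorem aux_of (hU : U.Ok) (lv : Lv U r n M q b τ) : Aux M U.N n q b := by
  have hT : ∀ p ∈ U.L.W ∪ U.L.C, p ∈ U.S.T := fun p hp => by
    rw [hU.ok.hT]
    exact Finset.mem_insert_of_mem (Finset.mem_insert_of_mem hp)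
  refine ⟨?_, lv.eq, lv.inj, fun j => ⟨(lv.pr j).1, fun h =>
    (lv.pr j).2 (hT _ (mem_of_dvd hU (lv.pr j).1 h))⟩, lv.b1, lv.gen⟩
  rw [← Nat.not_even_iff_odd, even_iff_two_dvd, lv.eq]
  intro h
  rcases (Nat.Prime.dvd_mul Nat.prime_two).1 h with h | h
  · exact (hU.ok.pr _ (mem_of_dvd hU Nat.prime_two h)).2 rfl
  · obtain ⟨j, -, hj⟩ := (Nat.prime_two.prime.dvd_finset_prod_iff _).1 h
    refine (lv.pr j).2 ?_
    rw [← (Nat.prime_dvd_prime_iff_eq Nat.prime_two (lv.pr j).1).1 hj, hU.ok.hT]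
    exact Finset.mem_insert_of_mem (Finset.mem_insert_self _ _)

/-- the part of the level at `W` and `S` -/
def NS (U : Su O F) (S : Finset U.L.C) : ℕ := U.NW * ∏ l ∈ S, l.1

/-- the other part -/
def CS (U : Su O F) (S : Finset U.L.C) : ℕ := by classical exact ∏ l ∈ Sᶜ, l.1

theorem NS_CS (hU : U.Ok) (S : Finset U.L.C) : U.N = NS U S * CS U S := by
  classical
  rw [Su.N, NS, CS, NC_eq hU, mul_assoc, Finset.prod_mul_prod_compl]

theorem dvd_NS {S : Finset U.L.C} {l : U.L.C} (h : l ∈ S) : l.1 ∣ NS U S :=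
  (Finset.dvd_prod_of_mem _ h).mul_left _

theorem dvd_CS {S : Finset U.L.C} {l : U.L.C} (h : l ∉ S) : l.1 ∣ CS U S := by
  classical
  exact Finset.dvd_prod_of_mem _ (Finset.mem_compl.2 h)

theorem cop_NS (hU : U.Ok) (S : Finset U.L.C) : Nat.Coprime (NS U S) (CS U S) := by
  classical
  refine Nat.Coprime.prod_right fun l hl => Nat.Coprime.symm ?_
  refine (prC hU l).1.coprime_iff_not_dvd.2 fun h => ?_
  rcases (Nat.Prime.dvd_mul (prC hU l).1).1 h with h | h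
  · exact Finset.disjoint_left.1 hU.ok.dj ((hU.NW _ (prC hU l).1).1 h) l.2
  · obtain ⟨l', h1, h2⟩ := ((prC hU l).1.prime.dvd_finset_prod_iff _).1 h
    rw [← Subtype.ext ((Nat.prime_dvd_prime_iff_eq (prC hU l).1 (prC hU l').1).1 h2)] at h1
    exact Finset.mem_compl.1 hl h1

theorem spC (hU : U.Ok) (A : Aux M U.N n q b) (l : U.L.C) :
    Sp M (M / l.1) l.1 ∧ M / l.1 = U.N / l.1 * ∏ j, q j ∧ M / U.NC = U.NW * ∏ j, q j ∧
      M / U.NC ∣ M / l.1 := by
  classical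
  have p := (prC hU l).1
  have e : U.N = NS U {l}ᶜ * l.1 := by
    rw [NS_CS hU {l}ᶜ, CS, compl_compl, Finset.prod_singleton]
  have c := cop_NS hU {l}ᶜ
  rw [CS, compl_compl, Finset.prod_singleton] at c
  have e1 : U.N / l.1 = NS U {l}ᶜ := by rw [e, Nat.mul_div_cancel _ p.pos]
  have e2 : M / l.1 = NS U {l}ᶜ * ∏ j, q j := by
    rw [A.eq, e, mul_right_comm, Nat.mul_div_cancel _ p.pos]
  have e3 : M / U.NC = U.NW * ∏ j, q j := by
    have h0 : 0 < U.NC := Nat.pos_of_ne_zero fun h => A.odd.pos.ne' (by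
      rw [A.eq, Su.N, h, mul_zero, zero_mul])
    rw [A.eq, Su.N, mul_right_comm, Nat.mul_div_cancel _ h0]
  refine ⟨⟨?_, ?_, p, A.odd⟩, by rw [e1, e2], e3, ?_⟩
  · rw [e2, mul_right_comm, ← e, A.eq]
  · rw [e2]
    refine Nat.Coprime.mul_left c (Nat.Coprime.prod_left fun j _ => ?_)
    exact (A.pr j).1.coprime_iff_not_dvd.2 fun h => (A.pr j).2 (h.trans ⟨_, by rw [e, mul_comm]⟩)
  · rw [e2, e3]
    exact Nat.mul_dvd_mul_right (dvd_mul_right _ _) _

theorem kq_mono {N N' : ℕ} (hd : N ∣ N') {g : GM M} (hg : g ∈ Kq M N') : g ∈ Kq M N := by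
  obtain ⟨c, rfl⟩ := hd
  intro i j
  obtain ⟨y, hy⟩ := hg i j
  exact ⟨c * y, by rw [hy, Nat.cast_mul, mul_assoc]⟩

theorem pr_kq {N : ℕ} (h : N ∣ M) {g : GM M} (hg : g ∈ Kq M N) : pr h g = 1 := by
  apply Units.ext
  ext i j
  obtain ⟨y, hy⟩ := hg i j
  rw [pr_coe, hy, map_add, map_mul, map_natCast, ZMod.natCast_self, zero_mul, add_zero,
    Units.val_one, Matrix.one_apply, Matrix.one_apply]
  split_ifs
  exacts [map_one _, map_zero _]

theorem un_kq (N y : ℕ) : un ((N * y : ℕ) : ZMod M) ∈ Kq M N := fun i j => by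
  rw [un_coe]
  fin_cases i <;> fin_cases j
  exacts [⟨0, by simp⟩, ⟨y, by simp⟩, ⟨0, by simp⟩, ⟨0, by simp⟩]

theorem un_add (x y : ZMod M) : un (x + y) = un x * un y := by
  apply Units.ext
  rw [Units.val_mul, un_coe, un_coe, un_coe]
  ext i j
  fin_cases i <;> fin_cases j <;> simp [Matrix.mul_apply, Fin.sum_univ_two, add_comm]

variable [hC : ∀ l : U.L.C, Fact l.1.Prime] [CharP F 2] {X : Dt U M n}
  {Cc : ∀ l : U.L.C, P022D.Rep.Ch (ZMod l.1) F}

/-- the underlying tuple -/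
abbrev tu (w : U.Wb M n) : P022D.Fm.AM O M := (w : U.GG M)

theorem tu_mem (w : U.Wb M n) : tu w ∈ U.Zp M n ⊓ P022D.Fm.Tor (P022D.Fm.AM O M) U.ϖ := P022D.Fm.mem_of_sub w.2

/-- invariance outside `S` -/
theorem inv_XS (hU : U.Ok) (A : Aux M U.N n q b) (hX : X.Ok) {S : Finset U.L.C} {w : U.Wb M n}
    (hw : w ∈ X.E.Y (P022D.Rep.XS U.bn Cc S).v) :
    tu w ∈ Iv O (RD O) (Kq M (NS U S * ∏ j, q j)) := by
  classical
  refine mem_Iv.2 fun h hh => ?_
  have dv : ∀ l : U.L.C, l.1 ∣ M := fun l => Dvd.intro_left _ (spC hU A l).1.eq.symm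
  have e : M / U.NC ∣ NS U S * ∏ j, q j := by
    have h0 : 0 < U.NC := Nat.pos_of_ne_zero fun h => A.odd.pos.ne' (by
      rw [A.eq, Su.N, h, mul_zero, zero_mul])
    rw [A.eq, Su.N, mul_right_comm, Nat.mul_div_cancel _ h0]
    exact Nat.mul_dvd_mul_right (dvd_mul_right _ _) _
  let γ : ∀ l, U.Gam l := fun l => QuotientGroup.mk (pr (dv l) h)
  have a := hX.act h (kq_mono e hh) γ (fun _ _ => rfl) w
  let H : Subgroup (∀ l, U.Gam l) :=
    { carrier := {g | X.E.ρ g w = w}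
      one_mem' := by change X.E.ρ 1 w = w; rw [map_one]; rfl
      mul_mem' := fun {g g'} a b => by
        change X.E.ρ (g * g') w = w
        rw [map_mul, Module.End.mul_apply, b, a]
      inv_mem' := fun {g} a => by
        change X.E.ρ g⁻¹ w = w
        conv_lhs => rw [← a]
        rw [← Module.End.mul_apply, ← map_mul, inv_mul_cancel, map_one]
        rfl }
  have m : γ ∈ H := Subgroup.pi_mem_of_mulSingle_mem γ fun l => by
    by_cases hl : l ∈ S
    · have : γ l = 1 := by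
        change QuotientGroup.mk (pr (dv l) h) = 1
        rw [pr_kq _ (kq_mono ((dvd_NS hl).mul_right _) hh)]
        rfl
      rw [this, Pi.mulSingle_one]
      exact H.one_mem
    · exact ((X.E.mem_XS S w).1 hw).2 l hl _
  rw [show X.E.ρ γ w = w from m] at a
  exact a.symm

/-- the action of the unipotent group at `l` -/
theorem un_act (hU : U.Ok) (A : Aux M U.N n q b) (hX : X.Ok) (l : U.L.C) (y : ℕ) (w : U.Wb M n) :
    tu (X.E.ρ (Pi.mulSingle l ((U.bn l).u ((M / l.1 * y : ℕ) : ZMod l.1))) w) =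
      rt O _ (un ((M / l.1 * y : ℕ) : ZMod M)) (tu w) := by
  classical
  refine hX.act _ (kq_mono (spC hU A l).2.2.2 (un_kq _ y)) _ (fun l' hl' => ?_) w
  by_cases e : l' = l
  · subst e
    rw [Pi.mulSingle_eq_same, pr_un, map_natCast]
    rfl
  · rw [Pi.mulSingle_eq_of_ne e, pr_kq _ (kq_mono (Cyc.dvd_div (spC hU A l).1 hl'
      ((Nat.coprime_primes (prC hU l').1 (prC hU l).1).2 fun h => e (Subtype.ext h)))
      (un_kq _ y))]
    rfl

/-- the Whittaker condition at `W` and `S` -/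
theorem wh_XS (hU : U.Ok) (A : Aux M U.N n q b) (hX : X.Ok) (hc : U.IsCh Cc)
    {S : Finset U.L.C} {w : U.Wb M n} (hw : w ∈ X.E.Y (P022D.Rep.XS U.bn Cc S).v) {c : ℕ}
    (he : CS U S * c ≡ 1 [MOD NS U S]) : tu w ∈ Wh O (RD O) M ((U.z ^ CS U S) ^ c) := by
  classical
  haveI : NeZero M := ⟨A.odd.pos.ne'⟩
  have N0 : U.N ≠ 0 := fun h => A.odd.pos.ne' (by rw [A.eq, h, zero_mul])
  have zN := z_pow N0 hU.z
  have zM : U.z ^ M = 1 := by rw [A.eq, pow_mul, zN, one_pow]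
  have md : ∀ {x y : ℕ}, x ≡ y [MOD NS U S] → x ≡ y [MOD CS U S] → U.z ^ x = U.z ^ y :=
    fun h1 h2 => pow_mod zN (by
      rw [NS_CS hU S]
      exact (Nat.modEq_and_modEq_iff_modEq_mul (cop_NS hU S)).1 ⟨h1, h2⟩)
  have m1 : ∀ x : ℕ, CS U S ∣ x → U.z ^ (CS U S * c * x) = U.z ^ x := fun x hx =>
    md (by simpa using he.mul_right x)
      ((Nat.modEq_zero_iff_dvd.2 (hx.mul_left _)).trans (Nat.modEq_zero_iff_dvd.2 hx).symm)
  let P : ℕ → Prop := fun x => U.z ^ (CS U S * c * x) • rt O _ (un (x : ZMod M)) (tu w) = tu w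
  have Pm : ∀ x y : ℕ, (x : ZMod M) = y → P x → P y := fun x y h a => by
    unfold P at a ⊢
    rw [← h, ← pow_mod zM (((ZMod.natCast_eq_natCast_iff _ _ _).1 h).mul_left _), a]
  have Pa : ∀ x y, P x → P y → P (x + y) := fun x y a d => by
    unfold P at a d ⊢
    rw [Nat.cast_add, un_add, mul_add, pow_add, mul_smul, ← rt_rt, ← map_smul, d, a]
  have P1 : ∀ y, P (U.NC * y) := fun y => by
    unfold P
    rw [m1 _ (Dvd.dvd.mul_right (by
      rw [NC_eq hU, CS]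
      exact Finset.prod_dvd_prod_of_subset _ _ _ (Finset.subset_univ _)) _)]
    have e := (Submodule.mem_iInf _).1 (tu_mem w).1.1.2 y
    rw [LinearMap.mem_ker, LinearMap.sub_apply, sub_eq_zero] at e
    exact e
  have P2 : ∀ (l : U.L.C) y, P (M / l.1 * y) := fun l y => by
    unfold P
    have p := (prC hU l).1
    rw [← un_act hU A hX l y w]
    by_cases hl : l ∈ S
    · obtain ⟨k, hk⟩ := dvd_NS hl
      have e : U.N / l.1 = k * CS U S := by
        rw [NS_CS hU S, hk, mul_assoc, Nat.mul_div_cancel_left _ p.pos]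
      rw [((X.E.mem_XS S w).1 hw).1 l hl, m1 _ (by
        rw [(spC hU A l).2.1, e]
        exact ((dvd_mul_left _ _).mul_right _).mul_right _)]
      have e1 := hc l ((∏ j, q j) * y)
      rw [← mul_assoc, ← (spC hU A l).2.1, ← map_pow, mul_comm] at e1
      have e2 := hX.sc (U.z ^ (M / l.1 * y))
        (X.E.sc ((Cc l).ψ ((M / l.1 * y : ℕ) : ZMod l.1)) w)
      rw [← Module.End.mul_apply, ← map_mul, e1, map_one] at e2
      exact (congrArg tu e2).symm
    · obtain ⟨k, hk⟩ := dvd_CS hl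
      have e : U.N / l.1 = NS U S * k := by
        rw [NS_CS hU S, hk, mul_left_comm, Nat.mul_div_cancel_left _ p.pos]
      rw [((X.E.mem_XS S w).1 hw).2 l hl, md (y := 0) (Nat.modEq_zero_iff_dvd.2 ?_)
        (Nat.modEq_zero_iff_dvd.2 ((dvd_mul_right _ _).mul_right _)), pow_zero, one_smul]
      rw [(spC hU A l).2.1, e]
      exact (((dvd_mul_right _ _).mul_right _).mul_right _).mul_left _
  have key : ∀ T : Finset U.L.C, (∀ y, P ((∏ l ∈ T, l.1) * y)) → ∀ y, P y := fun T => by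
    induction T using Finset.induction_on with
    | empty => simp
    | insert l T hl ih =>
      intro h
      refine ih fun y => ?_
      obtain ⟨e, f, D⟩ := GrpP.dat (spC hU A l).1
      obtain ⟨u, hu⟩ := D.eM
      obtain ⟨v, hv⟩ := D.fq
      refine Pm _ _ ?_ (Pa _ _ (h (v.val * y)) (P2 l (u.val * ((∏ l ∈ T, l.1) * y))))
      rw [Finset.prod_insert hl]
      have ad := D.add
      simp only [Nat.cast_add, Nat.cast_mul, ZMod.natCast_zmod_val]
      linear_combination (((∏ l ∈ T, l.1 : ℕ) : ZMod M) * y) * (ad - hu - hv)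
  intro x
  rw [← pow_mul, ← pow_mul, ← mul_assoc]
  exact key Finset.univ (by rw [← NC_eq hU]; exact P1) x

theorem ev_cc (u : Fin r ⊕ Fin r → U.B M) (c : O) : X.ev u (cc c) = algebraMap O _ c := by
  simp [Dt.ev, cc]

theorem ev_tt (u : Fin r ⊕ Fin r → U.B M) (g : GQ) : X.ev u (tt g) = X.t g := by
  simp [Dt.ev, tt]

theorem ev_dd (u : Fin r ⊕ Fin r → U.B M) (g : GQ) : X.ev u (dd g) = X.d g := by
  simp [Dt.ev, dd]

theorem ev_yy (u : Fin r ⊕ Fin r → U.B M) (j : Fin r) :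
    X.ev u (yy j) = u (Sum.inl j) - 1 := by
  simp [Dt.ev, yy]

end lev

variable [hC : ∀ l : U.L.C, Fact l.1.Prime] [CharP F 2] [Finite F]

/-- **SB**: the socles are spanned by a number of elements which only depends on `r` -/
theorem sb (hE : GEN O) (hD : DIV O) (hP : PAR O) (hV : DESCV O) (hG : GT O) (hU : U.Ok) (r : ℕ) :
    ∃ b : ℕ, ∀ (n M : ℕ) (q : Fin r → ℕ) (b' : Fin r → (ZMod M)ˣ) (τ : Fin r → GQ),
    Lv U r n M q b' τ → ∀ X : Dt U M n, X.Ok → ∀ u, IsDia b' u → ∀ Cc, U.IsCh Cc →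
    ∀ (a : P022D.Rep.TX U.bn Cc) (K : Submodule (U.B M) (U.GG M)), K ≤ X.Y1 a.v →
      Sb2 (mT U.L.r) b (P022D.Fm.Mt (X.ev u) K) := by
  classical
  obtain ⟨b, hb⟩ := genD (S := U.S) (L := U.L) hE hD hP hV hG r
  refine ⟨b, fun n M q b' τ lv X hX u hu Cc hc a K hK => ?_⟩
  have A := aux_of hU lv
  haveI : NeZero M := ⟨A.odd.pos.ne'⟩
  obtain ⟨S, hS⟩ := X.E.le_XS a
  let ι : P022D.Fm.Mt (X.ev u) K →+ P022D.Fm.AM O M :=
    ((U.GG M).subtype.toAddMonoidHom).comp K.subtype.toAddMonoidHom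
  have inj : Function.Injective ι := Subtype.val_injective.comp Subtype.val_injective
  have sm : ∀ (p : Tg O) (w : P022D.Fm.Mt (X.ev u) K),
      ι (p • w) = ((X.ev u p • ((show K from w) : U.GG M) : U.GG M) : P022D.Fm.AM O M) := fun _ _ => rfl
  have ic : ∀ (o : O) w, ι (cc o • w) = o • ι w := fun o w => by rw [sm, ev_cc]; rfl
  let P : P022D.Fm.Mt (X.ev u) K → Prop := fun w => ∀ p ∈ mT U.L.r, p • w = 0
  let Xs : Submodule O (P022D.Fm.AM O M) :=
    { carrier := {v | ∃ w, P w ∧ ι w = v}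
      zero_mem' := ⟨0, fun _ _ => smul_zero _, map_zero _⟩
      add_mem' := by
        rintro _ _ ⟨w, a, rfl⟩ ⟨w', a', rfl⟩
        exact ⟨w + w', fun p hp => by rw [smul_add, a p hp, a' p hp, add_zero], map_add _ _ _⟩
      smul_mem' := by
        rintro o _ ⟨w, a, rfl⟩
        exact ⟨cc o • w, fun p hp => by rw [smul_comm, a p hp, smul_zero], ic o w⟩ }
  have ex : ∀ w : P022D.Fm.Mt (X.ev u) K, ∃ w' ∈ X.E.Y (P022D.Rep.XS U.bn Cc S).v, tu w' = ι w := fun w => by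
    obtain ⟨w', h1, h2⟩ := hK (show K from w).2
    exact ⟨w', hS h1, congrArg Subtype.val h2⟩
  have h0 : ∀ w, U.ϖ • ι w = 0 := fun w => by
    obtain ⟨w', -, e⟩ := ex w
    exact e ▸ (tu_mem w').2
  have ft : ∀ w, P w → ∀ g, ((X.t g • ((show K from w) : U.GG M) : U.GG M) : P022D.Fm.AM O M) =
      (U.L.r g).trace • ι w := fun w hw g => by
    have e := hw (tt g - cc (U.L.r g).trace) (by simp [mT, ev0, tt, cc])
    rw [sub_smul, sub_eq_zero] at e
    rw [← ic, ← e, sm, ev_tt]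
  have fd : ∀ w, P w → ∀ g, (((X.d g : U.B M) • ((show K from w) : U.GG M) : U.GG M) : P022D.Fm.AM O M) =
      ι w := fun w hw g => by
    have e := hw (dd g - cc (U.L.r g).det) (by simp [mT, ev0, dd, cc])
    rw [sub_smul, sub_eq_zero] at e
    rw [← ev_dd u, ← sm, e, ic, sm_eq hU.ok hU.uni (b := 1) (by rw [red_det hU.ok, map_one]) (h0 w),
      one_smul]
  have fy : ∀ w, P w → ∀ j, rt O _ (dg 1 (b' j)) (ι w) = ι w := fun w hw j => by
    have e := congrArg ι (hw (yy j) (by simp [mT, ev0, yy]))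
    rw [sm, ev_yy, sub_smul, one_smul, map_zero, Submodule.coe_sub, (hu j).1, sub_eq_zero] at e
    exact e
  suffices h : ∃ s : Finset (P022D.Fm.AM O M), s.card ≤ b ∧ Submodule.span O (s : Set _) = Xs by
    obtain ⟨s, s1, s2⟩ := h
    exact sb2_of ι inj cc ic P (fun _ _ => smul_zero _) s s1
      (fun x hx => show x ∈ Xs from s2 ▸ Submodule.subset_span hx)
      (fun w hw => s2.symm ▸ (⟨w, hw, rfl⟩ : ι w ∈ Xs))
  have eN := NS_CS hU S
  have dN : NS U S ∣ U.N := ⟨_, eN⟩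
  have oN : Odd (NS U S) := A.odd.of_dvd_nat (dN.trans ⟨_, A.eq⟩)
  by_cases h3 : 3 ≤ NS U S
  · haveI : NeZero (NS U S) := ⟨oN.pos.ne'⟩
    let c := ((ZMod.unitOfCoprime _ (cop_NS hU S).symm)⁻¹ : (ZMod (NS U S))ˣ)
    have he : CS U S * (c : ZMod (NS U S)).val ≡ 1 [MOD NS U S] := by
      rw [← ZMod.natCast_eq_natCast_iff, Nat.cast_mul, ZMod.natCast_zmod_val,
        ← ZMod.coe_unitOfCoprime _ (cop_NS hU S).symm, Units.mul_inv, Nat.cast_one]
    refine hb M U.N (NS U S) U.i (c : ZMod (NS U S)).val (List.ofFn q) (U.z ^ CS U S) U.ϖ ∅ hU.ok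
      hU.uni A.odd A.eq' dN h3 A.nodup (List.forall_mem_ofFn_iff.2 A.pr) List.length_ofFn ?_
      (ZMod.val_coe_unit_coprime c) Xs ?_ ?_ ?_ ?_
    · rw [map_pow, hU.z, eN]
      refine Cyc.ze_pw oN.pos.ne' fun h => A.odd.pos.ne' ?_
      rw [A.eq, eN, h, mul_zero, zero_mul]
    · rintro _ ⟨w, -, rfl⟩
      obtain ⟨w', h1, e⟩ := ex w
      rw [← e, List.prod_ofFn]
      exact ⟨⟨(w' : U.GG M).2.1, inv_XS hU A hX h1⟩, wh_XS hU A hX hc h1 he⟩
    · rintro _ ⟨w, -, rfl⟩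
      exact h0 w
    · rintro x y hx hy _ ⟨w, hw, rfl⟩
      obtain ⟨w', -, e⟩ := ex w
      have tq : ∀ x y : (ZMod M)ˣ, Cg M U.N x 1 → Cg M U.N y 1 →
          dg (x ^ 2 ^ n) (y ^ 2 ^ n) ∈ stH O (ι w) := fun x y hx hy => by
        rw [← e]
        exact mem_Iv.1 (tu_mem w').1.2 _ ⟨x, y, hx, hy, rfl⟩
      have b2 : ∀ j, dg 1 (b' j) ∈ stH O (ι w) := fy w hw
      have b1 : ∀ j, dg (b' j) 1 ∈ stH O (ι w) := fun j => by
        have e1 : dg (b' j) (b' j) ∈ stH O (ι w) :=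
          (hX.op.dI (q j) (lv.pr j).1 (fun h => by
            have := (A.sp j).1.odd.of_dvd_nat (Dvd.intro_left _ (A.sp j).1.eq.symm)
            rw [h] at this
            exact absurd this (by decide)) (τ j) (lv.ine j) (b' j) (lv.cyc j) _).symm.trans
            (fd w hw _)
        have e2 := (stH O (ι w)).mul_mem e1 ((stH O (ι w)).inv_mem (b2 j))
        rwa [show dg (b' j) (b' j) = dg (b' j) 1 * dg 1 (b' j) by rw [dg_mul, mul_one, one_mul],
          mul_inv_cancel_right] at e2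
      have k1 := A.mem ((stH O (ι w)).comap (dgl M)) b1 (fun j c h => by
        have := tq c 1 (Cyc.Cg.of_dvd h (A.sp j).2) Cyc.cg_one
        rwa [one_pow] at this) hx
      have k2 := A.mem ((stH O (ι w)).comap (dgr M)) b2 (fun j c h => by
        have := tq 1 c Cyc.cg_one (Cyc.Cg.of_dvd h (A.sp j).2)
        rwa [one_pow] at this) hy
      rw [show dg x y = dg x 1 * dg 1 y by rw [dg_mul, mul_one, one_mul]]
      exact (stH O (ι w)).mul_mem k1 k2
    · rintro p φ hp - hM hφ _ ⟨w, hw, rfl⟩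
      have e : P022D.Fm.uP (⟨p, hp, hM⟩ : PA M) = cl M p :=
        Units.ext ((ZMod.coe_unitOfCoprime _ _).trans (nd2 hp hM).2.symm)
      rw [← e]
      exact ⟨(hX.op.frT ⟨p, hp, hM⟩ φ hφ _).symm.trans (ft w hw φ),
        (hX.op.frS ⟨p, hp, hM⟩ φ hφ _).symm.trans (fd w hw φ)⟩
  · have e1 : NS U S = 1 := by
      obtain ⟨k, hk⟩ := oN
      omega
    obtain ⟨l, hl, hτ⟩ := hU.W3.resolve_left fun ⟨l, hl⟩ => by
      have p := (hU.ok.pr l (Finset.mem_union_left _ hl)).1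
      exact p.one_lt.ne' (Nat.dvd_one.1 (e1 ▸ ((hU.NW l p).2 hl).mul_right _))
    have hl' := Finset.mem_union_right U.L.W hl
    obtain ⟨g, hg⟩ := unit_tr hU.ok hl (s := U.L.τ l)
    refine ⟨∅, Nat.zero_le _, ?_⟩
    rw [Finset.coe_empty, Submodule.span_empty]
    refine ((Submodule.eq_bot_iff _).2 ?_).symm
    rintro _ ⟨w, hw, rfl⟩
    obtain ⟨w', h1, e⟩ := ex w
    have sp := spC hU A ⟨l, hl⟩
    have m : ι w ∈ Iv O (RD O) (Kq M (M / l)) := mem_Iv.2 fun h hh => by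
      rw [← e]
      refine mem_Iv.1 (inv_XS hU A hX h1) h (kq_mono ?_ hh)
      rw [e1, sp.2.1]
      exact Nat.mul_dvd_mul_right (one_dvd _) _
    have e2 := congrArg Subtype.val (hX.op.ur _ l sp.1 (U.L.τ l)
      ⟨_, (hU.ok.hP l hl').1, (hU.ok.hP l hl').2, (hU.ok.tm l hl').tau⟩ _ m g)
    have e3 := (ft w hw _).symm.trans (e2.trans (ft w hw g))
    rw [← sub_eq_zero, ← sub_smul] at e3
    exact hg.smul_eq_zero.1 e3

end Vale.Agent.P022F.Fm.Sb

namespace Vale.Agent.P022F.Fm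

open Vale.Agent.P022D.V Vale.Agent.P022F.V Vale.Agent.P022D.As Vale.Agent.P022F.As

variable {O F : Type} [CommRing O] [IsLocalRing O] [Co O] [Field F] [CharP F 2] {U : Su O F}
  [hC : ∀ l : U.L.C, Fact l.1.Prime] {Cc : ∀ l : U.L.C, P022D.Rep.Ch (ZMod l.1) F}

/-- row SBR -/
theorem sbr [Finite F] (hE : GEN O) (hD : DIV O) (hP : PAR O) (hV : DESCV O) (hG : P022D.Gt.GT O)
    (hU : U.Ok) (hc : U.IsCh Cc) : SBR U Cc := fun r => by
  obtain ⟨b, hb⟩ := Sb.sb hE hD hP hV hG hU r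
  exact ⟨b, fun n q P i => hb n P.M q P.b P.τ P.lv P.X P.ok P.u P.dia Cc hc i _ fun _ h => h.1⟩

end Vale.Agent.P022F.Fm
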