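import Vale.Agent.P022F.Fm.Asm
import Vale.Agent.P022F.Fm.Hc
import Vale.Agent.P022F.Fm.Prj
import Vale.Agent.P022F.Fm.GopC
import Vale.Agent.P022F.Fm.Dia
import Vale.Agent.P022F.Fm.ChR
import Vale.Agent.P022F.Fm.Ac0
import Vale.Agent.P022F.Fm.Dic
import Vale.Agent.P022F.Fm.Cls
import Vale.Agent.P022F.Fm.Gmr
import Vale.Agent.P022F.Fm.Cut
import Vale.Agent.P022F.Fm.Hz
import Vale.Agent.P022F.Fm.Dvw
import Vale.Agent.P022F.Fm.Nwf
import Vale.Agent.P022F.Fm.FibZ
import Vale.Agent.P022F.Fm.Dt0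
import Vale.Agent.P022F.Fm.Sb
import Vale.Agent.P022F.Fm.Nonv
import Vale.Agent.P022F.Fm.Bigr
import Vale.Agent.P022D.Nw.All
import Vale.Agent.P022F.Ns

/-!
# P022D, forms side: all rows from the last ones
-/

set_option linter.all false

noncomputable section

namespace Vale.Agent.P022F.Fm

theorem rw_of {O F : Type} [CommRing O] [IsDomain O] [IsDiscreteValuationRing O] [P022D.Core.Coef O]
    [P022D.V.Co O] [Field F] [Finite F] [CharP F 2] {U : Su O F} [∀ l : U.L.C, Fact l.1.Prime]
    (hU : U.Ok) {Cc : ∀ l : U.L.C, P022D.Rep.Ch (ZMod l.1) F} (hc : U.IsCh Cc) (nz : NZ0 U) :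
    Rw U Cc := by
  have hH := hcC hU
  have lq := lqC hU
  have dia := diaC hU
  have cls := clsC hU
  have dic := dicC hU hc hH
  have cut := cutC hU hH lq
  have hz := hzC hU lq dic dia nz cut
  have gt := Gt.gt0 O
  have nw := P022D.Nw.newdC O
  have sb := sbr (P022D.V.All.gen O) (P022D.V.All.div O) (P022D.V.par O) (P022D.V.All.descv O) gt hU hc
  have gop := gopC hU
  have red := redC hU hc (dvwC hU hc hH lq (dv0C hU) cut nz)
  exact
    { hc := hH
      gop := gop
      lq := lq
      act := Ac.actH hU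
      gmr := gmrC hU hH lq cls dia
      dia := dia
      exf := exfH dia hz
      red := red
      cyf := cyfC hU cls
      urf := urf6 hU lq dic
      nwf := nwfC hU nw gt lq dic hz
      fib := fibC hU gt gop dia cls Cc
      dsc := dscC hU gt gop dia cls
      sbr := sb
      dt0 := dt0C hU cls red
      big := bigrC hU nz cut hz sb (nonvC hU Cc) }

/-- **the forms side from the row `NZ0`** -/
theorem forms_nz (h : ∀ (O F : Type) [CommRing O] [IsDomain O] [IsDiscreteValuationRing O]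
    [P022D.Core.Coef O] [P022D.V.Co O] [Field F] [Finite F] [CharP F 2] (U : Su O F)
    [∀ l : U.L.C, Fact l.1.Prime], U.Ok → NZ0 U) : FORMS :=
  forms_of fun O F _ _ _ _ _ _ _ _ U _ hU => ⟨chC hU, fun _ hc => rw_of hU hc (h O F U hU)⟩

end Vale.Agent.P022F.Fm
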