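import Vale.Agent.P022F.Fm.Defs
import Vale.Agent.P022D.Gt.Nat
import Vale.Agent.P027M.F.Tra
import Vale.Agent.P022F.Ns
import Vale.Agent.P022F.Sel.Defs

/-!
# P022D, forms side: existence of the Galois operators
-/

set_option linter.all false

open Matrix IsLocalRing
open scoped MatrixGroups NumberField Pointwise

noncomputable section

namespace Vale.Agent.P022F.Fm

open Vale.Agent.P022 Vale.Agent.P022D.V Vale.Agent.P022F.V Vale.Agent.P022.H853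
open Vale.Agent.P022D.G (Wd wT wS Inert)
open Vale.Agent.P027M.S (mx)

namespace OpP

theorem frob_cj {l : ℕ} (hl : l.Prime) {φ φ' : GQ} (h : IsFrob l φ) (h' : IsFrob l φ') :
    ∃ g s, Inert l s ∧ g * φ * g⁻¹ = s * φ' := by
  obtain ⟨P, hP, h1, h2⟩ := h
  obtain ⟨Q, hQ, h3, h4⟩ := h'
  obtain ⟨g, rfl⟩ := P027M.F.Tra.trans hl hP hQ h1 h3
  refine ⟨g, g * φ * g⁻¹ * φ'⁻¹, ⟨_, hQ, h3, fun x => ?_⟩, by rw [inv_mul_cancel_right]⟩
  have h6 := Ideal.smul_mem_pointwise_smul g _ P (h2 (g⁻¹ • φ'⁻¹ • x))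
  have h7 := h4 (φ'⁻¹ • x)
  rw [smul_sub, smul_pow', smul_inv_smul] at h6
  rw [smul_inv_smul] at h7
  have h8 := Ideal.sub_mem _ h6 h7
  rw [sub_sub_sub_cancel_right] at h8
  rw [mul_smul, mul_smul, mul_smul]
  exact h8

theorem fr_frob {l : ℕ} (hl : l.Prime) : IsFrob l (P022D.Fm.fr l) :=
  Classical.epsilon_spec (H20.exists_isFrob hl)

theorem cy_eq {M : ℕ} [NeZero M] {g : GQ} {x : ℕ} {u : (ZMod M)ˣ} (h : P022D.Fm.Cy M g x)
    (hu : (u : ZMod M) = x) : cyc M g = u := by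
  have z := zt_prim M
  have h4 := (cyc_spec g z.pow_eq_one).symm.trans (h _ z.pow_eq_one)
  obtain ⟨w, hw⟩ := z.isUnit (NeZero.ne _)
  rw [← hw] at h4 z
  have h5 : w ^ (cyc M g : ZMod M).val = w ^ x := by
    apply Units.ext
    push_cast
    exact h4
  rw [pow_eq_pow_iff_modEq, ← (IsPrimitiveRoot.coe_units_iff.1 z).eq_orderOf] at h5
  apply Units.ext
  rw [hu, ← ZMod.natCast_zmod_val ((cyc M g : (ZMod M)ˣ) : ZMod M)]
  exact (ZMod.natCast_eq_natCast_iff _ _ _).2 h5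

theorem cy_dvd {n m : ℕ} (hd : n ∣ m) {g : GQ} {x : ℕ} (h : P022D.Fm.Cy m g x) : P022D.Fm.Cy n g x := fun ζ e => by
  obtain ⟨k, rfl⟩ := hd
  exact h ζ (by rw [pow_mul, e, one_pow])

theorem tf_mat {A : Type} [CommRing A] (r : GQ →* Matrix (Fin 2) (Fin 2) A) (φ : GQ) (k : ℕ) :
    (r (φ ^ (k + 2))).trace = (r φ).trace * (r (φ ^ (k + 1))).trace - (r φ).det * (r (φ ^ k)).trace := by
  rw [pow_succ, pow_succ, map_mul, map_mul]
  simp only [Matrix.trace_fin_two, Matrix.det_fin_two, Matrix.mul_apply, Fin.sum_univ_two]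
  ring

section fin

variable {O F : Type} [CommRing O] [Field F]

theorem fin_quo [IsDomain O] [IsDiscreteValuationRing O] [Finite F] (red : O →+* F)
    (ker : ∀ c, red c = 0 ↔ c ∈ maximalIdeal O) {c : O} (hc : c ≠ 0) :
    Finite (O ⧸ Ideal.span {c}) := by
  haveI : Finite (O ⧸ maximalIdeal O) := by
    have e : maximalIdeal O = RingHom.ker red := Ideal.ext fun c => (ker c).symm
    rw [e]
    exact Finite.of_injective _ (RingHom.kerLift_injective red)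
  obtain ⟨π, hπ⟩ := IsDiscreteValuationRing.exists_irreducible O
  obtain ⟨n, u, e⟩ := IsDiscreteValuationRing.eq_unit_mul_pow_irreducible hc hπ
  haveI := Ideal.finite_quotient_pow (IsNoetherian.noetherian (maximalIdeal O)) n
  have h : maximalIdeal O ^ n ≤ Ideal.span {c} := by
    rw [hπ.maximalIdeal_eq, Ideal.span_singleton_pow, Ideal.span_singleton_le_span_singleton, e]
    exact (Units.mul_left_dvd).2 dvd_rfl
  exact Finite.of_surjective _ (Ideal.Quotient.factor_surjective h)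

theorem fin_span {V : Type} [AddCommGroup V] [Module O V]
    (hq : ∀ a : ℕ, Finite (O ⧸ Ideal.span {(2 : O) ^ a})) {s : Set V} (hs : s.Finite)
    (h : ∀ v ∈ s, ∃ a : ℕ, 2 ^ a • v = 0) : (Submodule.span O s : Set V).Finite := by
  induction s, hs using Set.Finite.induction_on with
  | empty => simp
  | @insert x s _ _ ih =>
    obtain ⟨a, ha⟩ := h x (Set.mem_insert _ _)
    haveI := hq a
    have h1 : (Set.range fun c : O => c • x).Finite := by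
      refine (Set.finite_range fun c : O ⧸ Ideal.span {(2 : O) ^ a} => c.out • x).subset ?_
      rintro _ ⟨c, rfl⟩
      refine ⟨Ideal.Quotient.mk _ c, ?_⟩
      obtain ⟨b, hb⟩ := Ideal.mem_span_singleton'.1
        (Ideal.Quotient.eq.1 (Ideal.Quotient.mk_out (Ideal.Quotient.mk (Ideal.span {(2 : O) ^ a}) c)))
      beta_reduce
      rw [← sub_eq_zero, ← sub_smul, ← hb, mul_smul, ← Nat.cast_ofNat, ← Nat.cast_pow,
        Nat.cast_smul_eq_nsmul, ha, smul_zero]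
    refine (Set.Finite.image2 (· + ·) h1 (ih fun v hv => h v (Set.mem_insert_of_mem _ hv))).subset ?_
    intro v hv
    obtain ⟨c, z, hz, rfl⟩ := Submodule.mem_span_insert.1 hv
    exact ⟨_, ⟨c, rfl⟩, z, hz, rfl⟩

theorem inj_of {V : Type} [AddCommGroup V] [Module O V] {T : Module.End O V} {a : O}
    (ha : IsUnit a) {v : V} (h : v ∈ P022D.Fm.Nl (T - algebraMap O _ a)) (e : T v = 0) : v = 0 := by
  obtain ⟨k, hk⟩ := P022D.Fm.mem_Nl.1 h
  have : ∀ k : ℕ, ((T - algebraMap O (Module.End O V) a) ^ k) v = (-a) ^ k • v := fun k => by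
    induction k with
    | zero => simp
    | succ k ih =>
      rw [pow_succ', Module.End.mul_apply, ih, map_smul, LinearMap.sub_apply, e, zero_sub,
        Module.algebraMap_end_apply, ← neg_smul, smul_smul, pow_succ]
  rw [this] at hk
  exact (ha.neg.pow k).smul_eq_zero.1 hk

theorem Nl_map {V V' : Type} [AddCommGroup V] [Module O V] [AddCommGroup V'] [Module O V']
    {e : Module.End O V} {e' : Module.End O V'} (f : V →+ V') (h : ∀ v, f (e v) = e' (f v)) {v : V}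
    (k : ℕ) : f ((e ^ k) v) = (e' ^ k) (f v) := by
  induction k with
  | zero => rfl
  | succ k ih => rw [pow_succ', pow_succ', Module.End.mul_apply, Module.End.mul_apply, h, ih]

/-- a vector on which `T - a` is nilpotent is periodic -/
theorem per {V : Type} [AddCommGroup V] [Module O V]
    (hq : ∀ a : ℕ, Finite (O ⧸ Ideal.span {(2 : O) ^ a})) {T : Module.End O V} {a : O}
    (ha : IsUnit a) {v : V} (h : v ∈ P022D.Fm.Nl (T - algebraMap O _ a)) {b : ℕ} (hb : 2 ^ b • v = 0) :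
    ∃ n, 0 < n ∧ (T ^ n) v = v := by
  set n := T - algebraMap O (Module.End O V) a with hn
  obtain ⟨k, hk⟩ := P022D.Fm.mem_Nl.1 h
  let s : Set V := Set.range fun j : ℕ => (n ^ j) v
  have hs : s.Finite := by
    refine ((Set.finite_range fun j : Fin k => (n ^ j.1) v).insert 0).subset ?_
    rintro _ ⟨j, rfl⟩
    by_cases hj : j < k
    · exact Or.inr ⟨⟨j, hj⟩, rfl⟩
    · obtain ⟨c, rfl⟩ := Nat.exists_eq_add_of_le' (not_lt.1 hj)
      exact Or.inl (by beta_reduce; rw [pow_add, Module.End.mul_apply, hk, map_zero])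
  let A := Submodule.span O s
  haveI : Finite A := fin_span hq hs (by
    rintro _ ⟨j, rfl⟩
    exact ⟨b, by beta_reduce; rw [← map_nsmul, hb, map_zero]⟩)
  have hA : ∀ w ∈ A, T w ∈ A := by
    refine fun w hw => (Submodule.span_le.2 ?_ : A ≤ A.comap T) hw
    rintro _ ⟨j, rfl⟩
    have e : T ((n ^ j) v) = (n ^ (j + 1)) v + a • (n ^ j) v := by
      rw [pow_succ', Module.End.mul_apply, hn, LinearMap.sub_apply, Module.algebraMap_end_apply,
        sub_add_cancel]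
    change T ((n ^ j) v) ∈ A
    rw [e]
    exact A.add_mem (Submodule.subset_span ⟨_, rfl⟩) (A.smul_mem _ (Submodule.subset_span ⟨_, rfl⟩))
  have hl : A ≤ P022D.Fm.Nl n := by
    refine Submodule.span_le.2 ?_
    rintro _ ⟨j, rfl⟩
    exact P022D.Fm.mem_Nl.2 ⟨k, by
      beta_reduce; rw [← Module.End.mul_apply, ← pow_add, add_comm, pow_add, Module.End.mul_apply,
        hk, map_zero]⟩
  have hi : Function.Injective (T.restrict hA) := (injective_iff_map_eq_zero _).2 fun w hw =>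
    Subtype.ext (inj_of ha (hl w.2) (congrArg Subtype.val hw))
  obtain ⟨m, hm, e⟩ := hi.mem_periodicPts ⟨v, Submodule.subset_span ⟨0, rfl⟩⟩
  refine ⟨m, hm, ?_⟩
  have e2 := congrArg Subtype.val e
  rw [← Module.End.pow_apply] at e2
  exact (Nl_map (e := T.restrict hA) (e' := T) A.subtype.toAddMonoidHom (fun _ => rfl) m).symm.trans e2

end fin

variable {O F : Type} [CommRing O] [Co O] [Field F] {M : ℕ}

theorem bw_T (i : ℕ) (ℓ : PA M) : P022D.Fm.bw O M i (wT ℓ) = T2 O (RD O) i ℓ.1 (P022D.Fm.uP ℓ) :=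
  FreeAlgebra.lift_ι_apply _ _

theorem bw_S (i : ℕ) (ℓ : PA M) : P022D.Fm.bw O M i (wS ℓ) = S2 O (RD O) i ℓ.1 (P022D.Fm.uP ℓ) :=
  FreeAlgebra.lift_ι_apply _ _

theorem uP_coe (ℓ : PA M) : (P022D.Fm.uP ℓ : ZMod M) = ℓ.1 := ZMod.coe_unitOfCoprime _ _

theorem uP_cl (ℓ : PA M) : P022D.Fm.uP ℓ = P022D.Gt.cl M ℓ.1 :=
  Units.ext ((uP_coe ℓ).trans (P022D.Gt.nd2 ℓ.2.1 ℓ.2.2).2.symm)

theorem bw_ind {i : ℕ} (p : Module.End O (P022D.Fm.AM O M) → Prop) (p0 : ∀ c : O, p (algebraMap O _ c))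
    (pa : ∀ a b, p a → p b → p (a + b)) (pm : ∀ a b, p a → p b → p (a * b))
    (pf : ∀ ℓ : PA M, p (T2 O (RD O) i ℓ.1 (P022D.Fm.uP ℓ)) ∧ p (S2 O (RD O) i ℓ.1 (P022D.Fm.uP ℓ))) (Q : Wd M) :
    p (P022D.Fm.bw O M i Q) := by
  induction Q using FreeAlgebra.induction with
  | grade0 r =>
    have := p0 (r : O)
    rwa [map_intCast, ← map_intCast (P022D.Fm.bw O M i), ← eq_intCast (algebraMap ℤ (Wd M))] at this
  | grade1 s =>
    cases s with
    | inl ℓ => exact (bw_T (O := O) i ℓ).symm ▸ (pf ℓ).1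
    | inr ℓ => exact (bw_S (O := O) i ℓ).symm ▸ (pf ℓ).2
  | mul x y hx hy => rw [map_mul]; exact pm _ _ hx hy
  | add x y hx hy => rw [map_add]; exact pa _ _ hx hy

theorem HA_ind {N i : ℕ} (p : Module.End O (P022D.Fm.AM O M) → Prop) (p0 : ∀ c : O, p (algebraMap O _ c))
    (pa : ∀ a b, p a → p b → p (a + b)) (pm : ∀ a b, p a → p b → p (a * b))
    (pf : ∀ ℓ : PA M, p (T2 O (RD O) i ℓ.1 (P022D.Fm.uP ℓ)) ∧ p (S2 O (RD O) i ℓ.1 (P022D.Fm.uP ℓ)))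
    (pd : ∀ a d : (ZMod M)ˣ, P022D.V.Cg M N a d → p (P022D.Fm.rD O (dg a d))) {h : Module.End O (P022D.Fm.AM O M)}
    (hh : h ∈ P022D.Fm.HA O M N i) : p h := by
  induction hh using Algebra.adjoin_induction with
  | mem x hx =>
    rcases hx with ⟨Q, rfl⟩ | ⟨a, d, c, rfl⟩
    · exact bw_ind p p0 pa pm pf Q
    · exact pd a d c
  | algebraMap r => exact p0 r
  | add x y _ _ hx hy => exact pa _ _ hx hy
  | mul x y _ _ hx hy => exact pm _ _ hx hy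

theorem cm_HA (N i : ℕ) : P022D.Fm.cm (P022D.Fm.HA O M N i) = P022D.Fm.HA O M N i := by
  have k : ∀ x : Module.End O (P022D.Fm.AM O M), (∀ ℓ : PA M, Commute x (T2 O (RD O) i ℓ.1 (P022D.Fm.uP ℓ)) ∧
      Commute x (S2 O (RD O) i ℓ.1 (P022D.Fm.uP ℓ))) → (∀ a d, Commute x (P022D.Fm.rD O (dg a d))) →
      ∀ h ∈ P022D.Fm.HA O M N i, Commute x h := fun x h1 h2 h hh =>
    HA_ind (Commute x) (fun c => (Algebra.commutes c x).symm) (fun _ _ => Commute.add_right)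
      (fun _ _ => Commute.mul_right) h1 (fun a d _ => h2 a d) hh
  have r1 : ∀ (g : GM M) (ℓ : PA M), Commute (P022D.Fm.rD O g) (T2 O (RD O) i ℓ.1 (P022D.Fm.uP ℓ)) ∧
      Commute (P022D.Fm.rD O g) (S2 O (RD O) i ℓ.1 (P022D.Fm.uP ℓ)) := fun g ℓ =>
    ⟨LinearMap.ext fun w => rt_T2 g i _ _ w, LinearMap.ext fun w => rt_S2 g i _ _ w⟩
  refine P022D.Fm.cm_eq fun a ha b hb => (k a (fun ℓ => ⟨(k _ (fun ℓ' => ⟨T2_comm i ℓ.2.1 ℓ'.2.1 (uP_coe ℓ)
    (uP_coe ℓ'), T2_S2_comm _ _ _ _ _ _⟩) (fun a d => (r1 _ ℓ).1.symm) a ha).symm,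
    (k _ (fun ℓ' => ⟨(T2_S2_comm _ _ _ _ _ _).symm, S2_comm _ _ _ _ _ _⟩)
      (fun a d => (r1 _ ℓ).2.symm) a ha).symm⟩) (fun x y => (k _ (r1 _) (fun x' y' =>
        LinearMap.ext fun w => ?_) a ha).symm) b hb).eq
  change rt O (RD O) _ (rt O (RD O) _ w) = rt O (RD O) _ (rt O (RD O) _ w)
  rw [rt_rt, rt_rt, dg_comm]

theorem mem_Pm {A : Type} [AddCommGroup A] [Module O A] {β : Wd M →+* Module.End O A}
    {a : Gen M → O} {S : Finset ℕ} {v : A} : v ∈ P022D.Fm.Pm β a S ↔ ∀ ℓ : PA M, ℓ.1 ∉ S →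
      v ∈ P022D.Fm.Nl (β (wT ℓ) - algebraMap O _ (a (Sum.inl ℓ))) ∧
      v ∈ P022D.Fm.Nl (β (wS ℓ) - algebraMap O _ (a (Sum.inr ℓ))) := by
  simp only [P022D.Fm.Pm, Submodule.mem_iInf, Submodule.mem_inf]

theorem Nl_nat {A A' : Type} [AddCommGroup A] [Module O A] [AddCommGroup A'] [Module O A']
    {e : Module.End O A} {e' : Module.End O A'} (f : A →ₗ[O] A') (h : ∀ v, f (e v) = e' (f v))
    (c : O) {v : A} (k : ℕ) :
    f (((e - algebraMap O _ c) ^ k) v) = ((e' - algebraMap O _ c) ^ k) (f v) :=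
  Nl_map f.toAddMonoidHom (fun v => by
    change f _ = (e' - algebraMap O _ c) (f v)
    rw [LinearMap.sub_apply, LinearMap.sub_apply, map_sub, h, Module.algebraMap_end_apply,
      Module.algebraMap_end_apply, map_smul]) k

/-- what commutes with the Hecke operators preserves the primary part -/
theorem Pm_map {i : ℕ} {a : Gen M → O} {S : Finset ℕ} {f : Module.End O (P022D.Fm.AM O M)}
    (h : ∀ ℓ : PA M, Commute f (T2 O (RD O) i ℓ.1 (P022D.Fm.uP ℓ)) ∧ Commute f (S2 O (RD O) i ℓ.1 (P022D.Fm.uP ℓ)))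
    {v : P022D.Fm.AM O M} (hv : v ∈ P022D.Fm.Pm (P022D.Fm.bw O M i) a S) : f v ∈ P022D.Fm.Pm (P022D.Fm.bw O M i) a S := by
  rw [mem_Pm] at hv ⊢
  intro ℓ hl
  obtain ⟨x, y⟩ := hv ℓ hl
  obtain ⟨k, hk⟩ := P022D.Fm.mem_Nl.1 x
  obtain ⟨m, hm⟩ := P022D.Fm.mem_Nl.1 y
  rw [bw_T] at hk ⊢
  rw [bw_S] at hm ⊢
  exact ⟨P022D.Fm.mem_Nl.2 ⟨k, by rw [← Nl_nat f (P022D.Gt.cm_app (h ℓ).1), hk, map_zero]⟩,
    P022D.Fm.mem_Nl.2 ⟨m, by rw [← Nl_nat f (P022D.Gt.cm_app (h ℓ).2), hm, map_zero]⟩⟩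

theorem XP_TS (hK : HKV O) (U : Su O F) (hM : Odd M) (S : Finset ℕ) (ℓ : PA M) {v : P022D.Fm.AM O M}
    (hv : v ∈ U.XP M S) : T2 O (RD O) U.i ℓ.1 (P022D.Fm.uP ℓ) v ∈ U.XP M S ∧
      S2 O (RD O) U.i ℓ.1 (P022D.Fm.uP ℓ) v ∈ U.XP M S := by
  have k := (hK M U.i ℓ.1 (P022D.Fm.uP ℓ) hM ℓ.2.1 (P022D.Gt.nd2 ℓ.2.1 ℓ.2.2).1 (uP_coe ℓ)).2.2 v hv.1
  exact ⟨⟨k.1, Pm_map (fun ℓ' => ⟨T2_comm _ ℓ.2.1 ℓ'.2.1 (uP_coe ℓ) (uP_coe ℓ'),
      T2_S2_comm _ _ _ _ _ _⟩) hv.2⟩,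
    ⟨k.2, Pm_map (fun ℓ' => ⟨(T2_S2_comm _ _ _ _ _ _).symm, S2_comm _ _ _ _ _ _⟩) hv.2⟩⟩

section ok

variable [IsLocalRing O] {U : Su O F} (hU : U.Ok)
include hU

theorem notT {l : ℕ} (hN : U.N ∣ M) (hl : l.Prime) (h : ¬ l ∣ 2 * M) : l ∉ U.S.T := by
  rw [hU.ok.hT]
  simp only [Finset.mem_insert, Finset.mem_union, not_or]
  refine ⟨hl.ne_zero, fun e => h (e ▸ dvd_mul_right 2 M), fun e => h ?_, fun e => h ?_⟩
  · exact ((((hU.NW l hl).2 e).mul_right _).trans hN).mul_left 2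
  · exact (((hU.NC ▸ Finset.dvd_prod_of_mem (fun l => l) e : l ∣ U.NC).mul_left _).trans hN).mul_left 2

theorem tr_fr {l : ℕ} (hl : l.Prime) (h : l ∉ U.S.T) {φ : GQ} (hφ : IsFrob l φ) :
    U.tr (P022D.Fm.fr l) = U.tr φ ∧ U.dt (P022D.Fm.fr l) = U.dt φ := by
  obtain ⟨g, s, hs, e⟩ := frob_cj hl hφ (fr_frob hl)
  have e2 := congrArg U.L.r e
  rw [map_mul, map_mul, map_mul, hU.unr l hl h s hs, one_mul] at e2
  have e3 : U.L.r g⁻¹ * U.L.r g = 1 := by rw [← map_mul, inv_mul_cancel, map_one]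
  unfold Su.tr Su.dt
  rw [← e2]
  refine ⟨by rw [Matrix.trace_mul_cycle, e3, one_mul], ?_⟩
  rw [Matrix.det_mul, Matrix.det_mul, mul_right_comm, mul_comm (det _) (det (U.L.r g⁻¹)),
    ← Matrix.det_mul, e3, Matrix.det_one, one_mul]

theorem red_tr (g : GQ) : U.S.red (U.tr g) = (mx U.S.rb g).trace ∧
    U.S.red (U.dt g) = (mx U.S.rb g).det := by
  rw [← hU.ok.lift g]
  exact ⟨by rw [Su.tr, Matrix.trace_fin_two, Matrix.trace_fin_two, map_add]; rfl,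
    RingHom.map_det _ _⟩

theorem cg_of {g x : GQ} (h : U.S.rb g = U.S.rb x) :
    U.ϖ ∣ U.tr g - U.tr x ∧ U.ϖ ∣ U.dt g - U.dt x := by
  have e : mx U.S.rb g = mx U.S.rb x := by unfold mx; rw [h]
  exact ⟨hU.uni.dvd _ ((hU.ok.ker _).1 (by rw [map_sub, (red_tr hU g).1, (red_tr hU x).1, e, sub_self])),
    hU.uni.dvd _ ((hU.ok.ker _).1 (by rw [map_sub, (red_tr hU g).2, (red_tr hU x).2, e, sub_self]))⟩

theorem ex_l0 [CharP F 2] (S : Finset ℕ) :
    ∃ l : ℕ, l.Prime ∧ l ∉ S ∧ l ∉ U.S.T ∧ IsUnit (U.tr (P022D.Fm.fr l)) := by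
  classical
  obtain ⟨g, hne⟩ : ∃ g, mx U.S.rb g 0 0 ≠ mx U.S.rb g 1 1 := ⟨_, U.S.dne⟩
  obtain ⟨l, φ, k, hl, hS, hφ, hu⟩ := P022D.G.frob U.S.rb.ker inferInstance hU.ok.dh.opn g (S ∪ U.S.T)
  rw [Finset.mem_union, not_or] at hS
  refine ⟨l, hl, hS.1, hS.2, ?_⟩
  rw [(tr_fr hU hl hS.2 hφ).1]
  by_contra hn
  have h0 : U.S.red (U.tr φ) = 0 := (hU.ok.ker _).2 hn
  have key : ∀ k : ℕ, U.S.red (U.tr (φ ^ k)) = 0 ∧ U.S.red (U.tr (φ ^ (k + 1))) = 0 := fun k => by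
    induction k with
    | zero =>
      refine ⟨?_, by rw [zero_add, pow_one, h0]⟩
      rw [pow_zero, Su.tr, map_one, Matrix.trace_one, Fintype.card_fin, map_natCast]
      exact CharP.cast_eq_zero F 2
    | succ k ih =>
      refine ⟨ih.2, ?_⟩
      have a := ih.1
      unfold Su.tr at a h0 ⊢
      rw [tf_mat, map_sub, map_mul, map_mul, h0, a, zero_mul, mul_zero, sub_zero]
  have e : U.S.rb g = U.S.rb (φ ^ k) := by
    rw [MonoidHom.mem_ker, map_mul, map_inv, inv_mul_eq_one] at hu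
    exact hu
  have h1 := (key k).1
  have e2 : mx U.S.rb (φ ^ k) = mx U.S.rb g := by unfold mx; rw [e]
  rw [(red_tr hU _).1, e2, Matrix.trace_fin_two, CharTwo.add_eq_zero] at h1
  exact hne h1

end ok

end OpP

end Vale.Agent.P022F.Fm
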