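import Vale.Agent.P022F.Fm.Ac0
import Vale.Agent.P022F.Ns

/-!
# P022D, forms side: the two steps of the row NZ0 (statements)
-/

set_option linter.all false

noncomputable section

namespace Vale.Agent.P022F.Fm.Nm

open Vale.Agent.P022 Vale.Agent.P022D.V Vale.Agent.P022F.V Vale.Agent.P027M.M

variable {O F : Type} [CommRing O] [IsLocalRing O] [Co O] [Field F] [CharP F 2] (U : Su O F)

/-- the projector to the vectors which are Whittaker at the primes of `NW` -/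
def WHP : Prop := ∀ M, U.Lm M → ∃ e : Module.End O (P022D.Fm.AM O M), (∀ v, e v ∈ U.WhP M) ∧
  (∀ v ∈ U.WhP M, e v = v) ∧ (∀ v ∈ U.GG M, e v ∈ U.GG M) ∧
  (∀ g ∈ Kq M (M / U.NC), Commute e (P022D.Fm.rD O g)) ∧
  ∀ a d : (ZMod M)ˣ, P022D.V.Cg M U.N a d → Commute e (P022D.Fm.rD O (dg a d))

variable [hC : ∀ l : U.L.C, Fact l.1.Prime]

/-- invariants are norms, for a family of diagonal elements and a subgroup at the primes of `C` -/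
def HIGN : Prop := ∀ (M n : ℕ), U.Lm M → ∀ X : Dt U M n, X.Ok →
  ∀ (ι : Type) [Fintype ι] (p : ι → ℕ) (a d : ι → (ZMod M)ˣ) (u : ι → U.B M), (∀ s, p s ≠ 0) →
  (∀ s (w : U.Wb M n), (((u s • w : U.Wb M n) : U.GG M) : P022D.Fm.AM O M) =
    P022D.Fm.rD O (dg (a s) (d s)) (w : U.GG M)) →
  (∀ s, P022D.V.Cg M U.N (a s) (d s)) → (∀ s, P022D.V.Cg M U.NC (a s) 1) →
  (∀ s, dg (a s ^ p s) (d s ^ p s) ∈ U.TQ M n) →
  (∀ k : ι → ℕ, dg (∏ s, a s ^ k s) (∏ s, d s ^ k s) ∈ U.TQ M n → ∀ s, p s ∣ k s) →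
  ∀ (S : Subgroup (∀ l, U.Gam l)) (t : Finset (∀ l, U.Gam l)), (∀ γ, γ ∈ t ↔ γ ∈ S) →
  ∀ w : U.Wb M n, (∀ γ ∈ S, X.E.ρ γ w = w) → (∀ s, u s • w = w) →
  ∃ w' : U.Wb M n, w = (∏ s, ∑ j ∈ Finset.range (p s), u s ^ j) • ∑ γ ∈ t, X.E.ρ γ w'

end Vale.Agent.P022F.Fm.Nm
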