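import Vale.Agent.P022D.Fm.RaiseG
import Vale.Agent.P022F.Fm.Defs
import Vale.Agent.P027M.F.Tra
import Vale.Agent.P022F.Ns

/-!
# P022D, forms side: preparations for the non vanishing
-/

set_option linter.all false

noncomputable section

namespace Vale.Agent.P022F.Fm.Nz

open NumberField Vale.Agent.P022 Vale.Agent.P022D.V Vale.Agent.P022F.V Vale.Agent.P027M.M
open Vale.Agent.P027M.S (mx)
open scoped Pointwise

theorem frob_eq {A : Type} [CommRing A] (ρ : GQ →* Matrix (Fin 2) (Fin 2) A) {l : ℕ}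
    (hl : l.Prime) (hu : ∀ g, P022D.G.Inert l g → ρ g = 1) {φ φ' : GQ} (h : IsFrob l φ)
    (h' : IsFrob l φ') : (ρ φ).trace = (ρ φ').trace := by
  obtain ⟨P, hP, h1, h2⟩ := h
  obtain ⟨Q, hQ, h3, h4⟩ := h'
  obtain ⟨g, rfl⟩ := P027M.F.Tra.trans hl hP hQ h1 h3
  have h5 : ρ (g * φ * g⁻¹ * φ'⁻¹) = 1 := by
    refine hu _ ⟨_, hQ, h3, fun x => ?_⟩
    have h6 := Ideal.smul_mem_pointwise_smul g _ P (h2 (g⁻¹ • φ'⁻¹ • x))
    have h7 := h4 (φ'⁻¹ • x)
    rw [smul_sub, smul_pow', smul_inv_smul] at h6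
    rw [smul_inv_smul] at h7
    have h8 := Ideal.sub_mem _ h6 h7
    rw [sub_sub_sub_cancel_right] at h8
    rw [mul_smul, mul_smul, mul_smul]
    exact h8
  have h9 : ρ φ' = ρ g * ρ φ * ρ g⁻¹ := by
    rw [← map_mul, ← map_mul, ← one_mul (ρ φ'), ← h5, ← map_mul, inv_mul_cancel_right]
  rw [h9, Matrix.trace_mul_cycle, ← map_mul, inv_mul_cancel, map_one, one_mul]

theorem fr_frob {l : ℕ} (hl : l.Prime) : IsFrob l (P022D.Fm.fr l) :=
  Classical.epsilon_spec (H20.exists_isFrob hl)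

variable {F : Type} [Field F] {ρ : GQ →* GL (Fin 2) F} {H : Subgroup GQ}

theorem mx_mul (g h : GQ) : mx ρ (g * h) = mx ρ g * mx ρ h := by
  unfold mx
  rw [map_mul, Units.val_mul]

theorem tr_pow {A : Type} [CommRing A] (h2 : (2 : A) = 0) {X : Matrix (Fin 2) (Fin 2) A}
    (h : X.trace = 0) (k : ℕ) : (X ^ k).trace = 0 := by
  have e : X * X = (-X.det) • 1 := by
    rw [Matrix.trace_fin_two] at h
    ext i j
    fin_cases i <;> fin_cases j <;>
      simp [Matrix.mul_apply, Fin.sum_univ_two, Matrix.det_fin_two]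
    · linear_combination X 0 0 * h
    · linear_combination X 0 1 * h
    · linear_combination X 1 0 * h
    · linear_combination X 1 1 * h
  induction k using Nat.twoStepInduction with
  | zero => rw [pow_zero, Matrix.trace_one, Fintype.card_fin, Nat.cast_ofNat, h2]
  | one => rwa [pow_one]
  | more k a _ => rw [pow_add, sq, e, Matrix.mul_smul, mul_one, Matrix.trace_smul, a, smul_zero]

variable {O : Type} [CommRing O]

/-- an eigenvector of almost all Frobenius elements -/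
theorem eig_all {V : Type} [AddCommGroup V] [Module O V] {t d : GQ → Module.End O V}
    (law : P022D.G.Law t d) {π : O} {r : GQ →* Matrix (Fin 2) (Fin 2) O}
    (ho : IsOpen {g : GQ | (r g).map (Ideal.Quotient.mk (Ideal.span {π})) = 1}) {x : V}
    (x0 : π • x = 0) (S : Finset ℕ) (h : ∀ (p : ℕ) φ, p.Prime → p ∉ S → IsFrob p φ →
      t φ x = (r φ).trace • x ∧ d φ x = (r φ).det • x) (g : GQ) :
    t g x = (r g).trace • x ∧ d g x = (r g).det • x := by
  let φ : (O ⧸ Ideal.span {π}) →ₗ[O] V :=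
    Submodule.liftQ (Ideal.span {π}) (LinearMap.toSpanSingleton O _ x) (by
      rw [Ideal.span, Submodule.span_le, Set.singleton_subset_iff]
      exact x0)
  have hφ : ∀ c : O, φ (Ideal.Quotient.mk _ c) = c • x := fun c => rfl
  have key := (P022D.Fm.Rz.law_r π r ho).nat law φ.toAddMonoidHom S (fun p ψ hp hn hψ v => by
      obtain ⟨c, rfl⟩ := Ideal.Quotient.mk_surjective v
      obtain ⟨a, b⟩ := h p ψ hp hn hψ
      simp only [LinearMap.toAddMonoidHom_coe, LinearMap.smul_apply, Module.End.one_apply,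
        map_smul, hφ, a, b]
      exact ⟨smul_comm _ _ _, smul_comm _ _ _⟩) g (Ideal.Quotient.mk _ 1)
  simp only [LinearMap.toAddMonoidHom_coe, LinearMap.smul_apply, Module.End.one_apply,
    map_smul, hφ, one_smul] at key
  exact ⟨key.1.symm, key.2.symm⟩

theorem ze_pow {M N Q : ℕ} (hM : 0 < M) (e : M = N * Q) : ze M 1 ^ Q = ze N 1 := by
  have h1 : (N : ℂ) ≠ 0 := Nat.cast_ne_zero.2 fun z => by simp [e, z] at hM
  have h2 : (Q : ℂ) ≠ 0 := Nat.cast_ne_zero.2 fun z => by simp [e, z] at hM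
  unfold ze
  rw [← Complex.exp_nat_mul, e]
  congr 1
  push_cast
  field_simp

theorem ze_one {N : ℕ} (hN : 0 < N) : ze N 1 ^ N = 1 := by
  rw [ze_pow (N := 1) hN (one_mul N).symm]
  unfold ze
  simp

theorem pr_one {M l : ℕ} (h : l ∣ M) {g : GM M} (hg : g ∈ Kq M l) : pr h g = 1 := by
  apply Units.ext
  ext i j
  obtain ⟨y, hy⟩ := hg i j
  rw [pr_coe, hy, map_add, map_mul, map_natCast, ZMod.natCast_self, zero_mul, add_zero,
    Units.val_one, Matrix.one_apply, Matrix.one_apply]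
  split_ifs
  exacts [map_one _, map_zero _]

theorem un_K {M l : ℕ} {x : ℕ} (h : l ∣ x) : un (x : ZMod M) ∈ Kq M l := by
  obtain ⟨y, rfl⟩ := h
  exact (P022D.Fm.Rz.U_le_B ⟨y, by push_cast; rfl⟩).1

theorem un_dg {M : ℕ} (a : (ZMod M)ˣ) (y : ZMod M) : un ((a : ZMod M) * y) * dg a 1 = dg a 1 * un y := by
  apply Units.ext
  rw [Units.val_mul, Units.val_mul, un_coe, un_coe, dg_coe]
  ext i j
  fin_cases i <;> fin_cases j <;> simp [Matrix.mul_apply, Fin.sum_univ_two]

theorem pow_mod {A : Type} [Monoid A] {z : A} {n a b : ℕ} (hz : z ^ n = 1) (h : a ≡ b [MOD n]) :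
    z ^ a = z ^ b := by
  rw [pow_eq_pow_mod a hz, pow_eq_pow_mod b hz, h]

end Vale.Agent.P022F.Fm.Nz
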